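import Mathlib

/-!
P202, Lech in characteristic `p`, arbitrary residue extensions: ranks over domains.
-/

namespace Vale.Agent.P202.Ext

universe u v

open scoped TensorProduct

namespace Rank

variable {E : Type u} [CommRing E] [IsDomain E] [IsNoetherianRing E]

theorem finrank_exact {M₁ M₂ M₃ : Type v} [AddCommGroup M₁] [AddCommGroup M₂] [AddCommGroup M₃]
    [Module E M₁] [Module E M₂] [Module E M₃] [Module.Finite E M₂]
    (f : M₁ →ₗ[E] M₂) (g : M₂ →ₗ[E] M₃) (hf : Function.Injective f) (hg : Function.Surjective g)
    (he : Function.Exact f g) :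
    Module.finrank E M₂ = Module.finrank E M₁ + Module.finrank E M₃ := by
  have e₁ : Module.finrank E (LinearMap.range f) = Module.finrank E M₁ :=
    (LinearEquiv.ofInjective f hf).finrank_eq.symm
  have e₃ : Module.finrank E (M₂ ⧸ LinearMap.range f) = Module.finrank E M₃ :=
    ((Submodule.quotEquivOfEq _ _ he.linearMap_ker_eq.symm).trans
      (LinearMap.quotKerEquivOfSurjective g hg)).finrank_eq
  rw [← Submodule.finrank_quotient_add_finrank (LinearMap.range f), e₁, e₃, add_comm]

theorem finrank_of_killed {M : Type v} [AddCommGroup M] [Module E M] [Module.Finite E M] {g : E}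
    (hg : g ≠ 0) (h : ∀ m : M, g • m = 0) : Module.finrank E M = 0 :=
  Module.finrank_eq_zero_iff_isTorsion.2 fun {m} =>
    ⟨⟨g, mem_nonZeroDivisors_of_ne_zero hg⟩, h m⟩

theorem finrank_quotient_pos {S : Type v} [CommRing S] [Algebra E S] [Module.Finite E S]
    (hinj : ∀ a : E, algebraMap E S a = 0 → a = 0) : 0 < Module.finrank E S := by
  refine Nat.pos_of_ne_zero fun h => ?_
  obtain ⟨a, ha⟩ := @Module.finrank_eq_zero_iff_isTorsion.1 h (1 : S)
  refine nonZeroDivisors.ne_zero a.2 (hinj _ ?_)
  rw [Algebra.algebraMap_eq_smul_one]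
  exact ha

/-- Flat base change along an injective map of domains keeps the rank. -/
theorem finrank_baseChange {A : Type u} [CommRing A] [IsDomain A] [IsNoetherianRing A]
    [Algebra A E] [Module.Flat A E] (hinj : Function.Injective (algebraMap A E))
    (M : Type v) [AddCommGroup M] [Module A M] [Module.Finite A M] :
    Module.finrank E (E ⊗[A] M) = Module.finrank A M := by
  set r := Module.finrank A M with hr
  obtain ⟨v, hv⟩ := exists_linearIndependent_of_le_finrank (R := A) (M := M) (n := r) le_rfl
  set W := Submodule.span A (Set.range v)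
  have hW : Module.finrank A W = r := by
    rw [finrank_span_eq_card hv, Fintype.card_fin]
  have h0 : Module.finrank A (M ⧸ W) = 0 := by
    have := Submodule.finrank_quotient_add_finrank W
    omega
  have ht := Module.finrank_eq_zero_iff_isTorsion.1 h0
  obtain ⟨n, s, hs⟩ := Module.Finite.exists_fin (R := A) (M := M ⧸ W)
  choose a ha using fun i => @ht (s i)
  set g : A := ∏ i, (a i : A)
  have hg0 : g ≠ 0 := Finset.prod_ne_zero_iff.2 fun i _ => nonZeroDivisors.ne_zero (a i).2
  have hg : ∀ q : M ⧸ W, g • q = 0 := by
    intro q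
    obtain ⟨c, rfl⟩ := (Submodule.mem_span_range_iff_exists_fun A).1
      (hs ▸ trivial : q ∈ Submodule.span A (Set.range s))
    rw [Finset.smul_sum]
    refine Finset.sum_eq_zero fun i _ => ?_
    obtain ⟨b, hb⟩ := Finset.dvd_prod_of_mem (fun i => (a i : A)) (Finset.mem_univ i)
    have h1 : (a i : A) • s i = 0 := ha i
    rw [smul_comm, show g = b * (a i : A) from hb.trans (mul_comm _ _), mul_smul, h1, smul_zero,
      smul_zero]
  let f : E ⊗[A] W →ₗ[E] E ⊗[A] M := W.subtype.baseChange E
  have hf : Function.Injective f :=
    Module.Flat.lTensor_preserves_injective_linearMap (M := E) W.subtype Subtype.val_injective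
  let q : E ⊗[A] M →ₗ[E] E ⊗[A] (M ⧸ W) := W.mkQ.baseChange E
  have hq : Function.Surjective q := LinearMap.lTensor_surjective E (Submodule.mkQ_surjective W)
  have hex : Function.Exact f q :=
    lTensor_exact E (LinearMap.exact_subtype_mkQ W) (Submodule.mkQ_surjective W)
  have hzero : Module.finrank E (E ⊗[A] (M ⧸ W)) = 0 := by
    refine finrank_of_killed (g := algebraMap A E g)
      (fun h => hg0 (hinj (by rw [h, map_zero]))) fun x => ?_
    induction x using TensorProduct.induction_on with
    | zero => simp
    | add b c hb hc => rw [smul_add, hb, hc, add_zero]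
    | tmul e m => rw [algebraMap_smul, ← TensorProduct.tmul_smul, hg, TensorProduct.tmul_zero]
  let bW : Module.Basis (Fin r) A W := Module.Basis.span hv
  rw [finrank_exact f q hf hq hex, hzero, add_zero,
    Module.finrank_eq_card_basis (Algebra.TensorProduct.basis E bW), Fintype.card_fin]

end Rank

end Vale.Agent.P202.Ext
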