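import Vale.Agent.P202.Ext.FrobBase
import Vale.Agent.P202.Ext.Rank
import Vale.Agent.P202.Char.KoszulChi
import Vale.Agent.P202.Char.KoszulBase

/-!
P202, Lech in characteristic `p`, arbitrary residue extensions: Frobenius multiplies the Euler
characteristic of a complex over `B ⊗[A] R` by `q ^ D` (`frobenius_ext`).

`A` is a domain, `R` a finite `A`-algebra, `B` a flat `A`-algebra with flat Frobenius. The functor
`G N = chi (P.map psi ⊗ (TS ⊗[RS] N))` of finite `RS`-modules is additive and vanishes on torsion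
modules; on the Frobenius pullback of a module and on the module seen through `theta` it only
depends on the rank at each prime of `R` over zero.
-/

namespace Vale.Agent.P202.Ext

open IsLocalRing Vale.Agent.P202.Char Finset
open scoped TensorProduct

universe u

namespace Frob

section

variable (p k : ℕ) [Fact p.Prime] (A B R : Type u) [CommRing A] [CommRing B] [CharP B p]
  [CharP A p] [Algebra A B] [CommRing R] [Algebra A R]

/-- The Frobenius pullback of `R` to `A`. -/
abbrev RS := Fr p k A ⊗[A] R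

/-- Extension of the pullback to `B`. -/
noncomputable def rsHom : RS p k A R →+* TS p k A B R :=
  (Algebra.TensorProduct.map (IsScalarTower.toAlgHom A (Fr p k A) (Fr p k B))
    (AlgHom.id A R)).toRingHom

theorem rsHom_tmul (a : Fr p k A) (r : R) :
    rsHom p k A B R (a ⊗ₜ r) = algebraMap (Fr p k A) (Fr p k B) a ⊗ₜ[A] r := rfl

/-- `rsHom` as an algebra structure. -/
@[reducible] noncomputable def rsAlgebra : Algebra (RS p k A R) (TS p k A B R) :=
  (rsHom p k A B R).toAlgebra

/-- `psi` as an algebra structure. -/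
@[reducible] noncomputable def psiAlgebra : Algebra (B ⊗[A] R) (TS p k A B R) :=
  (psi p k A B R).toAlgebra

/-- `RS → R`, `a ⊗ r ↦ a r ^ q`. -/
noncomputable def theta [CharP R p] : RS p k A R →+* R :=
  let f : Fr p k A →ₐ[A] Fr p k R :=
    { toRingHom := (toFr p k).toRingHom.comp ((algebraMap A R).comp (toFr p k).symm.toRingHom)
      commutes' := fun a => by
        change algebraMap A R (algebraMap A A a ^ p ^ k) = algebraMap A R a ^ p ^ k
        rw [map_pow]
        rfl }
  (toFr p k).symm.toRingHom.comp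
    (Algebra.TensorProduct.lift f (IsScalarTower.toAlgHom A R (Fr p k R))
      (fun _ _ => mul_comm _ _)).toRingHom

theorem theta_tmul [CharP R p] (a : Fr p k A) (r : R) :
    theta p k A R (a ⊗ₜ r) = algebraMap A R ((toFr p k).symm a) * r ^ p ^ k := rfl

end

section Setting

variable {p k : ℕ} [Fact p.Prime] {A B R : Type u} [CommRing A] [CommRing B] [CharP B p]
  [CharP A p] [Algebra A B] [CommRing R] [Algebra A R]

attribute [local instance] Algebra.TensorProduct.rightAlgebra rsAlgebra psiAlgebra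

instance rsTower : IsScalarTower (Fr p k A) (RS p k A R) (TS p k A B R) :=
  IsScalarTower.of_algebraMap_eq fun _ => rfl

instance psiTower : IsScalarTower B (B ⊗[A] R) (TS p k A B R) :=
  IsScalarTower.of_algebraMap_eq fun b => by
    change _ = psi p k A B R (b ⊗ₜ 1)
    rw [psi_tmul]
    rfl

theorem isPushout_psi :
    Algebra.IsPushout B (Fr p k B) (B ⊗[A] R) (TS p k A B R) :=
  Algebra.IsPushout.tensorProduct_tensorProduct A R B (Fr p k B) (RingHom.ext fun r => by
    change psi p k A B R (1 ⊗ₜ r) = _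
    rw [psi_tmul, one_pow, map_one]
    rfl)

theorem isPushout_rs :
    Algebra.IsPushout (Fr p k A) (Fr p k B) (RS p k A R) (TS p k A B R) :=
  Algebra.IsPushout.tensorProduct_tensorProduct A R (Fr p k A) (Fr p k B) (RingHom.ext fun r => by
    change rsHom p k A B R (1 ⊗ₜ r) = _
    rw [rsHom_tmul, map_one]
    rfl)

theorem flat_psi (hflat : (iterateFrobenius B p k).Flat) :
    Module.Flat (B ⊗[A] R) (TS p k A B R) :=
  have : Module.Flat B (Fr p k B) := hflat
  Module.Flat.isBaseChange (R := B) (S := B ⊗[A] R) (M := Fr p k B)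
    (TS p k A B R) (isPushout_psi (p := p) (k := k) (A := A) (B := B) (R := R)).symm.out

theorem flat_rs [hAB : Module.Flat A B] : Module.Flat (RS p k A R) (TS p k A B R) :=
  have : Module.Flat (Fr p k A) (Fr p k B) :=
    RingHom.flat_algebraMap_iff.1
      (RingHom.flat_algebraMap_iff.2 hAB : (algebraMap A B).Flat)
  Module.Flat.isBaseChange (R := Fr p k A) (S := RS p k A R) (M := Fr p k B)
    (TS p k A B R) (isPushout_rs (p := p) (k := k) (A := A) (B := B) (R := R)).symm.out

theorem flat_rho (hflatA : (iterateFrobenius A p k).Flat) : Module.Flat R (RS p k A R) :=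
  have : Module.Flat A (Fr p k A) := hflatA
  Module.Flat.isBaseChange (R := A) (S := R) (M := Fr p k A) (RS p k A R)
    (inferInstance : Algebra.IsPushout A R (Fr p k A) (RS p k A R)).out

theorem rho_theta [CharP R p] (u : RS p k A R) :
    algebraMap R (RS p k A R) (theta p k A R u) = u ^ p ^ k := by
  have hR : Nontrivial R :=
    CharP.nontrivial_of_char_ne_one (R := R) (Fact.out (p := p.Prime)).ne_one
  have : Nontrivial (RS p k A R) := ⟨0, 1, fun h => zero_ne_one (α := R) (by
    simpa using congrArg (theta p k A R) h)⟩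
  have : CharP (RS p k A R) p :=
    (CharP.charP_iff_prime_eq_zero (Fact.out (p := p.Prime))).mpr (by
      rw [← map_natCast (algebraMap (Fr p k A) (RS p k A R)), CharP.cast_eq_zero, map_zero])
  induction u using TensorProduct.induction_on with
  | zero => simp [zero_pow (pow_pos (Fact.out (p := p.Prime)).pos k).ne']
  | add a b ha hb => rw [map_add, map_add, ha, hb, add_pow_char_pow]
  | tmul a r =>
    rw [theta_tmul, Algebra.TensorProduct.tmul_pow]
    change (1 : Fr p k A) ⊗ₜ[A] (algebraMap A R ((toFr p k).symm a) * r ^ p ^ k) = _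
    rw [← Algebra.smul_def, ← TensorProduct.smul_tmul, Algebra.smul_def, mul_one]
    rfl

theorem rho_algebraMap (a : A) :
    algebraMap R (RS p k A R) (algebraMap A R a) =
      algebraMap (Fr p k A) (RS p k A R) (toFr p k (a ^ p ^ k)) := by
  change (1 : Fr p k A) ⊗ₜ[A] algebraMap A R a = _ ⊗ₜ[A] (1 : R)
  rw [Algebra.algebraMap_eq_smul_one, ← TensorProduct.smul_tmul, Algebra.smul_def, mul_one]
  rfl

theorem theta_algebraMap [CharP R p] (a : Fr p k A) :
    theta p k A R (algebraMap (Fr p k A) (RS p k A R) a) =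
      algebraMap A R ((toFr p k).symm a) := by
  rw [Algebra.TensorProduct.algebraMap_apply, Algebra.algebraMap_self_apply, theta_tmul, one_pow,
    mul_one]

theorem psi_algebraMap (a : A) :
    psi p k A B R (algebraMap A (B ⊗[A] R) a) =
      algebraMap (RS p k A R) (TS p k A B R)
        (algebraMap (Fr p k A) (RS p k A R) (toFr p k (a ^ p ^ k))) := by
  rw [Algebra.TensorProduct.algebraMap_apply, psi_tmul]
  change _ = rsHom p k A B R (toFr p k (a ^ p ^ k) ⊗ₜ[A] 1)
  rw [rsHom_tmul]
  congr 1
  change algebraMap A B a ^ p ^ k = algebraMap A B (a ^ p ^ k)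
  rw [map_pow]

theorem thetaB_rs [CharP R p] [CharP (B ⊗[A] R) p] (w : RS p k A R) :
    thetaB p k A B R (algebraMap (RS p k A R) (TS p k A B R) w) =
      (1 : B) ⊗ₜ[A] theta p k A R w := by
  induction w using TensorProduct.induction_on with
  | zero => simp
  | add a b ha hb => rw [map_add, map_add, ha, hb, map_add, TensorProduct.tmul_add]
  | tmul a r =>
    change thetaB p k A B R (rsHom p k A B R (a ⊗ₜ r)) = _
    rw [rsHom_tmul, thetaB_tmul, theta_tmul, ← Algebra.smul_def, ← TensorProduct.smul_tmul,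
      Algebra.smul_def, mul_one]
    rfl

/-- The Euler characteristic of the twisted complex on an extended module. -/
noncomputable def G (P : MCx (B ⊗[A] R)) (D : ℕ) (N : Type u) [AddCommGroup N]
    [Module (RS p k A R) N] : ℤ :=
  ((P.map (psi p k A B R)).gc (TS p k A B R ⊗[RS p k A R] N)).chi (Icc 0 (D : ℤ)) ⊥ ⊤

variable [IsDomain A] [IsNoetherianRing A] [IsNoetherianRing B] [Module.Finite A R]
  [IsLocalRing (B ⊗[A] R)] [IsNoetherianRing (B ⊗[A] R)] [CharP (B ⊗[A] R) p]

instance : IsNoetherianRing (TS p k A B R) := IsNoetherianRing.of_finite (Fr p k B) _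

instance : IsNoetherianRing (RS p k A R) := IsNoetherianRing.of_finite (Fr p k A) _

theorem isLocalHom_psi : letI := isLocalRing_TS p k A B R; IsLocalHom (psi p k A B R) :=
  ⟨fun t ht => by
    have := ht.map (thetaB p k A B R)
    rw [thetaB_psi] at this
    exact isUnit_pow_iff (pow_pos (Fact.out (p := p.Prime)).pos k).ne' |>.1 this⟩

theorem exists_pow_le_psi : letI := isLocalRing_TS p k A B R;
    ∃ c, maximalIdeal (TS p k A B R) ^ c ≤ (maximalIdeal (B ⊗[A] R)).map (psi p k A B R) := by
  have := isLocalRing_TS p k A B R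
  refine Ideal.exists_pow_le_of_le_radical_of_fg (fun u hu => ⟨p ^ k, ?_⟩)
    (maximalIdeal (TS p k A B R)).fg_of_isNoetherianRing
  rw [← psi_thetaB]
  refine Ideal.mem_map_of_mem _ ((mem_maximalIdeal _).2 fun h => (mem_maximalIdeal _).1 hu ?_)
  have := h.map (psi p k A B R)
  rw [psi_thetaB] at this
  exact isUnit_pow_iff (pow_pos (Fact.out (p := p.Prime)).pos k).ne' |>.1 this

theorem residue_TS (hres : Function.Surjective
      ((residue (B ⊗[A] R)).comp (algebraMap B (B ⊗[A] R)))) :
    letI := isLocalRing_TS p k A B R;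
    Function.Surjective ((residue (TS p k A B R)).comp (algebraMap (Fr p k B) (TS p k A B R))) := by
  have := isLocalRing_TS p k A B R
  intro y
  obtain ⟨u, rfl⟩ := residue_surjective y
  obtain ⟨b, hb⟩ := hres (residue _ (thetaB p k A B R u))
  refine ⟨toFr p k b, ?_⟩
  rw [RingHom.comp_apply, ← sub_eq_zero, ← map_sub, residue_eq_zero_iff, mem_maximalIdeal,
    mem_nonunits_iff]
  intro h
  have h1 := h.map (thetaB p k A B R)
  rw [map_sub, Algebra.TensorProduct.algebraMap_apply, Algebra.algebraMap_self_apply, thetaB_tmul,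
    one_pow] at h1
  rw [RingHom.comp_apply, ← sub_eq_zero, ← map_sub, residue_eq_zero_iff, mem_maximalIdeal,
    mem_nonunits_iff] at hb
  exact hb h1

/-- What is needed of the complex. -/
structure Good (p k : ℕ) [Fact p.Prime] (A B R : Type u) [CommRing A] [CommRing B] [CharP B p]
    [Algebra A B] [CommRing R] [Algebra A R] [IsLocalRing (B ⊗[A] R)]
    (P : MCx (B ⊗[A] R)) (D : ℕ) : Prop where
  deg_le : ∀ b, P.deg b ≤ D
  null : ∀ z ∈ maximalIdeal (B ⊗[A] R), ∃ M, P.IsNullHtpic (z ^ M)
  small : ∀ (T' : Type u) [CommRing T'] [IsLocalRing T'] [IsNoetherianRing T']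
    (ψ : B ⊗[A] R →+* T'), (∃ c, maximalIdeal T' ^ c ≤ (maximalIdeal (B ⊗[A] R)).map ψ) →
    ∀ g : A, g ≠ 0 → ∀ (M : Type u) [AddCommGroup M] [Module T' M] [Module.Finite T' M],
    (∀ m : M, ψ (algebraMap A (B ⊗[A] R) g) • m = 0) →
    ((P.map ψ).gc M).chi (Finset.Icc 0 (D : ℤ)) ⊥ ⊤ = 0

variable {P : MCx (B ⊗[A] R)} {D : ℕ} (hP : Good p k A B R P D)

include hP

theorem finH_psi (M : Type u) [AddCommGroup M] [Module (TS p k A B R) M]
    [Module.Finite (TS p k A B R) M] (n : ℤ) : ((P.map (psi p k A B R)).gc M).FinH ⊥ ⊤ n := by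
  have := isLocalRing_TS p k A B R
  obtain ⟨c, hc⟩ := exists_pow_le_psi (p := p) (k := k) (A := A) (B := B) (R := R)
  obtain ⟨s, hs⟩ := (maximalIdeal (B ⊗[A] R)).fg_of_isNoetherianRing
  choose N hN using fun z : s => hP.null z (hs ▸ Submodule.subset_span z.2)
  -- a common exponent on generators
  set e := ∑ z, N z + 1
  have hI : (maximalIdeal (B ⊗[A] R)).map (psi p k A B R) ≤
      (Ideal.span (Set.range fun z : s => psi p k A B R (z : B ⊗[A] R) ^ N z)).radical := by
    rw [← hs, Ideal.map_span, Ideal.span_le]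
    rintro _ ⟨z, hz, rfl⟩
    exact ⟨N ⟨z, hz⟩, Ideal.subset_span ⟨⟨z, hz⟩, rfl⟩⟩
  obtain ⟨c', hc'⟩ := Ideal.exists_pow_le_of_le_radical_of_fg hI (Ideal.fg_of_isNoetherianRing _)
  refine finH_of_null _ _ (c := c * c') ((pow_mul _ c c').le.trans
    ((Ideal.pow_right_mono hc c').trans hc')) (fun z hz => ⟨1, ?_⟩) M n
  rw [pow_one]
  induction hz using Submodule.span_induction with
  | mem x hx =>
    obtain ⟨z, rfl⟩ := hx
    dsimp only
    rw [← map_pow]
    exact (hN z).map _
  | zero => exact ⟨0, fun a b h => absurd rfl h, by simp⟩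
  | add x y _ _ hx hy =>
    obtain ⟨h₁, hd₁, he₁⟩ := hx
    obtain ⟨h₂, hd₂, he₂⟩ := hy
    refine ⟨h₁ + h₂, fun a b h => ?_, by rw [mul_add, add_mul, add_smul, ← he₁, ← he₂]; abel⟩
    by_cases h0 : h₁ a b = 0
    · rw [Matrix.add_apply, h0, zero_add] at h
      exact hd₂ a b h
    · exact hd₁ a b h0
  | smul r x _ hx =>
    obtain ⟨h₁, hd₁, he₁⟩ := hx
    refine ⟨r • h₁, fun a b h => hd₁ a b fun h0 => h (by simp [h0]), ?_⟩
    rw [Matrix.mul_smul, Matrix.smul_mul, ← smul_add, he₁, smul_smul, smul_eq_mul]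

variable [Module.Flat A B]

theorem G_add {N₁ N₂ N₃ : Type u} [AddCommGroup N₁] [AddCommGroup N₂] [AddCommGroup N₃]
    [Module (RS p k A R) N₁] [Module (RS p k A R) N₂] [Module (RS p k A R) N₃]
    [Module.Finite (RS p k A R) N₁] [Module.Finite (RS p k A R) N₃]
    (f : N₁ →ₗ[RS p k A R] N₂) (g : N₂ →ₗ[RS p k A R] N₃) (hf : Function.Injective f)
    (hg : Function.Surjective g) (he : Function.Exact f g) :
    G (p := p) (k := k) P D N₂ = G (p := p) (k := k) P D N₁ + G (p := p) (k := k) P D N₃ := by
  have := isLocalRing_TS p k A B R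
  have := flat_rs (p := p) (k := k) (A := A) (B := B) (R := R)
  exact (chi_additive (P.map (psi p k A B R)) (d := D) hP.deg_le _ _ _
    (f.baseChange (TS p k A B R)) (g.baseChange (TS p k A B R))
    (Module.Flat.lTensor_preserves_injective_linearMap f hf) (LinearMap.lTensor_surjective _ hg)
    (lTensor_exact _ he hg) (finH_psi hP _) (finH_psi hP _)).2

theorem G_congr {N₁ N₂ : Type u} [AddCommGroup N₁] [AddCommGroup N₂]
    [Module (RS p k A R) N₁] [Module (RS p k A R) N₂] [Module.Finite (RS p k A R) N₁]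
    (e : N₁ ≃ₗ[RS p k A R] N₂) :
    G (p := p) (k := k) P D N₁ = G (p := p) (k := k) P D N₂ := by
  have h0 := G_add hP (0 : PUnit.{u + 1} →ₗ[RS p k A R] PUnit.{u + 1})
    (0 : PUnit.{u + 1} →ₗ[RS p k A R] PUnit.{u + 1}) (Function.injective_of_subsingleton _)
    (Function.surjective_to_subsingleton _)
    (fun z => ⟨fun _ => ⟨z, Subsingleton.elim _ _⟩, fun _ => Subsingleton.elim _ _⟩)
  have h1 := G_add hP e.toLinearMap (0 : N₂ →ₗ[RS p k A R] PUnit.{u + 1}) e.injective
    (Function.surjective_to_subsingleton _)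
    ((e.toLinearMap.exact_zero_iff_surjective _).2 e.surjective)
  omega

omit [Module.Flat A B] in
theorem G_killed (N : Type u) [AddCommGroup N] [Module (RS p k A R) N]
    [Module.Finite (RS p k A R) N] {g : Fr p k A} (hg : g ≠ 0)
    (h : ∀ x : N, algebraMap (Fr p k A) (RS p k A R) g • x = 0) :
    G (p := p) (k := k) P D N = 0 := by
  have := isLocalRing_TS p k A B R
  refine hP.small (TS p k A B R) (psi p k A B R) exists_pow_le_psi ((toFr p k).symm g)
    (fun h0 => hg (by simpa using congrArg (toFr p k) h0)) _ fun m => ?_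
  rw [psi_algebraMap]
  induction m using TensorProduct.induction_on with
  | zero => rw [smul_zero]
  | add a b ha hb => rw [smul_add, ha, hb, add_zero]
  | tmul t x =>
    rw [TensorProduct.smul_tmul', smul_eq_mul, ← Algebra.smul_def, TensorProduct.smul_tmul,
      show toFr p k ((toFr p k).symm g ^ p ^ k) = g ^ p ^ k from rfl, map_pow]
    obtain ⟨j, hj⟩ : ∃ j, p ^ k = j + 1 :=
      ⟨p ^ k - 1, (Nat.sub_add_cancel (Nat.one_le_pow k p (Fact.out (p := p.Prime)).pos)).symm⟩
    rw [hj, pow_succ, mul_smul, h, smul_zero, TensorProduct.tmul_zero]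

end Setting

section Setting2

variable {p k : ℕ} [Fact p.Prime] {A B R : Type u} [CommRing A] [CommRing B] [CharP B p]
  [CharP A p] [Algebra A B] [CommRing R] [Algebra A R]

attribute [local instance] Algebra.TensorProduct.rightAlgebra rsAlgebra psiAlgebra

omit [Fact p.Prime] in
/-- Matrix complexes along a local map with trivial residue extension. -/
theorem chi_restrict {E F : Type u} [CommRing E] [CommRing F] [IsLocalRing E] [IsLocalRing F]
    [Algebra E F] [IsLocalHom (algebraMap E F)]
    (hres : Function.Surjective ((residue F).comp (algebraMap E F))) (Q : MCx E)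
    (M : Type u) [AddCommGroup M] [Module E M] [Module F M] [IsScalarTower E F M] (t : Finset ℤ) :
    (Q.gc M).chi t ⊥ ⊤ = ((Q.map (algebraMap E F)).gc M).chi t ⊥ ⊤ := by
  set C := Q.gc M
  let C' : GC F (Q.β → M) := (Q.map (algebraMap E F)).gc M
  have hD : ∀ v, C'.D v = C.D v := by
    intro v
    funext b
    refine (MCx.dlin_apply (Q.map (algebraMap E F)) M v b).trans ?_
    refine Eq.trans ?_ (MCx.dlin_apply Q M v b).symm
    change ∑ c : Q.β, algebraMap E F (Q.D b c) • v c = _
    exact Finset.sum_congr rfl fun c _ => algebraMap_smul F _ _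
  have hdeg : ∀ i v, v ∈ C'.deg i ↔ v ∈ C.deg i := fun i v =>
    (mem_pi_deg (R := F) (fun b : Q.β => (Q.deg b : ℤ)) i v).trans
      (mem_pi_deg (R := E) (fun b : Q.β => (Q.deg b : ℤ)) i v).symm
  have key : ∀ i, Module.length E (C.H ⊥ ⊤ i) = Module.length F (C'.H ⊥ ⊤ i) := fun i => by
    rw [← length_of_residue hres]
    have hc : ∀ v, v ∈ C.cyc ⊥ ⊤ i ↔ v ∈ C'.cyc ⊥ ⊤ i := fun v => by
      simp only [GC.cyc, Submodule.mem_inf, Submodule.mem_top, true_and, Submodule.mem_comap,
        Submodule.mem_bot, hD, hdeg]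
    have hb : ∀ v, v ∈ C.bd ⊥ ⊤ i ↔ v ∈ C'.bd ⊥ ⊤ i := fun v => by
      simp only [GC.bd, bot_inf_eq, sup_bot_eq, top_inf_eq, Submodule.mem_map, hD, hdeg]
    let e : C.cyc ⊥ ⊤ i ≃ₗ[E] C'.cyc ⊥ ⊤ i :=
      { toFun := fun v => ⟨v.1, (hc _).1 v.2⟩
        invFun := fun v => ⟨v.1, (hc _).2 v.2⟩
        map_add' := fun _ _ => rfl
        map_smul' := fun _ _ => rfl
        left_inv := fun _ => rfl
        right_inv := fun _ => rfl }
    refine ((Submodule.Quotient.equiv _
      (((C'.bd ⊥ ⊤ i).comap (C'.cyc ⊥ ⊤ i).subtype).restrictScalars E) e ?_).trans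
        (Submodule.Quotient.restrictScalarsEquiv E _)).length_eq
    ext v
    constructor
    · rintro ⟨w, hw, rfl⟩
      exact (hb _).1 hw
    · exact fun hv => ⟨e.symm v, (hb _).2 hv, e.apply_symm_apply v⟩
  unfold GC.chi
  exact sum_congr rfl fun i _ => by simp only [GC.h, len, key i]; rfl

omit [Fact p.Prime] in
/-- A map onto a residue field is local. -/
theorem isLocalHom_of_residue {E F : Type u} [CommRing E] [CommRing F] [IsLocalRing E]
    [IsLocalRing F] (f : E →+* F) (hres : Function.Surjective ((residue F).comp f)) :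
    IsLocalHom f :=
  ⟨fun a ha => by
    by_contra h
    have hk := IsLocalRing.eq_maximalIdeal (RingHom.ker_isMaximal_of_surjective _ hres)
    have h1 : a ∈ RingHom.ker ((residue F).comp f) := hk ▸ (mem_maximalIdeal a).2 h
    exact (residue_ne_zero_iff_isUnit _).2 ha h1⟩

variable [IsDomain A] [IsNoetherianRing A] [IsLocalRing B] [IsNoetherianRing B] [Module.Finite A R]
  [IsLocalRing (B ⊗[A] R)] [IsNoetherianRing (B ⊗[A] R)] [CharP (B ⊗[A] R) p]

theorem length_psi_fibre {D : ℕ}
    (hres : Function.Surjective ((residue (B ⊗[A] R)).comp (algebraMap B (B ⊗[A] R))))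
    (hflat : (iterateFrobenius B p k).Flat)
    (hlen : Module.length B (B ⧸ (maximalIdeal B).map (iterateFrobenius B p k)) =
      (((p ^ k) ^ D : ℕ) : ℕ∞)) :
    letI := isLocalRing_TS p k A B R;
    Module.length (TS p k A B R)
      (TS p k A B R ⧸ (maximalIdeal (B ⊗[A] R)).map (psi p k A B R)) =
        (((p ^ k) ^ D : ℕ) : ℕ∞) := by
  have := isLocalRing_TS p k A B R
  have h1 := residue_TS (p := p) (k := k) (A := A) (B := B) (R := R) hres
  have := isLocalHom_of_residue _ h1
  have := isLocalHom_of_residue _ hres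
  have : IsLocalHom (algebraMap B (Fr p k B)) := ⟨fun b hb =>
    isUnit_pow_iff (pow_pos (Fact.out (p := p.Prime)).pos k).ne' |>.1 hb⟩
  have : Module.Flat B (Fr p k B) := hflat
  have := isPushout_psi (p := p) (k := k) (A := A) (B := B) (R := R)
  set n := maximalIdeal (B ⊗[A] R)
  have hone : Module.length B ((B ⊗[A] R) ⧸ n) = 1 := by
    rw [length_of_residue hres]
    have : IsSimpleModule (B ⊗[A] R) ((B ⊗[A] R) ⧸ n) :=
      isSimpleModule_iff_isCoatom.2 (IsLocalRing.maximalIdeal.isMaximal _).out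
    exact Module.length_eq_one (B ⊗[A] R) _
  calc Module.length (TS p k A B R) (TS p k A B R ⧸ n.map (psi p k A B R))
      = Module.length (TS p k A B R) (TS p k A B R ⊗[B ⊗[A] R] ((B ⊗[A] R) ⧸ n)) :=
        (Algebra.TensorProduct.quotIdealMapEquivTensorQuot (TS p k A B R) n).toLinearEquiv.length_eq
    _ = Module.length (Fr p k B) (TS p k A B R ⊗[B ⊗[A] R] ((B ⊗[A] R) ⧸ n)) :=
        (length_of_residue h1 _).symm
    _ = Module.length (Fr p k B) (Fr p k B ⊗[B] ((B ⊗[A] R) ⧸ n)) :=
        (Algebra.IsPushout.cancelBaseChange B (Fr p k B) (B ⊗[A] R) (TS p k A B R)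
          ((B ⊗[A] R) ⧸ n)).length_eq
    _ = _ := by
        rw [IsLocalRing.length_baseChange, hone, one_mul]
        exact hlen

variable {P : MCx (B ⊗[A] R)} {D : ℕ} (hP : Good p k A B R P D) [Module.Flat A B]

include hP

/-- The value on the pullback of `R`. -/
theorem G_RS
    (hres : Function.Surjective ((residue (B ⊗[A] R)).comp (algebraMap B (B ⊗[A] R))))
    (hflat : (iterateFrobenius B p k).Flat)
    (hlen : Module.length B (B ⧸ (maximalIdeal B).map (iterateFrobenius B p k)) =
      (((p ^ k) ^ D : ℕ) : ℕ∞)) :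
    G (p := p) (k := k) P D (RS p k A R) =
      ((p : ℤ) ^ k) ^ D * (P.gc (B ⊗[A] R)).chi (Icc 0 (D : ℤ)) ⊥ ⊤ := by
  have := isLocalRing_TS p k A B R
  have : IsLocalHom (algebraMap (B ⊗[A] R) (TS p k A B R)) := isLocalHom_psi
  have := flat_psi (p := p) (k := k) (A := A) (B := B) (R := R) hflat
  let e : TS p k A B R ⊗[RS p k A R] RS p k A R ≃ₗ[TS p k A B R]
      TS p k A B R ⊗[B ⊗[A] R] (B ⊗[A] R) :=
    (TensorProduct.AlgebraTensorModule.rid _ _ _).trans
      (TensorProduct.AlgebraTensorModule.rid (B ⊗[A] R) (TS p k A B R) (TS p k A B R)).symm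
  have h := chi_map_semi (P.map (psi p k A B R)) (RingHom.id _) Function.surjective_id e.toAddEquiv
    (fun r m => e.map_smul r m) (Icc 0 (D : ℤ))
  refine h.trans ?_
  unfold GC.chi
  rw [mul_sum]
  refine sum_congr rfl fun i _ => ?_
  have key : Module.length (TS p k A B R)
      (((P.map (psi p k A B R)).gc (TS p k A B R ⊗[B ⊗[A] R] (B ⊗[A] R))).H ⊥ ⊤ i) =
        Module.length (B ⊗[A] R) ((P.gc (B ⊗[A] R)).H ⊥ ⊤ i) * (((p ^ k) ^ D : ℕ) : ℕ∞) := by
    refine (BC.length_H (TS p k A B R) P (B ⊗[A] R) i).trans ?_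
    rw [IsLocalRing.length_baseChange]
    exact congrArg (_ * ·) (length_psi_fibre (D := D) hres hflat hlen)
  change (-1 : ℤ) ^ i.natAbs * ((Module.length (TS p k A B R)
      (((P.map (psi p k A B R)).gc (TS p k A B R ⊗[B ⊗[A] R] (B ⊗[A] R))).H ⊥ ⊤ i)).toNat : ℤ) =
    ((p : ℤ) ^ k) ^ D * ((-1 : ℤ) ^ i.natAbs *
      ((Module.length (B ⊗[A] R) ((P.gc (B ⊗[A] R)).H ⊥ ⊤ i)).toNat : ℤ))
  rw [key, ENat.toNat_mul, ENat.toNat_natCast]
  push_cast
  ring

end Setting2

section Setting3

variable {p k : ℕ} [Fact p.Prime] {A B R : Type u} [CommRing A] [CommRing B] [CharP B p]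
  [CharP A p] [Algebra A B] [CommRing R] [Algebra A R] [CharP R p]

attribute [local instance] Algebra.TensorProduct.rightAlgebra rsAlgebra psiAlgebra

/-- An `R`-module seen through `theta`. -/
def Th (p k : ℕ) (A R : Type u) (M : Type u) : Type u := M

instance {M : Type u} [i : AddCommGroup M] : AddCommGroup (Th p k A R M) := i

noncomputable instance {M : Type u} [AddCommGroup M] [i : Module R M] :
    Module (RS p k A R) (Th p k A R M) :=
  @Module.compHom R (RS p k A R) M _ _ i _ (theta p k A R)

/-- The identity. -/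
def toTh (p k : ℕ) (A R : Type u) {M : Type u} [AddCommGroup M] : M ≃+ Th p k A R M :=
  AddEquiv.refl M

theorem smul_toTh {M : Type u} [AddCommGroup M] [Module R M] (w : RS p k A R) (x : M) :
    w • toTh p k A R x = toTh p k A R (theta p k A R w • x) := rfl

instance {M : Type u} [AddCommGroup M] [Module R M] [Module.Finite R M] [Module.Finite A R] :
    Module.Finite (RS p k A R) (Th p k A R M) := by
  classical
  let _ : Module A M := Module.compHom M (algebraMap A R)
  have : IsScalarTower A R M := ⟨fun a r x => by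
    change (a • r) • x = algebraMap A R a • r • x
    rw [Algebra.smul_def, mul_smul]⟩
  have : Module.Finite A M := Module.Finite.trans R M
  obtain ⟨n, s, hs⟩ := Module.Finite.exists_fin (R := A) (M := M)
  refine ⟨⟨Finset.univ.image (fun i => toTh p k A R (s i)), eq_top_iff.2 fun y _ => ?_⟩⟩
  obtain ⟨c, hc⟩ := (Submodule.mem_span_range_iff_exists_fun A).1
    (hs ▸ trivial : (toTh p k A R).symm y ∈ Submodule.span A (Set.range s))
  rw [← (toTh p k A R).apply_symm_apply y, ← hc, map_sum]
  refine sum_mem fun i _ => ?_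
  rw [show c i • s i = theta p k A R (algebraMap (Fr p k A) (RS p k A R) (toFr p k (c i))) • s i by
    rw [theta_algebraMap]; rfl, ← smul_toTh]
  exact Submodule.smul_mem _ _ (Submodule.subset_span (by simp))

/-- A linear map seen through `theta`. -/
noncomputable def thMap {M N : Type u} [AddCommGroup M] [AddCommGroup N] [Module R M] [Module R N]
    (f : M →ₗ[R] N) : Th p k A R M →ₗ[RS p k A R] Th p k A R N where
  toFun x := toTh p k A R (f ((toTh p k A R).symm x))
  map_add' x y := by simp
  map_smul' w x := f.map_smul (theta p k A R w) x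

/-- The same module over the base. -/
def Down (p k : ℕ) (A R : Type u) (N : Type u) : Type u := N

instance {N : Type u} [i : AddCommGroup N] : AddCommGroup (Down p k A R N) := i

instance {N : Type u} [AddCommGroup N] [i : Module (RS p k A R) N] :
    Module (RS p k A R) (Down p k A R N) := i

noncomputable instance {N : Type u} [AddCommGroup N] [i : Module (RS p k A R) N] :
    Module (Fr p k A) (Down p k A R N) :=
  @Module.compHom (RS p k A R) (Fr p k A) N _ _ i _ (algebraMap (Fr p k A) (RS p k A R))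

instance {N : Type u} [AddCommGroup N] [Module (RS p k A R) N] :
    IsScalarTower (Fr p k A) (RS p k A R) (Down p k A R N) :=
  ⟨fun a w x => by
    change (a • w) • x = algebraMap (Fr p k A) (RS p k A R) a • w • x
    rw [Algebra.smul_def, mul_smul]⟩

instance {N : Type u} [AddCommGroup N] [Module (RS p k A R) N] [Module.Finite (RS p k A R) N]
    [Module.Finite A R] : Module.Finite (Fr p k A) (Down p k A R N) :=
  have : Module.Finite (RS p k A R) (Down p k A R N) := ‹Module.Finite (RS p k A R) N›
  Module.Finite.trans (RS p k A R) (Down p k A R N)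

variable [IsDomain A] [IsNoetherianRing A] [IsLocalRing B] [IsNoetherianRing B] [Module.Finite A R]
  [IsLocalRing (B ⊗[A] R)] [IsNoetherianRing (B ⊗[A] R)] [CharP (B ⊗[A] R) p]

/-- The value on `R` seen through `theta`. -/
theorem G_theta (P : MCx (B ⊗[A] R)) (D : ℕ)
    (hres : Function.Surjective ((residue (B ⊗[A] R)).comp (algebraMap B (B ⊗[A] R)))) :
    G (p := p) (k := k) P D (Th p k A R R) =
      ((P.map (iterateFrobenius (B ⊗[A] R) p k)).gc (B ⊗[A] R)).chi (Icc 0 (D : ℤ)) ⊥ ⊤ := by
  have := isLocalRing_TS p k A B R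
  let _ : Algebra (TS p k A B R) (B ⊗[A] R) := (thetaB p k A B R).toAlgebra
  let _ : Algebra (RS p k A R) (B ⊗[A] R) :=
    ((thetaB p k A B R).comp (rsHom p k A B R)).toAlgebra
  have : IsScalarTower (RS p k A R) (TS p k A B R) (B ⊗[A] R) :=
    IsScalarTower.of_algebraMap_eq fun _ => rfl
  have hth : ∀ w, algebraMap (RS p k A R) (B ⊗[A] R) w = (1 : B) ⊗ₜ[A] theta p k A R w :=
    thetaB_rs (A := A) (B := B)
  let f : Th p k A R R →ₗ[RS p k A R] B ⊗[A] R :=
    { toFun := fun r => (1 : B) ⊗ₜ[A] ((toTh p k A R).symm r)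
      map_add' := fun r r' => by rw [map_add, TensorProduct.tmul_add]
      map_smul' := fun w r => by
        rw [Algebra.smul_def, hth, RingHom.id_apply, Algebra.TensorProduct.tmul_mul_tmul, one_mul]
        rfl }
  let L : TS p k A B R ⊗[RS p k A R] Th p k A R R →ₗ[TS p k A B R] B ⊗[A] R :=
    f.liftBaseChange (TS p k A B R)
  have hL : ∀ u r, L (u ⊗ₜ r) = thetaB p k A B R u * ((1 : B) ⊗ₜ[A] (toTh p k A R).symm r) :=
    fun u r => (LinearMap.liftBaseChange_tmul _ _ u r).trans (Algebra.smul_def u (f r))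
  let L' : B ⊗[A] R →+ TS p k A B R ⊗[RS p k A R] Th p k A R R :=
    TensorProduct.liftAddHom
      (AddMonoidHom.mk' (fun b => AddMonoidHom.mk'
          (fun r => ((toFr p k b ⊗ₜ[A] (1 : R) : TS p k A B R)) ⊗ₜ[RS p k A R] toTh p k A R r)
          (fun r r' => by rw [map_add, TensorProduct.tmul_add]))
        (fun b b' => AddMonoidHom.ext fun r => by
          simp only [AddMonoidHom.mk'_apply, AddMonoidHom.add_apply, map_add,
            TensorProduct.add_tmul]))
      (fun a b r => by
        simp only [AddMonoidHom.mk'_apply]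
        have h1 : toTh p k A R (a • r) =
            algebraMap (Fr p k A) (RS p k A R) (toFr p k a) • toTh p k A R r := by
          rw [smul_toTh, theta_algebraMap, Algebra.smul_def]
          rfl
        rw [h1, ← TensorProduct.smul_tmul]
        congr 1
        rw [algebraMap_smul, TensorProduct.smul_tmul', Algebra.smul_def, Algebra.smul_def]
        rfl)
  have h1 : ∀ x, L' (L x) = x := by
    intro x
    induction x using TensorProduct.induction_on with
    | zero => simp
    | add a b ha hb => rw [map_add, map_add, ha, hb]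
    | tmul u r =>
      rw [hL]
      induction u using TensorProduct.induction_on with
      | zero => rw [map_zero, zero_mul, map_zero, TensorProduct.zero_tmul]
      | add a b ha hb => rw [map_add, add_mul, map_add, ha, hb, TensorProduct.add_tmul]
      | tmul b r' =>
        rw [thetaB_tmul, Algebra.TensorProduct.tmul_mul_tmul, mul_one]
        change (b ⊗ₜ[A] (1 : R)) ⊗ₜ[RS p k A R] toTh p k A R (r' ^ p ^ k * _) = _
        have h2 : toTh p k A R (r' ^ p ^ k * (toTh p k A R).symm r) =
            ((1 : Fr p k A) ⊗ₜ[A] r') • r := by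
          conv_rhs => rw [← (toTh p k A R).apply_symm_apply r, smul_toTh, theta_tmul]
          rw [show (toFr p k).symm (1 : Fr p k A) = (1 : A) from rfl, map_one, one_mul]
          rfl
        rw [h2, ← TensorProduct.smul_tmul]
        congr 1
        rw [Algebra.smul_def]
        change rsHom p k A B R ((1 : Fr p k A) ⊗ₜ r') * (b ⊗ₜ[A] (1 : R)) = _
        rw [rsHom_tmul, map_one, Algebra.TensorProduct.tmul_mul_tmul, one_mul, mul_one]
  have h3 : ∀ t, L (L' t) = t := by
    intro t
    induction t using TensorProduct.induction_on with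
    | zero => simp
    | add a b ha hb => rw [map_add, map_add, ha, hb]
    | tmul b r =>
      change L ((toFr p k b ⊗ₜ[A] (1 : R) : TS p k A B R) ⊗ₜ[RS p k A R] toTh p k A R r) = _
      rw [hL, thetaB_tmul, one_pow, Algebra.TensorProduct.tmul_mul_tmul, one_mul,
        RingEquiv.symm_apply_apply, mul_one, AddEquiv.symm_apply_apply]
  let e : TS p k A B R ⊗[RS p k A R] Th p k A R R ≃ₗ[TS p k A B R] B ⊗[A] R :=
    LinearEquiv.ofBijective L
      ⟨Function.LeftInverse.injective h1, Function.RightInverse.surjective h3⟩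
  have h := chi_map_semi (P.map (psi p k A B R)) (RingHom.id _) Function.surjective_id e.toAddEquiv
    (fun u m => e.map_smul u m) (Icc 0 (D : ℤ))
  refine h.trans ?_
  have hs : Function.Surjective ((residue (B ⊗[A] R)).comp (algebraMap (TS p k A B R) (B ⊗[A] R))) := by
    intro y
    obtain ⟨b, hb⟩ := hres y
    refine ⟨toFr p k b ⊗ₜ[A] (1 : R), ?_⟩
    rw [← hb]
    change residue _ (thetaB p k A B R (toFr p k b ⊗ₜ[A] (1 : R))) = _
    rw [thetaB_tmul, one_pow]
    rfl
  have := isLocalHom_of_residue _ hs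
  refine (chi_restrict hs _ (B ⊗[A] R) _).trans ?_
  exact chi_map_congr P (φ := (thetaB p k A B R).comp (psi p k A B R))
    (ψ := iterateFrobenius (B ⊗[A] R) p k) (RingHom.ext fun t => thetaB_psi p k A B R t) _ _

variable {P : MCx (B ⊗[A] R)} {D : ℕ} (hP : Good p k A B R P D) [Module.Flat A B]

include hP

/-- On a prime over zero both pullbacks have the same value. -/
theorem G_prime (hflatA : (iterateFrobenius A p k).Flat) (𝔭 : Ideal R) [𝔭.IsPrime]
    (h𝔭 : ∀ a : A, algebraMap A R a ∈ 𝔭 → a = 0) :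
    G (p := p) (k := k) P D (RS p k A R ⊗[R] (R ⧸ 𝔭)) =
      G (p := p) (k := k) P D (Th p k A R (R ⧸ 𝔭)) := by
  have hq : p ^ k ≠ 0 := (pow_pos (Fact.out (p := p.Prime)).pos k).ne'
  set Pr : Ideal (RS p k A R) := 𝔭.comap (theta p k A R) with hPr
  set S₀ := RS p k A R ⧸ Pr
  set c := G (p := p) (k := k) P D S₀
  set r₀ := Module.finrank (Fr p k A) (Down p k A R S₀)
  have hr₀ : 0 < r₀ := by
    have : 0 < Module.finrank (Fr p k A) S₀ := Rank.finrank_quotient_pos fun a ha => by
      rw [← Ideal.Quotient.mk_comp_algebraMap] at ha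
      · rw [RingHom.comp_apply, Ideal.Quotient.eq_zero_iff_mem, hPr, Ideal.mem_comap,
          theta_algebraMap] at ha
        exact h𝔭 _ ha
    refine this.trans_eq ?_
    refine LinearEquiv.finrank_eq
      { (AddEquiv.refl S₀ : S₀ ≃+ Down p k A R S₀) with map_smul' := fun a x => ?_ }
    exact (algebraMap_smul (RS p k A R) a x).symm
  have hprop : ∀ (N : Type u) [AddCommGroup N] [Module (RS p k A R) N]
      [Module.Finite (RS p k A R) N],
      (∀ r ∈ 𝔭, ∀ x : N, algebraMap R (RS p k A R) r • x = 0) →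
        G (p := p) (k := k) P D N * r₀ = Module.finrank (Fr p k A) (Down p k A R N) * c := by
    intro N _ _ hN
    refine IsNoetherianRing.induction_on_isQuotientEquivQuotientPrime (RS p k A R) hN
      (motive := fun N _ _ _ => (∀ r ∈ 𝔭, ∀ x : N, algebraMap R (RS p k A R) r • x = 0) →
        G (p := p) (k := k) P D N * r₀ = Module.finrank (Fr p k A) (Down p k A R N) * c) ?_ ?_ ?_
    · intro N _ _ _ _ _
      have : Subsingleton (Down p k A R N) := ‹Subsingleton N›
      rw [G_killed hP N (g := 1) one_ne_zero fun x => Subsingleton.elim _ _,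
        Rank.finrank_of_killed (g := (1 : Fr p k A)) one_ne_zero
          fun x : Down p k A R N => Subsingleton.elim _ _]
      simp
    · intro N _ _ _ Q e hN
      have := Q.2
      have hρ : ∀ r ∈ 𝔭, algebraMap R (RS p k A R) r ∈ Q.1 := fun r hr => by
        have h := congrArg e (hN r hr (e.symm (Submodule.Quotient.mk 1)))
        rw [map_smul, e.apply_symm_apply, map_zero, ← Submodule.Quotient.mk_smul,
          Submodule.Quotient.mk_eq_zero, smul_eq_mul, mul_one] at h
        exact h
      by_cases hg : ∃ g : Fr p k A, g ≠ 0 ∧ algebraMap (Fr p k A) (RS p k A R) g ∈ Q.1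
      · obtain ⟨g, hg0, hgQ⟩ := hg
        have hkill : ∀ x : N, algebraMap (Fr p k A) (RS p k A R) g • x = 0 := fun x => by
          apply e.injective
          rw [map_smul, map_zero]
          obtain ⟨y, hy⟩ := Submodule.Quotient.mk_surjective _ (e x)
          rw [← hy, ← Submodule.Quotient.mk_smul, Submodule.Quotient.mk_eq_zero]
          exact Q.1.mul_mem_right y hgQ
        rw [G_killed hP N hg0 hkill, Rank.finrank_of_killed hg0 (M := Down p k A R N) hkill]
        simp
      · push Not at hg
        set J := Q.1.comap (algebraMap R (RS p k A R))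
        have hJ : J = 𝔭 := by
          refine le_antisymm ?_ hρ
          have hJA : (J.map (Ideal.Quotient.mk 𝔭)).comap (algebraMap A (R ⧸ 𝔭)) = ⊥ := by
            refine eq_bot_iff.2 fun a ha => (Submodule.mem_bot A).2 ?_
            rw [Ideal.mem_comap, ← Ideal.Quotient.mk_comp_algebraMap, RingHom.comp_apply,
              Ideal.mem_quotient_iff_mem (hρ : 𝔭 ≤ J), Ideal.mem_comap, rho_algebraMap] at ha
            by_contra h0
            exact hg (toFr p k (a ^ p ^ k))
              (fun h => pow_ne_zero (p ^ k) h0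
                ((toFr p k).injective (h.trans (map_zero (toFr p k)).symm))) ha
          have := Ideal.eq_bot_of_comap_eq_bot hJA
          intro x hx
          rw [← Ideal.Quotient.eq_zero_iff_mem, ← Submodule.mem_bot (R ⧸ 𝔭), ← this]
          exact Ideal.mem_map_of_mem _ hx
        have hQ : Q.1 = Pr := by
          ext u
          rw [hPr, Ideal.mem_comap, ← hJ, Ideal.mem_comap, rho_theta]
          exact ⟨fun h => Ideal.pow_mem_of_mem _ h _ (Nat.pos_of_ne_zero hq),
            fun h => this.mem_of_pow_mem _ h⟩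
        let e' : N ≃ₗ[RS p k A R] S₀ := e.trans (Submodule.quotEquivOfEq _ _ hQ)
        rw [G_congr hP e', mul_comm]
        congr 2
        exact LinearEquiv.finrank_eq
          { (e'.toAddEquiv.symm : Down p k A R S₀ ≃+ Down p k A R N) with
            map_smul' := fun a x => e'.symm.map_smul (algebraMap (Fr p k A) (RS p k A R) a) x }
    · intro N₁ _ _ _ N₂ _ _ _ N₃ _ _ _ f g hf hg he h₁ h₃ hN
      have hN₁ := h₁ fun r hr x => hf (by rw [map_smul, hN r hr, map_zero])
      have hN₃ := h₃ fun r hr x => by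
        obtain ⟨y, rfl⟩ := hg x
        rw [← map_smul, hN r hr, map_zero]
      have hrk : Module.finrank (Fr p k A) (Down p k A R N₂) =
          Module.finrank (Fr p k A) (Down p k A R N₁) + Module.finrank (Fr p k A) (Down p k A R N₃) :=
        Rank.finrank_exact
          ({ (f.toAddMonoidHom : Down p k A R N₁ →+ Down p k A R N₂) with
            map_smul' := fun a x => f.map_smul (algebraMap (Fr p k A) (RS p k A R) a) x } :
              Down p k A R N₁ →ₗ[Fr p k A] Down p k A R N₂)
          ({ (g.toAddMonoidHom : Down p k A R N₂ →+ Down p k A R N₃) with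
            map_smul' := fun a x => g.map_smul (algebraMap (Fr p k A) (RS p k A R) a) x } :
              Down p k A R N₂ →ₗ[Fr p k A] Down p k A R N₃) hf hg he
      rw [G_add hP f g hf hg he, hrk, Nat.cast_add, add_mul, add_mul, hN₁, hN₃]
  have hk0 : ∀ r ∈ 𝔭, ∀ x : RS p k A R ⊗[R] (R ⧸ 𝔭), algebraMap R (RS p k A R) r • x = 0 := by
    intro r hr x
    induction x using TensorProduct.induction_on with
    | zero => rw [smul_zero]
    | add a b ha hb => rw [smul_add, ha, hb, add_zero]
    | tmul u m =>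
      obtain ⟨m, rfl⟩ := Ideal.Quotient.mk_surjective m
      rw [algebraMap_smul, TensorProduct.smul_tmul', TensorProduct.smul_tmul,
        show r • Ideal.Quotient.mk 𝔭 m = 0 from
          Ideal.Quotient.eq_zero_iff_mem.2 (𝔭.mul_mem_right m hr), TensorProduct.tmul_zero]
  have hk1 : ∀ r ∈ 𝔭, ∀ x : Th p k A R (R ⧸ 𝔭), algebraMap R (RS p k A R) r • x = 0 := by
    intro r hr x
    obtain ⟨x, rfl⟩ := (toTh p k A R).surjective x
    rw [smul_toTh]
    change toTh p k A R (theta p k A R ((1 : Fr p k A) ⊗ₜ r) • x) = _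
    rw [theta_tmul]
    obtain ⟨m, rfl⟩ := Ideal.Quotient.mk_surjective x
    refine (congrArg (toTh p k A R) ?_).trans (map_zero (toTh p k A R))
    exact Ideal.Quotient.eq_zero_iff_mem.2
      (𝔭.mul_mem_right m (𝔭.mul_mem_left _ (Ideal.pow_mem_of_mem _ hr _ (Nat.pos_of_ne_zero hq))))
  have e0 := hprop (RS p k A R ⊗[R] (R ⧸ 𝔭)) hk0
  have e1 := hprop _ hk1
  -- both have the rank of `R / p`
  have : Module.Flat A (Fr p k A) := hflatA
  have hinjA : Function.Injective (algebraMap A (Fr p k A)) := fun a b h => by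
    change a ^ p ^ k = b ^ p ^ k at h
    exact iterateFrobenius_inj A p k h
  have r0 : Module.finrank (Fr p k A) (Down p k A R (RS p k A R ⊗[R] (R ⧸ 𝔭))) =
      Module.finrank A (R ⧸ 𝔭) := by
    rw [← Rank.finrank_baseChange hinjA (R ⧸ 𝔭)]
    let i := Algebra.IsPushout.cancelBaseChange A (Fr p k A) R (RS p k A R) (R ⧸ 𝔭)
    exact LinearEquiv.finrank_eq
      { (i.toAddEquiv : Down p k A R (RS p k A R ⊗[R] (R ⧸ 𝔭)) ≃+ (Fr p k A ⊗[A] (R ⧸ 𝔭))) with
        map_smul' := fun a x => (congrArg i
          (algebraMap_smul (M := RS p k A R ⊗[R] (R ⧸ 𝔭)) (RS p k A R) a x)).trans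
          (i.map_smul a x) }
  have r1 : Module.finrank (Fr p k A) (Down p k A R (Th p k A R (R ⧸ 𝔭))) =
      Module.finrank A (R ⧸ 𝔭) :=
    congrArg Cardinal.toNat (rank_eq_of_equiv_equiv (toFr p k (A := A)).symm
      (AddEquiv.refl _ : Down p k A R (Th p k A R (R ⧸ 𝔭)) ≃+ (R ⧸ 𝔭)) (toFr p k).symm.bijective
      (fun a x => show theta p k A R (algebraMap (Fr p k A) (RS p k A R) a) •
          (show R ⧸ 𝔭 from x) = (toFr p k).symm a • (show R ⧸ 𝔭 from x) by
        rw [theta_algebraMap, algebraMap_smul]))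
  rw [r0] at e0
  rw [r1] at e1
  exact mul_right_cancel₀ (Int.natCast_ne_zero.2 hr₀.ne') (e0.trans e1.symm)

end Setting3

end Frob

open Frob in
/-- Frobenius multiplies the Euler characteristic by `q ^ D`. -/
theorem frobenius_ext (p : ℕ) [Fact p.Prime] {A B R : Type u} [CommRing A] [IsDomain A]
    [IsNoetherianRing A] [CharP A p] [CommRing B] [IsLocalRing B] [IsNoetherianRing B] [CharP B p]
    [Algebra A B] [Module.Flat A B] [CommRing R] [Algebra A R] [Module.Finite A R]
    [IsLocalRing (B ⊗[A] R)] [IsNoetherianRing (B ⊗[A] R)] [CharP (B ⊗[A] R) p]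
    (hres : Function.Surjective
      ((residue (B ⊗[A] R)).comp (algebraMap B (B ⊗[A] R)))) {D : ℕ} (k : ℕ)
    (hflatA : (iterateFrobenius A p k).Flat) (hflat : (iterateFrobenius B p k).Flat)
    (hlen : Module.length B (B ⧸ (maximalIdeal B).map (iterateFrobenius B p k)) =
      (((p ^ k) ^ D : ℕ) : ℕ∞))
    (P : MCx (B ⊗[A] R)) (hD : ∀ b, P.deg b ≤ D)
    (hnull : ∀ z ∈ maximalIdeal (B ⊗[A] R), ∃ M, P.IsNullHtpic (z ^ M))
    (hsmall : ∀ (T' : Type u) [CommRing T'] [IsLocalRing T'] [IsNoetherianRing T']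
      (ψ : B ⊗[A] R →+* T'), (∃ c, maximalIdeal T' ^ c ≤ (maximalIdeal (B ⊗[A] R)).map ψ) →
      ∀ g : A, g ≠ 0 → ∀ (M : Type u) [AddCommGroup M] [Module T' M] [Module.Finite T' M],
      (∀ m : M, ψ (algebraMap A (B ⊗[A] R) g) • m = 0) →
      ((P.map ψ).gc M).chi (Finset.Icc 0 (D : ℤ)) ⊥ ⊤ = 0) :
    ((P.map (iterateFrobenius (B ⊗[A] R) p k)).gc (B ⊗[A] R)).chi (Finset.Icc 0 (D : ℤ)) ⊥ ⊤ =
      ((p : ℤ) ^ k) ^ D * (P.gc (B ⊗[A] R)).chi (Finset.Icc 0 (D : ℤ)) ⊥ ⊤ := by
  have hP : Good p k A B R P D := ⟨hD, hnull, hsmall⟩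
  have : Nontrivial R := not_subsingleton_iff_nontrivial.1 fun _ =>
    not_subsingleton (B ⊗[A] R) inferInstance
  have : CharP R p := (CharP.charP_iff_prime_eq_zero (Fact.out (p := p.Prime))).mpr (by
    rw [← map_natCast (algebraMap A R), CharP.cast_eq_zero, map_zero])
  have : IsNoetherianRing R := IsNoetherianRing.of_finite A R
  let _ : Algebra R (RS p k A R) := Algebra.TensorProduct.rightAlgebra
  have := flat_rho (p := p) (k := k) (A := A) (R := R) hflatA
  suffices h : ∀ (M : Type u) [AddCommGroup M] [Module R M] [Module.Finite R M],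
      G (p := p) (k := k) P D (RS p k A R ⊗[R] M) = G (p := p) (k := k) P D (Th p k A R M) by
    rw [← G_RS hP hres hflat hlen, ← G_theta P D hres, ← h R]
    exact G_congr hP (TensorProduct.AlgebraTensorModule.rid R (RS p k A R) (RS p k A R))
  intro M _ _ hM
  induction hM using IsNoetherianRing.induction_on_isQuotientEquivQuotientPrime R with
  | subsingleton N =>
    have h0 : ∀ x : RS p k A R ⊗[R] N, x = 0 := fun x => by
      induction x using TensorProduct.induction_on with
      | zero => rfl
      | add b c hb hc => rw [hb, hc, add_zero]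
      | tmul u m => rw [Subsingleton.elim m 0, TensorProduct.tmul_zero]
    have : Subsingleton (RS p k A R ⊗[R] N) := ⟨fun x y => (h0 x).trans (h0 y).symm⟩
    have : Subsingleton (Th p k A R N) := ‹Subsingleton N›
    rw [G_killed hP _ (g := 1) one_ne_zero fun x => Subsingleton.elim _ _,
      G_killed hP (Th p k A R N) (g := 1) one_ne_zero fun x => Subsingleton.elim _ _]
  | quotient N Q e =>
    have := Q.2
    rw [G_congr hP (TensorProduct.AlgebraTensorModule.congr (LinearEquiv.refl _ (RS p k A R)) e),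
      G_congr hP (LinearEquiv.ofBijective (thMap (p := p) (k := k) (A := A) e.toLinearMap)
        e.bijective)]
    by_cases hg : ∀ a : A, algebraMap A R a ∈ Q.1 → a = 0
    · exact G_prime hP hflatA Q.1 hg
    · push Not at hg
      obtain ⟨a, ha, ha0⟩ := hg
      have hq := (pow_pos (Fact.out (p := p.Prime)).pos k).ne'
      rw [G_killed hP _ (g := toFr p k (a ^ p ^ k))
          (fun h => pow_ne_zero (p ^ k) ha0
            ((toFr p k).injective (h.trans (map_zero (toFr p k)).symm))) fun x => ?_,
        G_killed hP (Th p k A R (R ⧸ Q.1)) (g := toFr p k a)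
          (fun h => ha0 (by simpa using congrArg (toFr p k).symm h)) fun x => ?_]
      · obtain ⟨x, rfl⟩ := (toTh p k A R).surjective x
        obtain ⟨m, rfl⟩ := Ideal.Quotient.mk_surjective x
        rw [smul_toTh, theta_algebraMap]
        refine (congrArg (toTh p k A R) ?_).trans (map_zero (toTh p k A R))
        exact Ideal.Quotient.eq_zero_iff_mem.2 (Q.1.mul_mem_right m ha)
      · rw [← rho_algebraMap]
        induction x using TensorProduct.induction_on with
        | zero => rw [smul_zero]
        | add b c hb hc => rw [smul_add, hb, hc, add_zero]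
        | tmul u m =>
          obtain ⟨m, rfl⟩ := Ideal.Quotient.mk_surjective m
          rw [algebraMap_smul, TensorProduct.smul_tmul', TensorProduct.smul_tmul,
            show algebraMap A R a • Ideal.Quotient.mk Q.1 m = 0 from
              Ideal.Quotient.eq_zero_iff_mem.2 (Q.1.mul_mem_right m ha), TensorProduct.tmul_zero]
  | exact N₁ N₂ N₃ f g hf hg he h₁ h₃ =>
    rw [G_add hP (f.baseChange (RS p k A R)) (g.baseChange (RS p k A R))
        (Module.Flat.lTensor_preserves_injective_linearMap f hf)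
        (LinearMap.lTensor_surjective _ hg) (lTensor_exact _ he hg),
      G_add hP (thMap (p := p) (k := k) (A := A) f) (thMap (p := p) (k := k) (A := A) g)
        hf hg he, h₁, h₃]

end Vale.Agent.P202.Ext
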