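import Vale.Agent.P202.Ext.Killed
import Vale.Agent.P202.Ext.Frobenius
import Vale.Agent.P202.Char.BaseAux
import Vale.Agent.P202.Char.Matrix
import Vale.Agent.P202.Char.Reduction

/-!
P202, Lech in characteristic `p`, arbitrary residue extensions: the complex of the main argument,
from a resolution of `S` over `T = B ⊗[A] R` and lifts of a reduction of the maximal ideal of `S`.
-/

namespace Vale.Agent.P202.Ext

open IsLocalRing Filter Topology Vale.Agent.P202.Char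
open scoped TensorProduct Kronecker

universe u

section

variable {T : Type u} [CommRing T] {S : Type u} [CommRing S] [IsLocalRing S] [Algebra T S]
  {d : ℕ} (F : MCx T) (e0 : (F.gc T).H ⊥ ⊤ 0 ≃ₗ[T] S) (x : Fin d → T)
  (hx : ∀ j, algebraMap T S (x j) ∈ maximalIdeal S)

include e0 hx

/-- The tensored complex has homology in degree `0`. -/
theorem length_H_zero_ne : Module.length T (((koszulTensor F x).gc T).H ⊥ ⊤ 0) ≠ 0 := by
  classical
  intro h0
  have hsub := Module.length_eq_zero_iff.1 h0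
  set P := koszulTensor F x
  have hdegF : ∀ v : F.β → T, (∀ b, F.deg b ≠ 0 → v b = 0) → v ∈ (F.gc T).cyc ⊥ ⊤ 0 := by
    intro v hv
    refine ⟨⟨trivial, ?_⟩, ?_⟩
    · refine (mem_pi_deg (fun b : F.β => (F.deg b : ℤ)) 0 v).2 fun b hb => hv b ?_
      exact_mod_cast hb
    · change mlin T F.D v ∈ (⊥ : Submodule T (F.β → T))
      rw [Submodule.mem_bot]
      funext a
      rw [mlin_apply]
      refine Finset.sum_eq_zero fun b _ => ?_
      by_cases hd : F.D a b = 0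
      · simp [hd]
      · rw [hv b (by rw [F.homog a b hd]; omega), smul_zero]
  let θ : (F.gc T).cyc ⊥ ⊤ 0 →ₗ[T] S := e0.toLinearMap ∘ₗ Submodule.mkQ _
  obtain ⟨q, hq⟩ := e0.surjective 1
  obtain ⟨⟨v₀, hv₀⟩, rfl⟩ := Submodule.mkQ_surjective _ q
  have hv₀' : ∀ b, F.deg b ≠ 0 → v₀ b = 0 := fun b hb =>
    (mem_pi_deg (fun b : F.β => (F.deg b : ℤ)) 0 v₀).1 hv₀.1.2 b (by exact_mod_cast hb)
  let w : P.β → T := fun c => if c.2 = ∅ then v₀ c.1 else 0
  have hw : w ∈ (P.gc T).cyc ⊥ ⊤ 0 := by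
    refine ⟨⟨trivial, ?_⟩, ?_⟩
    · refine (mem_pi_deg (fun c : P.β => (P.deg c : ℤ)) 0 w).2 ?_
      rintro ⟨b, s⟩ hb
      simp only [w]
      split_ifs with hs
      · subst hs
        refine hv₀' b fun h1 => hb ?_
        change ((F.deg b + (∅ : Finset (Fin d)).card : ℕ) : ℤ) = 0
        simp [h1]
      · rfl
    · change mlin T P.D w ∈ (⊥ : Submodule T (P.β → T))
      rw [Submodule.mem_bot]
      funext c
      rw [mlin_apply]
      refine Finset.sum_eq_zero fun c' _ => ?_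
      by_cases hd : P.D c c' = 0
      · simp [hd]
      · have h1 : 1 ≤ P.deg c' := by rw [P.homog c c' hd]; omega
        obtain ⟨b, s⟩ := c'
        simp only [w]
        split_ifs with hs
        · subst hs
          rw [hv₀' b (fun h2 => by
            change 1 ≤ F.deg b + (∅ : Finset (Fin d)).card at h1
            simp [h2] at h1), smul_zero]
        · rw [smul_zero]
  have hwb : w ∈ (P.gc T).bd ⊥ ⊤ 0 := by
    have h1 := (Submodule.Quotient.mk_eq_zero _ (x := (⟨w, hw⟩ : (P.gc T).cyc ⊥ ⊤ 0))).1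
      (Subsingleton.elim (α := ((koszulTensor F x).gc T).H ⊥ ⊤ 0) _ _)
    exact h1
  simp only [GC.bd, bot_inf_eq, sup_bot_eq, top_inf_eq] at hwb
  obtain ⟨y, hy, hDy⟩ := hwb
  have hy' := (mem_pi_deg (fun c : P.β => (P.deg c : ℤ)) (0 + 1) y).1 hy
  let u : F.β → T := fun b => y (b, ∅)
  set r : F.β → T := v₀ - mlin T F.D u
  have hr : ∀ a, r a ∈ Ideal.span (Set.range x) := by
    intro a
    have h1 := congrFun hDy ((a, ∅) : P.β)
    change mlin T (F.D ⊗ₖ (1 : Matrix (Finset (Fin d)) (Finset (Fin d)) T) +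
      signMat F ⊗ₖ kMat x) y (a, ∅) = w (a, ∅) at h1
    replace h1 := (mlin_koszulTensor F x T y a ∅).symm.trans h1
    replace h1 : mlin T F.D u a + ((-1 : T) ^ F.deg a) • ∑ t, kMat x ∅ t • y (a, t) = v₀ a :=
      h1.trans (if_pos rfl)
    have hra : r a = (-1 : T) ^ F.deg a * ∑ t, kMat x ∅ t * y (a, t) := by
      simp only [r, Pi.sub_apply, ← h1, smul_eq_mul]
      ring
    rw [hra]
    refine Ideal.mul_mem_left _ _ (sum_mem fun t _ => Ideal.mul_mem_right _ _ (sum_mem fun j _ => ?_))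
    split_ifs
    · exact zsmul_mem (Ideal.subset_span (Set.mem_range_self j)) _
    · exact zero_mem _
  have hu : u ∈ (F.gc T).deg (0 + 1) :=
    (mem_pi_deg (fun b : F.β => (F.deg b : ℤ)) (0 + 1) u).2 fun b hb => hy' (b, ∅) (by
      change ((F.deg b + (∅ : Finset (Fin d)).card : ℕ) : ℤ) ≠ _
      simpa using hb)
  have hDu : mlin T F.D u ∈ (F.gc T).bd ⊥ ⊤ 0 :=
    Submodule.mem_sup_left ⟨u, ⟨trivial, hu⟩, rfl⟩
  have hr0 : ∀ b, F.deg b ≠ 0 → r b = 0 := by
    intro b hb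
    simp only [r, Pi.sub_apply, hv₀' b hb, zero_sub, neg_eq_zero, mlin_apply]
    refine Finset.sum_eq_zero fun c _ => ?_
    by_cases hd : F.D b c = 0
    · simp [hd]
    · have := F.homog b c hd
      rw [show u c = 0 from hy' (c, ∅) (by
        change ((F.deg c + (∅ : Finset (Fin d)).card : ℕ) : ℤ) ≠ _
        simp only [Finset.card_empty, add_zero]
        omega), smul_zero]
  have hθ : θ ⟨v₀, hv₀⟩ = θ ⟨r, hdegF r hr0⟩ := by
    refine congrArg e0 ((Submodule.Quotient.eq _).2 ?_)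
    change v₀ - r ∈ (F.gc T).bd ⊥ ⊤ 0
    simpa [r] using hDu
  have hmem : θ ⟨r, hdegF r hr0⟩ ∈ maximalIdeal S := by
    have hsingle : ∀ b, F.deg b = 0 → (Pi.single b (1 : T) : F.β → T) ∈ (F.gc T).cyc ⊥ ⊤ 0 :=
      fun b hb => hdegF _ fun c hc => Pi.single_eq_of_ne (fun h : c = b => hc (h ▸ hb)) _
    let g : F.β → (F.gc T).cyc ⊥ ⊤ 0 := fun b =>
      if hb : F.deg b = 0 then ⟨Pi.single b 1, hsingle b hb⟩ else 0
    have hsum : (⟨r, hdegF r hr0⟩ : (F.gc T).cyc ⊥ ⊤ 0) = ∑ b, r b • g b := by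
      refine Subtype.ext ?_
      funext c
      simp only [AddSubmonoidClass.coe_finsetSum, Finset.sum_apply, SetLike.val_smul, Pi.smul_apply]
      rw [Finset.sum_eq_single c (fun b _ hb => ?_) (by simp)]
      · by_cases hc : F.deg c = 0
        · simp [g, hc]
        · simp [g, hc, hr0 c hc]
      · by_cases hc : F.deg b = 0
        · simp [g, hc, Ne.symm hb]
        · simp [g, hc]
    rw [hsum, map_sum]
    refine sum_mem fun b _ => ?_
    rw [map_smul, Algebra.smul_def]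
    refine Ideal.mul_mem_right _ _ ?_
    have hle : Ideal.span (Set.range x) ≤ (maximalIdeal S).comap (algebraMap T S) :=
      Ideal.span_le.2 (by rintro _ ⟨j, rfl⟩; exact hx j)
    exact hle (hr b)
  rw [← hθ] at hmem
  exact (maximalIdeal.isMaximal S).ne_top ((Ideal.eq_top_iff_one _).2 (hq ▸ hmem))

end

/-- The complex of the main argument. -/
theorem exists_base_ext (p : ℕ) [Fact p.Prime] {A B R : Type u} [CommRing A] [IsDomain A]
    [IsNoetherianRing A] [CharP A p] [CommRing B] [IsLocalRing B] [IsNoetherianRing B] [CharP B p]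
    [Algebra A B] [Module.Flat A B] [CommRing R] [Algebra A R] [Module.Finite A R]
    [IsLocalRing (B ⊗[A] R)] [IsNoetherianRing (B ⊗[A] R)] [CharP (B ⊗[A] R) p]
    (hres : Function.Surjective
      ((residue (B ⊗[A] R)).comp (algebraMap B (B ⊗[A] R)))) {D : ℕ}
    (hflatA : ∀ k, (iterateFrobenius A p k).Flat) (hflat : ∀ k, (iterateFrobenius B p k).Flat)
    (hlen : ∀ k, Module.length B (B ⧸ (maximalIdeal B).map (iterateFrobenius B p k)) =
      (((p ^ k) ^ D : ℕ) : ℕ∞))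
    {S : Type u} [CommRing S] [IsLocalRing S] [IsNoetherianRing S] [Infinite (ResidueField S)]
    [Algebra (B ⊗[A] R) S] (hsurj : Function.Surjective (algebraMap (B ⊗[A] R) S))
    {h m : ℕ} (hD : h + (m + 1) = D)
    (F : MCx (B ⊗[A] R)) (hF : ∀ b, F.deg b ≤ h)
    (hexact : ∀ i : ℕ, 0 < i → Module.length (B ⊗[A] R) ((F.gc (B ⊗[A] R)).H ⊥ ⊤ i) = 0)
    (hH0 : Nonempty ((F.gc (B ⊗[A] R)).H ⊥ ⊤ 0 ≃ₗ[B ⊗[A] R] S))
    (hnullF : ∀ a, algebraMap (B ⊗[A] R) S a = 0 → F.IsNullHtpic a)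
    (hgrow : ∀ g : A, g ≠ 0 → ∀ I : Ideal S, (∃ c, maximalIdeal S ^ c ≤ I) →
      Tendsto (fun j : ℕ => (len S (S ⧸ (Ideal.span {algebraMap (B ⊗[A] R) S
        (algebraMap A (B ⊗[A] R) g)} ⊔ I ^ j)) : ℝ) / (j : ℝ) ^ (m + 1)) atTop (𝓝 0))
    {e' : ℝ} (he' : IsMultiplicity S (m + 1) e') (h0' : e' ≠ 0)
    {N : ℕ} (z : Fin N → B ⊗[A] R) (hz : ∀ l, z l ∈ maximalIdeal (B ⊗[A] R))
    (g₀ : A) (hg₀ : g₀ ≠ 0) (hg₀m : algebraMap A (B ⊗[A] R) g₀ ∈ maximalIdeal (B ⊗[A] R))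
    (hg₀n : ¬ IsNilpotent (algebraMap A (B ⊗[A] R) g₀)) :
    ∃ (Q : MCx (B ⊗[A] R)) (A' : ℤ) (f M₀ : ℕ), 0 < f ∧ f ≤ Q.rank 0 ∧
      (A' : ℝ) = (f : ℝ) * e' ∧ (∀ b, Q.deg b ≤ D) ∧
      Q.EntriesIn (maximalIdeal (B ⊗[A] R)) ∧ (∑ b, (-1 : ℤ) ^ Q.deg b = 0) ∧
      (∀ l, Q.IsNullHtpic (z l ^ M₀)) ∧
      ∀ k : ℕ,
        (∀ j, ((Q.map (iterateFrobenius (B ⊗[A] R) p k)).gc (B ⊗[A] R)).FinH ⊥ ⊤ j) ∧
        ((Q.map (iterateFrobenius (B ⊗[A] R) p k)).gc (B ⊗[A] R)).chi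
          (Finset.Icc 0 (D : ℤ)) ⊥ ⊤ = ((p : ℤ) ^ k) ^ D * A' ∧
        ∀ (M : Type u) [AddCommGroup M] [Module (B ⊗[A] R) M] [Module.Finite (B ⊗[A] R) M] (L : ℕ),
          (∀ v : M, algebraMap A (B ⊗[A] R) g₀ ^ L • v = 0) →
          (∀ j, ((Q.map (iterateFrobenius (B ⊗[A] R) p k)).gc M).FinH ⊥ ⊤ j) ∧
          ((Q.map (iterateFrobenius (B ⊗[A] R) p k)).gc M).chi
            (Finset.Icc 0 (D : ℤ)) ⊥ ⊤ = 0 := by
  classical
  subst hD
  set T := B ⊗[A] R
  obtain ⟨e0⟩ := hH0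
  obtain ⟨xS, hxSm, ⟨c, hc⟩, hxlim⟩ := exists_reduction he' h0'
  choose x hxeq using fun j => hsurj (xS j)
  set I := RingHom.ker (algebraMap T S)
  set X := Ideal.span (Set.range x)
  have hI : ∀ a ∈ I, F.IsNullHtpic a := fun a ha => hnullF a ha
  have hxS : ∀ j, algebraMap T S (x j) ∈ maximalIdeal S := fun j => (hxeq j).symm ▸ hxSm j
  have hnn : (maximalIdeal T).map (algebraMap T S) = maximalIdeal S :=
    IsLocalRing.eq_maximalIdeal (Ideal.IsMaximal.map_of_surjective_of_ker_le hsurj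
      (le_maximalIdeal (RingHom.ker_ne_top _)))
  have hXS : X.map (algebraMap T S) = Ideal.span (Set.range xS) := by
    rw [Ideal.map_span, ← Set.range_comp]
    exact congrArg Ideal.span (congrArg Set.range (funext hxeq))
  have hcomap : ∀ J : Ideal T, (J.map (algebraMap T S)).comap (algebraMap T S) = J ⊔ I := fun J => by
    rw [Ideal.comap_map_of_surjective _ hsurj, ← RingHom.ker_eq_comap_bot]
  have hx : ∃ c, maximalIdeal T ^ c ≤ I ⊔ X := by
    refine ⟨c, ?_⟩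
    rw [sup_comm, ← hcomap, ← Ideal.map_le_iff_le_comap, Ideal.map_pow, hnn, hXS]
    exact hc
  -- lengths downstairs
  have hlenS : ∀ (M : Type u) [AddCommGroup M] [Module T M] [Module S M] [IsScalarTower T S M],
      Module.length T M = Module.length S M := fun M _ _ _ _ =>
    Module.length_eq_of_surjective (M := M) hsurj
  have hquot : ∀ J : Ideal T, Module.length T (T ⧸ (I ⊔ J)) =
      Module.length S (S ⧸ J.map (algebraMap T S)) := fun J => by
    rw [← hlenS]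
    let π : T →ₗ[T] S ⧸ J.map (algebraMap T S) :=
      ((J.map (algebraMap T S)).mkQ.restrictScalars T) ∘ₗ Algebra.linearMap T S
    have hπ : Function.Surjective π := (Submodule.mkQ_surjective _).comp hsurj
    have hker : LinearMap.ker π = I ⊔ J := by
      ext t
      rw [sup_comm, ← hcomap]
      change Submodule.Quotient.mk (algebraMap T S t) = 0 ↔ algebraMap T S t ∈ J.map (algebraMap T S)
      exact Submodule.Quotient.mk_eq_zero _
    exact ((Submodule.quotEquivOfEq _ _ hker.symm).trans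
      (LinearMap.quotKerEquivOfSurjective π hπ)).length_eq
  set P := koszulTensor F x
  have hPd : ∀ b, P.deg b ≤ h + (m + 1) := koszulTensor_deg_le F x hF
  have hPnull : ∀ t ∈ maximalIdeal T, ∃ M, P.IsNullHtpic (t ^ M) := fun t ht => by
    obtain ⟨c', hc'⟩ := hx
    exact ⟨c', koszulTensor_null F I hI x _ (hc' (Ideal.pow_mem_pow ht c'))⟩
  have hsmallI : ∀ g : A, g ≠ 0 → Tendsto (fun k : ℕ =>
      (len T (T ⧸ (I ⊔ Ideal.span {algebraMap A T g} ⊔ X ^ k)) : ℝ) / (k : ℝ) ^ (m + 1)) atTop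
      (𝓝 0) := fun g hg => by
    refine (hgrow g hg _ ⟨c, hc⟩).congr fun k => ?_
    rw [len, len, sup_assoc, hquot, Ideal.map_sup, Ideal.map_pow, hXS, Ideal.map_span,
      Set.image_singleton]
  have hsmall : ∀ (T' : Type u) [CommRing T'] [IsLocalRing T'] [IsNoetherianRing T']
      (ψ : T →+* T'), (∃ c, maximalIdeal T' ^ c ≤ (maximalIdeal T).map ψ) →
      ∀ g : A, g ≠ 0 → ∀ (M : Type u) [AddCommGroup M] [Module T' M] [Module.Finite T' M],
      (∀ v : M, ψ (algebraMap A T g) • v = 0) →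
      ((P.map ψ).gc M).chi (Finset.Icc 0 ((h + (m + 1) : ℕ) : ℤ)) ⊥ ⊤ = 0 :=
    fun T' _ _ _ ψ hψ g hg M _ _ _ hM =>
      chi_of_killed F I hI x hF hx ψ hψ _ (hsmallI g hg) M hM
  -- the value
  set A' := (P.gc T).chi (Finset.Icc 0 ((h + (m + 1) : ℕ) : ℤ)) ⊥ ⊤
  have hA : (A' : ℝ) = ((1 : ℕ) : ℝ) * e' := by
    rw [Nat.cast_one, one_mul]
    set H0 := (F.gc T).H ⊥ ⊤ 0
    have hq : ∀ k, Module.length T (H0 ⧸ X ^ k • (⊤ : Submodule T H0)) =
        Module.length S (S ⧸ Ideal.span (Set.range xS) ^ k) := fun k => by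
      rw [← hlenS, (Submodule.Quotient.equiv (X ^ k • (⊤ : Submodule T H0))
        (X ^ k • (⊤ : Submodule T S)) e0
        (by rw [Submodule.map_smul'', Submodule.map_top, LinearEquiv.range])).length_eq]
      refine LinearEquiv.length_eq ((Submodule.quotEquivOfEq _
        ((Ideal.span (Set.range xS) ^ k).restrictScalars T) ?_).trans
          (Submodule.Quotient.restrictScalarsEquiv T _))
      rw [Ideal.smul_top_eq_map, Ideal.map_pow, hXS]
    have hfin : ∀ k, Module.length T (H0 ⧸ X ^ k • (⊤ : Submodule T H0)) ≠ ⊤ := fun k => by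
      rw [hq]
      exact length_quotient_ne_top _ (c * k) (by rw [pow_mul]; exact Ideal.pow_right_mono hc k)
    have : Module.Finite T H0 := by
      have : Module.Finite T S := Module.Finite.of_surjective (Algebra.linearMap T S) hsurj
      exact Module.Finite.equiv e0.symm
    obtain ⟨-, hlim⟩ := koszul_tendsto (R := T) x H0 hfin
    have e1 : A' = kchi T x H0 := chi_of_acyclic F I hI x hF hx hexact
    rw [e1]
    refine tendsto_nhds_unique hlim (hxlim.congr fun k => ?_)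
    rw [len, hq]
  -- minimal model
  obtain ⟨Q, ⟨E⟩, hQm, hQr⟩ := P.exists_minimal
  have hQd : ∀ b, Q.deg b ≤ h + (m + 1) := by
    intro b
    by_contra hb
    have h1 : 0 < Q.rank (Q.deg b) := Finset.card_pos.2 ⟨b, by simp⟩
    have h2 : P.rank (Q.deg b) = 0 := Finset.card_eq_zero.2 (Finset.filter_eq_empty_iff.2
      fun a _ ha => hb (ha ▸ hPd a))
    have := hQr (Q.deg b)
    omega
  have hQ0 : 1 ≤ Q.rank 0 := by
    by_contra hlt
    refine length_H_zero_ne F e0 x hxS ?_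
    rw [E.length_eq]
    refine GC.H_length_eq_zero _ (Q.degSub_eq_bot T fun b hb => ?_)
    have h1 : 0 < Q.rank 0 := Finset.card_pos.2 ⟨b, by simpa using hb⟩
    omega
  obtain ⟨c', hc'⟩ := hx
  have hnullP : ∀ t ∈ maximalIdeal T, P.IsNullHtpic (t ^ c') := fun t ht =>
    koszulTensor_null F I hI x _ (hc' (Ideal.pow_mem_pow ht c'))
  have halt : ∑ b, (-1 : ℤ) ^ Q.deg b = 0 := by
    rw [← Q.alternating_rank hQd (E.nullHtpic (hnullP _ hg₀m)) (fun hn => hg₀n hn.of_pow)]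
    rw [← Finset.sum_fiberwise_of_maps_to (g := Q.deg) (t := Finset.range (h + (m + 1) + 1))
      fun b _ => Finset.mem_range.2 (Nat.lt_succ_of_le (hQd b))]
    refine Finset.sum_congr rfl fun i _ => ?_
    rw [Finset.sum_congr rfl fun b hb => by rw [(Finset.mem_filter.1 hb).2], Finset.sum_const,
      nsmul_eq_mul, mul_comm, MCx.rank]
  refine ⟨Q, A', 1, c', Nat.one_pos, hQ0, hA, hQd, hQm, halt,
    fun l => E.nullHtpic (hnullP _ (hz l)), fun k => ?_⟩
  set φ := iterateFrobenius T p k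
  obtain ⟨E'⟩ := E.map_nonempty φ
  have hφ : ∃ c, maximalIdeal T ^ c ≤ (maximalIdeal T).map φ := by
    refine Ideal.exists_pow_le_of_le_radical_of_fg (fun t ht => ⟨p ^ k, ?_⟩)
      (maximalIdeal T).fg_of_isNoetherianRing
    rw [← iterateFrobenius_def]
    exact Ideal.mem_map_of_mem φ ht
  have hcongr := fun (M : Type u) [AddCommGroup M] [Module T M] =>
    Base.chi_congr ((P.map φ).gc M) ((Q.map φ).gc M) (Finset.Icc 0 ((h + (m + 1) : ℕ) : ℤ))
      (E'.length_eq M)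
  refine ⟨(hcongr T).1.1 fun j => finH_koszulTensor F I hI x hF ⟨c', hc'⟩ φ hφ T j, ?_,
    fun M _ _ _ L hM => ⟨(hcongr M).1.1 fun j =>
      finH_koszulTensor F I hI x hF ⟨c', hc'⟩ φ hφ M j, ?_⟩⟩
  · rw [← (hcongr T).2]
    exact frobenius_ext p hres k (hflatA k) (hflat k) (hlen k) P hPd hPnull hsmall
  · rw [← (hcongr M).2]
    refine hsmall T φ hφ (g₀ ^ L) (pow_ne_zero _ hg₀) M fun v => ?_
    obtain ⟨j, hj⟩ : ∃ j, p ^ k = j + 1 :=
      ⟨p ^ k - 1, (Nat.sub_add_cancel (Nat.one_le_pow k p (Fact.out (p := p.Prime)).pos)).symm⟩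
    rw [iterateFrobenius_def, map_pow, hj, pow_succ, mul_smul, hM, smul_zero]

end Vale.Agent.P202.Ext
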