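import Vale.Agent.P202.Ext.Defs
import Vale.Agent.P202.Char.KoszulChi

/-!
P202, Lech in characteristic `p`, arbitrary residue extensions: the homology of a matrix complex
commutes with flat base change.
-/

namespace Vale.Agent.P202.Ext

open Vale.Agent.P202.Char Finset
open scoped TensorProduct

universe u v w

namespace BC

variable {R : Type u} [CommRing R] (R' : Type u) [CommRing R'] [Algebra R R'] [Module.Flat R R']

/-- A subquotient `ker G / range F` after flat base change, transported by `L`. -/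
theorem nonempty_equiv {E : Type u} {E₂ : Type v} [AddCommGroup E] [AddCommGroup E₂] [Module R E]
    [Module R E₂] (F : E →ₗ[R] E) (G : E →ₗ[R] E₂) (hGF : G ∘ₗ F = 0)
    {E' : Type u} {E₂' : Type v} [AddCommGroup E'] [AddCommGroup E₂'] [Module R' E'] [Module R' E₂']
    (L : R' ⊗[R] E ≃ₗ[R'] E') (F' : E' →ₗ[R'] E') (G' : E' →ₗ[R'] E₂')
    (hF' : ∀ z, L (F.baseChange R' z) = F' (L z))
    (hG' : ∀ z, G.baseChange R' z = 0 ↔ G' (L z) = 0) :
    Nonempty ((R' ⊗[R] (LinearMap.ker G ⧸ (LinearMap.range F).comap (LinearMap.ker G).subtype))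
      ≃ₗ[R'] LinearMap.ker G' ⧸ (LinearMap.range F').comap (LinearMap.ker G').subtype) := by
  set Z := LinearMap.ker G
  set B := (LinearMap.range F).comap Z.subtype
  have hF : ∀ x, F x ∈ Z := fun x => LinearMap.congr_fun hGF x
  let F₁ : E →ₗ[R] Z := F.codRestrict Z hF
  have hex : Function.Exact F₁ B.mkQ := by
    intro z
    rw [Submodule.mkQ_apply, Submodule.Quotient.mk_eq_zero]
    exact ⟨fun ⟨x, hx⟩ => ⟨x, Subtype.ext hx⟩, fun ⟨x, hx⟩ => ⟨x, congrArg Subtype.val hx⟩⟩
  let i : R' ⊗[R] Z →ₗ[R'] E' := L.toLinearMap ∘ₗ Z.subtype.baseChange R'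
  have hi : Function.Injective i :=
    L.injective.comp
      (Module.Flat.lTensor_preserves_injective_linearMap (M := R') Z.subtype Subtype.val_injective)
  have hker : Function.Exact (Z.subtype.baseChange R') (G.baseChange R') :=
    Module.Flat.lTensor_exact R' (LinearMap.exact_subtype_ker_map G)
  have hFi : ∀ x, i (F₁.baseChange R' x) = F' (L x) := by
    intro x
    rw [← hF']
    simp only [i, LinearMap.comp_apply, LinearEquiv.coe_coe]
    rw [← LinearMap.comp_apply (Z.subtype.baseChange R'), ← LinearMap.baseChange_comp]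
    rfl
  have hmem : ∀ z, i z ∈ LinearMap.ker G' := fun z =>
    LinearMap.mem_ker.2 ((hG' _).1 (hker.apply_apply_eq_zero z))
  have hsur : ∀ y ∈ LinearMap.ker G', ∃ z, i z = y := fun y hy => by
    have h0 : G.baseChange R' (L.symm y) = 0 := (hG' _).2 (by rw [L.apply_symm_apply]; exact hy)
    obtain ⟨z, hz⟩ := (hker _).1 h0
    exact ⟨z, by simp only [i, LinearMap.comp_apply, hz, LinearEquiv.coe_coe, L.apply_symm_apply]⟩
  let e : R' ⊗[R] Z ≃ₗ[R'] LinearMap.ker G' :=
    LinearEquiv.ofBijective (i.codRestrict _ hmem)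
      ⟨fun a b h => hi (congrArg Subtype.val h),
        fun y => (hsur y.1 y.2).imp fun z hz => Subtype.ext hz⟩
  have he : ∀ z, (e z : E') = i z := fun z => rfl
  have h1 : Function.Exact (F₁.baseChange R') (B.mkQ.baseChange R') :=
    lTensor_exact R' hex (Submodule.mkQ_surjective B)
  have hsurj : Function.Surjective (B.mkQ.baseChange R') :=
    LinearMap.lTensor_surjective R' (Submodule.mkQ_surjective B)
  refine ⟨(LinearMap.quotKerEquivOfSurjective _ hsurj).symm.trans
    (Submodule.Quotient.equiv _ _ e ?_)⟩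
  rw [h1.linearMap_ker_eq]
  ext y
  constructor
  · rintro ⟨z, ⟨x, rfl⟩, rfl⟩
    exact ⟨L x, (hFi x).symm⟩
  · rintro ⟨x, hx⟩
    refine ⟨F₁.baseChange R' (L.symm x), ⟨_, rfl⟩, Subtype.ext ?_⟩
    change i _ = _
    rw [hFi, L.apply_symm_apply]
    exact hx

variable (P : MCx R) (M : Type u) [AddCommGroup M] [Module R M]

/-- Projection of tuples on a degree. -/
noncomputable def proj (n : ℤ) : (P.β → M) →ₗ[R] (P.β → M) :=
  LinearMap.pi fun b => if (P.deg b : ℤ) = n then LinearMap.proj b else 0

theorem proj_apply (n : ℤ) (x : P.β → M) (b : P.β) :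
    proj P M n x b = if (P.deg b : ℤ) = n then x b else 0 := by
  simp only [proj, LinearMap.pi_apply]
  split_ifs <;> rfl

theorem mem_deg_iff (n : ℤ) (x : P.β → M) : x ∈ (P.gc M).deg n ↔ proj P M n x = x := by
  change x ∈ P.degSub M n ↔ _
  rw [MCx.degSub, mem_pi_deg (fun b : P.β => (P.deg b : ℤ)), funext_iff]
  refine forall_congr' fun b => ?_
  rw [proj_apply]
  by_cases h : (P.deg b : ℤ) = n <;> simp [h, eq_comm]

/-- Boundaries as a range. -/
noncomputable def bdMap (n : ℤ) : (P.β → M) →ₗ[R] (P.β → M) :=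
  P.dlin M ∘ₗ proj P M (n + 1)

/-- Cycles as a kernel. -/
noncomputable def cycMap (n : ℤ) : (P.β → M) →ₗ[R] (P.β → M) × (P.β → M) :=
  (LinearMap.id - proj P M n).prod (P.dlin M)

theorem proj_idem (n : ℤ) (x : P.β → M) : proj P M n (proj P M n x) = proj P M n x := by
  funext b
  simp only [proj_apply]
  split_ifs <;> rfl

theorem cyc_eq (n : ℤ) : (P.gc M).cyc ⊥ ⊤ n = LinearMap.ker (cycMap P M n) := by
  ext x
  simp only [GC.cyc, Submodule.mem_inf, Submodule.mem_top, true_and, Submodule.mem_comap,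
    Submodule.mem_bot, mem_deg_iff, cycMap, LinearMap.mem_ker, LinearMap.prod_apply, Function.prod_apply,
    Prod.mk_eq_zero, LinearMap.sub_apply, LinearMap.id_apply, sub_eq_zero]
  exact and_congr_left' eq_comm

theorem bd_eq (n : ℤ) : (P.gc M).bd ⊥ ⊤ n = LinearMap.range (bdMap P M n) := by
  simp only [GC.bd, bot_inf_eq, sup_bot_eq, top_inf_eq]
  ext x
  constructor
  · rintro ⟨y, hy, rfl⟩
    exact ⟨y, by rw [bdMap, LinearMap.comp_apply, (mem_deg_iff P M _ y).1 hy]; rfl⟩
  · rintro ⟨y, rfl⟩
    exact ⟨proj P M (n + 1) y, (mem_deg_iff P M _ _).2 (proj_idem P M _ y), rfl⟩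

theorem cycMap_bdMap (n : ℤ) : cycMap P M n ∘ₗ bdMap P M n = 0 := by
  refine LinearMap.ext fun y => ?_
  have h1 : bdMap P M n y ∈ (P.gc M).deg n := by
    have := (P.gc M).map_deg (n + 1)
      (Submodule.mem_map_of_mem (f := (P.gc M).D) ((mem_deg_iff P M _ _).2 (proj_idem P M _ y)))
    rwa [add_sub_cancel_right] at this
  have h2 : P.dlin M (bdMap P M n y) = 0 := LinearMap.congr_fun (P.gc M).sq (proj P M (n + 1) y)
  simp only [cycMap, LinearMap.comp_apply, LinearMap.prod_apply, Function.prod_apply, LinearMap.sub_apply,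
    LinearMap.id_apply, (mem_deg_iff P M _ _).1 h1, h2, sub_self, LinearMap.zero_apply]
  rfl

omit [Module.Flat R R'] in
/-- Tuples commute with tensor products. -/
noncomputable def tup :
    R' ⊗[R] (P.β → M) ≃ₗ[R'] ((P.map (algebraMap R R')).β → R' ⊗[R] M) :=
  TensorProduct.piRight R R' R' fun _ : P.β => M

omit [Module.Flat R R'] in
theorem tup_tmul (r : R') (x : P.β → M) :
    tup R' P M (r ⊗ₜ[R] x) = fun b : P.β => r ⊗ₜ[R] x b :=
  funext fun b => by
    change TensorProduct.piRightHom R R' R' (fun _ : P.β => M) (r ⊗ₜ[R] x) b = _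
    rw [TensorProduct.piRightHom_tmul]

omit [Module.Flat R R'] in
theorem tup_proj (n : ℤ) (z : R' ⊗[R] (P.β → M)) :
    tup R' P M ((proj P M n).baseChange R' z) =
      proj (P.map (algebraMap R R')) (R' ⊗[R] M) n (tup R' P M z) := by
  induction z with
  | zero => simp
  | add a b ha hb => simp only [map_add, ha, hb]
  | tmul r x =>
    rw [LinearMap.baseChange_tmul, tup_tmul, tup_tmul]
    funext b
    refine Eq.trans ?_ (proj_apply (P.map (algebraMap R R')) (R' ⊗[R] M) n _ b).symm
    change r ⊗ₜ[R] proj P M n x b = if (P.deg b : ℤ) = n then r ⊗ₜ[R] x b else 0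
    rw [proj_apply]
    split_ifs <;> simp

omit [Module.Flat R R'] in
theorem tup_dlin (z : R' ⊗[R] (P.β → M)) :
    tup R' P M ((P.dlin M).baseChange R' z) =
      (P.map (algebraMap R R')).dlin (R' ⊗[R] M) (tup R' P M z) := by
  induction z with
  | zero => simp
  | add a b ha hb => simp only [map_add, ha, hb]
  | tmul r x =>
    rw [LinearMap.baseChange_tmul, tup_tmul, tup_tmul]
    funext b
    refine Eq.trans ?_ (MCx.dlin_apply (P.map (algebraMap R R')) (R' ⊗[R] M) _ b).symm
    change r ⊗ₜ[R] P.dlin M x b = ∑ c : P.β, algebraMap R R' (P.D b c) • (r ⊗ₜ[R] x c)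
    rw [MCx.dlin_apply, TensorProduct.tmul_sum]
    exact Finset.sum_congr rfl fun c _ => by
      rw [algebraMap_smul, TensorProduct.tmul_smul]

/-- Homology commutes with flat base change. -/
theorem length_H (n : ℤ) :
    Module.length R' (((P.map (algebraMap R R')).gc (R' ⊗[R] M)).H ⊥ ⊤ n) =
      Module.length R' (R' ⊗[R] ((P.gc M).H ⊥ ⊤ n)) := by
  set Q := P.map (algebraMap R R')
  set N := R' ⊗[R] M
  let L := tup R' P M
  have hbd : ∀ z, L ((bdMap P M n).baseChange R' z) = bdMap Q N n (L z) := by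
    intro z
    simp only [bdMap, LinearMap.baseChange_comp, LinearMap.comp_apply]
    rw [tup_dlin, tup_proj]
  have hK : ∀ z, (cycMap P M n).baseChange R' z = 0 ↔ cycMap Q N n (L z) = 0 := by
    intro z
    have hfst : (LinearMap.fst R (P.β → M) (P.β → M)).baseChange R'
        ((cycMap P M n).baseChange R' z) = z - (proj P M n).baseChange R' z := by
      rw [← LinearMap.comp_apply, ← LinearMap.baseChange_comp, cycMap, LinearMap.fst_prod,
        LinearMap.baseChange_sub, LinearMap.baseChange_id]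
      rfl
    have hsnd : (LinearMap.snd R (P.β → M) (P.β → M)).baseChange R'
        ((cycMap P M n).baseChange R' z) = (P.dlin M).baseChange R' z := by
      rw [← LinearMap.comp_apply, ← LinearMap.baseChange_comp, cycMap, LinearMap.snd_prod]
    simp only [cycMap, LinearMap.prod_apply, Function.prod_apply, LinearMap.sub_apply, LinearMap.id_apply,
      Prod.mk_eq_zero] at hfst hsnd ⊢
    constructor
    · intro h
      rw [h, map_zero] at hfst hsnd
      exact ⟨by rw [← tup_proj, ← map_sub, ← hfst, map_zero],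
        by rw [← tup_dlin, ← hsnd, map_zero]⟩
    · rintro ⟨h1, h2⟩
      have h1' : z - (proj P M n).baseChange R' z = 0 := by
        apply L.injective
        rw [map_zero, map_sub, tup_proj]
        exact h1
      have h2' : (P.dlin M).baseChange R' z = 0 := by
        apply L.injective
        rw [map_zero, tup_dlin]
        exact h2
      rw [h1'] at hfst
      rw [h2'] at hsnd
      apply (TensorProduct.prodRight R R' R' (P.β → M) (P.β → M)).injective
      rw [map_zero]
      set w := ((LinearMap.id - proj P M n).prod (P.dlin M)).baseChange R' z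
      have hw : ∀ v : R' ⊗[R] ((P.β → M) × (P.β → M)),
          TensorProduct.prodRight R R' R' (P.β → M) (P.β → M) v =
            ((LinearMap.fst R (P.β → M) (P.β → M)).baseChange R' v,
              (LinearMap.snd R (P.β → M) (P.β → M)).baseChange R' v) := by
        intro v
        induction v with
        | zero =>
          simp only [map_zero]
          rfl
        | add a b ha hb => simp only [map_add, ha, hb, Prod.mk_add_mk]
        | tmul r x =>
          rw [LinearMap.baseChange_tmul, LinearMap.baseChange_tmul]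
          simp
      rw [hw, hfst, hsnd]
      rfl
  obtain ⟨e⟩ := nonempty_equiv R' (bdMap P M n) (cycMap P M n) (cycMap_bdMap P M n) L
    (bdMap Q N n) (cycMap Q N n) hbd hK
  refine Eq.trans ?_ (e.length_eq.symm.trans ?_)
  · refine (Submodule.Quotient.equiv _ _ (LinearEquiv.ofEq _ _ (cyc_eq Q N n)) ?_).length_eq
    ext y
    rw [bd_eq]
    constructor
    · rintro ⟨z, hz, rfl⟩
      exact hz
    · intro hy
      exact ⟨⟨y.1, (cyc_eq Q N n).symm ▸ y.2⟩, hy, rfl⟩
  · refine (LinearEquiv.baseChange R R' _ _ (Submodule.Quotient.equiv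
      ((LinearMap.range (bdMap P M n)).comap (LinearMap.ker (cycMap P M n)).subtype)
      (((P.gc M).bd ⊥ ⊤ n).comap ((P.gc M).cyc ⊥ ⊤ n).subtype)
      (LinearEquiv.ofEq _ _ (cyc_eq P M n).symm) ?_)).length_eq
    ext y
    rw [bd_eq]
    constructor
    · rintro ⟨z, hz, rfl⟩
      exact hz
    · intro hy
      exact ⟨⟨y.1, (cyc_eq P M n) ▸ y.2⟩, hy, rfl⟩

end BC

end Vale.Agent.P202.Ext
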