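import Vale.Agent.P202.Char.Complexes
import Vale.Agent.P202.Char.Matrix

/-!
P202, Lech in characteristic `p` for arbitrary residue extensions: the tensor product of a matrix
complex with a Koszul complex.

Setting of the folder `Ext`: `R` is a finite algebra over `A = k[[X]]`, `B = K[[X, Z]]` is a flat
`A`-algebra through a lift of `k → K` to `K[[Z]]`, and `T = B ⊗[A] R` maps onto the complete local
flat extension `S` of `R`. A resolution `F` of `S` over `T`, tensored with the Koszul complex of
lifts of a reduction of the maximal ideal of `S`, replaces the finite free algebra of the main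
theorem.
-/

namespace Vale.Agent.P202.Ext

open Vale.Agent.P202.Char Finset
open scoped Kronecker

universe u

variable {T : Type u} [CommRing T] {d : ℕ}

/-- The matrix of the Koszul differential. -/
noncomputable def kMat (x : Fin d → T) : Matrix (Finset (Fin d)) (Finset (Fin d)) T :=
  fun s t => ∑ j ∈ sᶜ, if insert j s = t then ksign s j • x j else 0

theorem mlin_kMat (x : Fin d → T) (N : Type u) [AddCommGroup N] [Module T N]
    (f : Finset (Fin d) → N) : mlin N (kMat x) f = koszulD x N f := by
  funext s
  simp only [mlin_apply, koszulD_apply, kMat, sum_smul]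
  rw [sum_comm]
  refine sum_congr rfl fun j _ => ?_
  rw [sum_eq_single (insert j s) (fun t _ ht => by rw [if_neg (Ne.symm ht), zero_smul]) (by simp),
    if_pos rfl]

theorem kMat_sq (x : Fin d → T) : kMat x * kMat x = 0 := by
  refine Matrix.ext fun s t => ?_
  have h := congrFun (LinearMap.congr_fun (koszulD_sq x T) (Pi.single t 1)) s
  rw [LinearMap.comp_apply, ← mlin_kMat x T, ← mlin_kMat x T, ← mlin_mul] at h
  simpa [mlin_apply, Pi.single_apply] using h

theorem kMat_deg (x : Fin d → T) {s t : Finset (Fin d)} (h : kMat x s t ≠ 0) :
    t.card = s.card + 1 := by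
  obtain ⟨j, hj, hne⟩ := exists_ne_zero_of_sum_ne_zero h
  by_cases hjt : insert j s = t
  · rw [← hjt, card_insert_of_notMem (mem_compl.1 hj)]
  · simp [hjt] at hne

/-- The signs of a graded basis. -/
def signMat (F : MCx T) : Matrix F.β F.β T := Matrix.diagonal fun a => (-1 : T) ^ F.deg a

/-- The tensor product of `F` with the Koszul complex of `x`. -/
noncomputable def koszulTensor (F : MCx T) (x : Fin d → T) : MCx T where
  β := F.β × Finset (Fin d)
  deg a := F.deg a.1 + a.2.card
  D := F.D ⊗ₖ (1 : Matrix (Finset (Fin d)) (Finset (Fin d)) T) + signMat F ⊗ₖ kMat x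
  sq := by
    have hanti : F.D * signMat F + signMat F * F.D = 0 := by
      refine Matrix.ext fun a b => ?_
      simp only [signMat, Matrix.add_apply, Matrix.mul_diagonal, Matrix.diagonal_mul,
        Matrix.zero_apply]
      by_cases hd : F.D a b = 0
      · simp [hd]
      · rw [F.homog a b hd, pow_succ]; ring
    simp only [mul_add, add_mul, ← Matrix.mul_kronecker_mul, F.sq, kMat_sq, one_mul, mul_one,
      Matrix.zero_kronecker, Matrix.kronecker_zero, zero_add, add_zero]
    rw [← Matrix.add_kronecker, add_comm, hanti, Matrix.zero_kronecker]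
  homog := by
    rintro ⟨a, s⟩ ⟨b, t⟩ h
    simp only [Matrix.add_apply, Matrix.kronecker_apply, signMat] at h
    dsimp only
    by_cases h1 : F.D a b * (1 : Matrix (Finset (Fin d)) (Finset (Fin d)) T) s t = 0
    · rw [h1, zero_add] at h
      have hab : a = b := by
        by_contra hne
        simp [hne] at h
      have hk : kMat x s t ≠ 0 := fun h0 => h (by rw [h0, mul_zero])
      rw [kMat_deg x hk, hab]
      omega
    · have hst : s = t := by
        by_contra hne
        simp [hne] at h1
      have hd : F.D a b ≠ 0 := fun h0 => h1 (by rw [h0, zero_mul])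
      rw [F.homog a b hd, hst]
      omega

theorem koszulTensor_deg_le (F : MCx T) (x : Fin d → T) {h : ℕ} (hF : ∀ b, F.deg b ≤ h)
    (b : (koszulTensor F x).β) : (koszulTensor F x).deg b ≤ h + d := by
  have h2 : b.2.card ≤ d := (Finset.card_le_univ b.2).trans_eq (Fintype.card_fin d)
  exact Nat.add_le_add (hF b.1) h2

/-- Frobenius on the target only. -/
def Twist (A : Type u) : Type u := A

instance (A : Type u) [i : CommRing A] : CommRing (Twist A) := i
instance (A : Type u) [CommRing A] [i : IsLocalRing A] : IsLocalRing (Twist A) := i
instance (A : Type u) [CommRing A] [i : IsNoetherianRing A] : IsNoetherianRing (Twist A) := i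

end Vale.Agent.P202.Ext
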