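import Vale.Agent.P202.Ext.BaseChange
import Vale.Agent.P202.Char.KoszulSmall
import Vale.Agent.P202.Char.Frobenius

/-!
P202, Lech in characteristic `p`, arbitrary residue extensions: Frobenius copies of `A`, `B` and of
`B ⊗[A] R`, and elementary facts on matrix complexes.
-/

namespace Vale.Agent.P202.Ext

open IsLocalRing Vale.Agent.P202.Char
open scoped TensorProduct

universe u v

/-- Null homotopic scalars kill the homology. -/
theorem smul_mem_bd {R : Type u} [CommRing R] {P : MCx R} {r : R} (hr : P.IsNullHtpic r)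
    (M : Type v) [AddCommGroup M] [Module R M] (n : ℤ) {x : P.β → M}
    (hx : x ∈ (P.gc M).cyc ⊥ ⊤ n) : r • x ∈ (P.gc M).bd ⊥ ⊤ n := by
  obtain ⟨h, hdeg, heq⟩ := hr
  obtain ⟨⟨-, hxd⟩, hD⟩ := hx
  have hD0 : mlin M P.D x = 0 := (Submodule.mem_bot R).1 hD
  refine Submodule.mem_sup_left ⟨mlin M h x, ⟨trivial, ?_⟩, ?_⟩
  · have hxd' := (mem_pi_deg (fun b : P.β => (P.deg b : ℤ)) n x).1 hxd
    refine (mem_pi_deg (fun b : P.β => (P.deg b : ℤ)) (n + 1) _).2 fun a ha => ?_
    rw [mlin_apply]
    refine Finset.sum_eq_zero fun b _ => ?_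
    by_cases h0 : h a b = 0
    · simp [h0]
    · have := hdeg a b h0
      rw [hxd' b (by omega), smul_zero]
  · change mlin M P.D (mlin M h x) = r • x
    rw [← mlin_mul]
    have h1 : mlin M (P.D * h + h * P.D) x = r • x := by rw [heq, mlin_smul, mlin_one]
    rwa [mlin_add, mlin_mul M h P.D, hD0, map_zero, add_zero] at h1

/-- If the powers of generators of an ideal of definition act null-homotopically, homology has
finite length. -/
theorem finH_of_null {T : Type u} [CommRing T] [IsLocalRing T] [IsNoetherianRing T] (P : MCx T)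
    (I : Ideal T) {c : ℕ} (hI : maximalIdeal T ^ c ≤ I)
    (hnull : ∀ z ∈ I, ∃ N, P.IsNullHtpic (z ^ N)) (M : Type u) [AddCommGroup M] [Module T M]
    [Module.Finite T M] (n : ℤ) : (P.gc M).FinH ⊥ ⊤ n := by
  have : IsNoetherian T (P.β → M) := isNoetherian_pi
  set K := ((P.gc M).bd ⊥ ⊤ n).colon ((P.gc M).cyc ⊥ ⊤ n : Set (P.β → M))
  have hrad : I ≤ K.radical := fun z hz => by
    obtain ⟨N, hN⟩ := hnull z hz
    exact ⟨N, Submodule.mem_colon.2 fun x hx => smul_mem_bd hN M n hx⟩
  obtain ⟨N, hN⟩ := Ideal.exists_pow_le_of_le_radical_of_fg hrad I.fg_of_isNoetherianRing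
  refine length_ne_top_of_killed (N := c * N) fun r hr q => ?_
  obtain ⟨⟨x, hx⟩, rfl⟩ := Submodule.mkQ_surjective _ q
  rw [pow_mul] at hr
  exact (Submodule.Quotient.mk_eq_zero _).2
    (Submodule.mem_colon.1 (hN (Ideal.pow_right_mono hI N hr)) x hx)

/-- Lengths along a local map with trivial residue extension. -/
theorem length_of_residue {E F : Type u} [CommRing E] [CommRing F] [IsLocalRing E] [IsLocalRing F]
    [Algebra E F] [IsLocalHom (algebraMap E F)]
    (hres : Function.Surjective ((residue F).comp (algebraMap E F)))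
    (M : Type v) [AddCommGroup M] [Module E M] [Module F M] [IsScalarTower E F M] :
    Module.length E M = Module.length F M := by
  have hs : Function.Surjective (algebraMap (ResidueField E) (ResidueField F)) := fun y => by
    obtain ⟨x, hx⟩ := hres y
    exact ⟨residue E x, (IsLocalRing.ResidueField.algebraMap_residue x).trans hx⟩
  rw [IsLocalRing.length_restrictScalars E F M,
    Module.length_eq_of_surjective (M := ResidueField F) hs,
    Module.length_eq_one (ResidueField F) (ResidueField F), mul_one]

/-- The target of the `k`-th Frobenius. -/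
def Fr (p k : ℕ) (A : Type u) : Type u := A

section Fr

variable (p k : ℕ) (A : Type u)

instance [i : CommRing A] : CommRing (Fr p k A) := i
instance [CommRing A] [i : IsLocalRing A] : IsLocalRing (Fr p k A) := i
instance [CommRing A] [i : IsNoetherianRing A] : IsNoetherianRing (Fr p k A) := i
instance [CommRing A] [i : IsDomain A] : IsDomain (Fr p k A) := i
instance [CommRing A] [i : CharP A p] : CharP (Fr p k A) p := i

/-- The identity. -/
def toFr {A : Type u} [CommRing A] : A ≃+* Fr p k A := RingEquiv.refl A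

variable [Fact p.Prime] {A} {B : Type u} [CommRing A] [CommRing B] [CharP B p] [Algebra A B]

noncomputable instance frAlgebra : Algebra A (Fr p k B) :=
  (((toFr p k).toRingHom.comp (iterateFrobenius B p k)).comp (algebraMap A B)).toAlgebra

noncomputable instance frAlgebraFr : Algebra (Fr p k A) (Fr p k B) :=
  ((toFr p k).toRingHom.comp ((algebraMap A B).comp (toFr p k).symm.toRingHom)).toAlgebra

theorem algebraMap_fr (a : A) :
    algebraMap A (Fr p k B) a = toFr p k (algebraMap A B a ^ p ^ k) := rfl

instance frTower {C : Type u} [CommRing C] [CharP C p] [Algebra B C] [Algebra A C]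
    [IsScalarTower A B C] : IsScalarTower A B (Fr p k C) :=
  IsScalarTower.of_algebraMap_eq fun a => by
    rw [algebraMap_fr, algebraMap_fr, ← IsScalarTower.algebraMap_apply]

instance frTowerFr [CharP A p] : IsScalarTower A (Fr p k A) (Fr p k B) :=
  IsScalarTower.of_algebraMap_eq fun a => by
    change (algebraMap A B a) ^ p ^ k = algebraMap A B (a ^ p ^ k)
    rw [map_pow]

end Fr

section Tensor

variable (p k : ℕ) [Fact p.Prime] (A : Type u) (B : Type u) (R : Type u) [CommRing A] [CommRing B]
  [CharP B p] [Algebra A B] [CommRing R] [Algebra A R]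

/-- `B ⊗[A] R` with Frobenius on `B`. -/
abbrev TS := Fr p k B ⊗[A] R

/-- Frobenius on the first factor. -/
noncomputable def psi : B ⊗[A] R →+* TS p k A B R :=
  (Algebra.TensorProduct.map (IsScalarTower.toAlgHom A B (Fr p k B)) (AlgHom.id A R)).toRingHom

theorem psi_tmul (b : B) (r : R) :
    psi p k A B R (b ⊗ₜ r) = toFr p k (b ^ p ^ k) ⊗ₜ[A] r := rfl

variable [CharP (B ⊗[A] R) p]

/-- Frobenius on the second factor. -/
noncomputable def thetaB : TS p k A B R →+* B ⊗[A] R :=
  let f : Fr p k B →ₐ[A] Fr p k (B ⊗[A] R) :=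
    { toRingHom := (toFr p k).toRingHom.comp
        ((Algebra.TensorProduct.includeLeftRingHom (A := B) (B := R)).comp (toFr p k).symm.toRingHom)
      commutes' := fun a => by
        change ((algebraMap A B a ^ p ^ k) ⊗ₜ[A] (1 : R)) =
          (algebraMap A (B ⊗[A] R) a) ^ p ^ k
        rw [Algebra.TensorProduct.algebraMap_apply, Algebra.TensorProduct.tmul_pow, one_pow] }
  let g : R →ₐ[A] Fr p k (B ⊗[A] R) :=
    { toRingHom := ((toFr p k).toRingHom.comp (iterateFrobenius (B ⊗[A] R) p k)).comp
        (Algebra.TensorProduct.includeRight (R := A) (A := B) (B := R)).toRingHom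
      commutes' := fun a => by
        change ((1 : B) ⊗ₜ[A] algebraMap A R a) ^ p ^ k = (algebraMap A (B ⊗[A] R) a) ^ p ^ k
        rw [Algebra.TensorProduct.algebraMap_apply, Algebra.TensorProduct.tmul_one_eq_one_tmul] }
  (toFr p k).symm.toRingHom.comp
    (Algebra.TensorProduct.lift f g (fun _ _ => mul_comm _ _)).toRingHom

theorem thetaB_tmul (b : Fr p k B) (r : R) :
    thetaB p k A B R (b ⊗ₜ r) = (toFr p k).symm b ⊗ₜ[A] (r ^ p ^ k) := by
  change ((toFr p k).symm b ⊗ₜ[A] (1 : R)) * ((1 : B) ⊗ₜ[A] r) ^ p ^ k = _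
  rw [Algebra.TensorProduct.tmul_pow, one_pow, Algebra.TensorProduct.tmul_mul_tmul, mul_one,
    one_mul]

theorem thetaB_psi (t : B ⊗[A] R) : thetaB p k A B R (psi p k A B R t) = t ^ p ^ k := by
  induction t with
  | zero => simp [zero_pow (pow_pos (Fact.out (p := p.Prime)).pos k).ne']
  | add a b ha hb => rw [map_add, map_add, ha, hb, add_pow_char_pow]
  | tmul b r => rw [psi_tmul, thetaB_tmul, Algebra.TensorProduct.tmul_pow]; rfl

theorem charP_TS [Nontrivial (TS p k A B R)] : CharP (TS p k A B R) p :=
  (CharP.charP_iff_prime_eq_zero (Fact.out (p := p.Prime))).mpr (by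
    rw [← map_natCast (psi p k A B R), CharP.cast_eq_zero, map_zero])

theorem nontrivial_TS : Nontrivial (TS p k A B R) :=
  have : Nontrivial (B ⊗[A] R) :=
    CharP.nontrivial_of_char_ne_one (R := B ⊗[A] R) (Fact.out (p := p.Prime)).ne_one
  ⟨0, 1, fun h => zero_ne_one (α := B ⊗[A] R) (by
    simpa using congrArg (thetaB p k A B R) h)⟩

theorem psi_thetaB (u : TS p k A B R) : psi p k A B R (thetaB p k A B R u) = u ^ p ^ k := by
  have := nontrivial_TS p k A B R
  have := charP_TS p k A B R
  induction u using TensorProduct.induction_on with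
  | zero => simp [zero_pow (pow_pos (Fact.out (p := p.Prime)).pos k).ne']
  | add a b ha hb => rw [map_add, map_add, ha, hb, add_pow_char_pow]
  | tmul b r => rw [thetaB_tmul, psi_tmul, Algebra.TensorProduct.tmul_pow]; rfl

variable [IsLocalRing (B ⊗[A] R)]

theorem isLocalRing_TS : IsLocalRing (TS p k A B R) := by
  have := nontrivial_TS p k A B R
  have hu : ∀ u, IsUnit (thetaB p k A B R u) → IsUnit u := fun u h => by
    have := h.map (psi p k A B R)
    rw [psi_thetaB] at this
    exact isUnit_pow_iff (pow_pos (Fact.out (p := p.Prime)).pos k).ne' |>.1 this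
  refine IsLocalRing.of_nonunits_add fun a b ha hb h => ?_
  have h' := h.map (thetaB p k A B R)
  rw [map_add] at h'
  exact (IsLocalRing.nonunits_add (fun x => ha (hu a x)) (fun x => hb (hu b x))) h'

end Tensor

end Vale.Agent.P202.Ext
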