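import Vale.Agent.P202.Ext.Killed
import Vale.Agent.P202.Zero.PSLength

/-!
P202, Lech in characteristic `p` for arbitrary residue extensions: `R/(g)` and, over an Artinian
closed fibre, `S/(g)` grow slower than `k ^ d`; positivity of the multiplicity upstairs.
-/

namespace Vale.Agent.P202.Ext

open IsLocalRing Filter Topology Vale.Agent.P202.Char Vale.Agent.P202.Zero

universe u

/-- For `g` in `k[[X]]`, `R/(g, m^M)` is no longer than a multiple of `k[[X]]/(g, (X)^M)`. -/
theorem exists_base_growth {k : Type u} [Field k] {d : ℕ} {R : Type u} [CommRing R]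
    [IsLocalRing R] [Algebra (PS k d) R] [Module.Finite (PS k d) R]
    (hresR : Function.Surjective fun a : k =>
      residue R (algebraMap (PS k d) R (MvPowerSeries.C a)))
    {g : PS k d} (hg : g ≠ 0) : ∃ s : ℕ, ∀ M : ℕ,
      (len R (R ⧸ (Ideal.span {algebraMap (PS k d) R g} ⊔ maximalIdeal R ^ M)) : ℝ) ≤
        (s : ℝ) * (((PSLen.lowSet d M).card : ℝ) -
          ((PSLen.lowSet d (M - g.order.toNat)).card : ℝ)) := by
  let ιR : k →+* R := (algebraMap (PS k d) R).comp MvPowerSeries.C
  let _ : Algebra k R := ιR.toAlgebra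
  have : IsScalarTower k (PS k d) R := IsScalarTower.of_algebraMap_eq fun _ => rfl
  have hz : (zI k d).map (algebraMap (PS k d) R) ≤ maximalIdeal R := by
    have : Algebra.IsIntegral (PS k d) R := inferInstance
    have h1 : Ideal.comap (algebraMap (PS k d) R) (maximalIdeal R) = maximalIdeal (PS k d) :=
      IsLocalRing.eq_maximalIdeal
        (Ideal.isMaximal_comap_of_isIntegral_of_isMaximal (maximalIdeal R))
    rw [Ideal.map_le_iff_le_comap, h1, zI]
    refine Ideal.span_le.2 ?_
    rintro _ ⟨i, rfl⟩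
    rw [SetLike.mem_coe, mem_maximalIdeal, mem_nonunits_iff, MvPowerSeries.isUnit_iff_constantCoeff]
    simp
  obtain ⟨s, t, ht⟩ := Module.Finite.exists_fin (R := PS k d) (M := R)
  refine ⟨s, fun M => ?_⟩
  obtain ⟨hf, hr⟩ := PSLen.quot_sup (k := k) (d := d) hg M
  set K : Ideal (PS k d) := zI k d ^ M ⊔ Ideal.span {g}
  obtain ⟨hf0, hr0⟩ := PSLen.quot_mono (k := k) (I := K) (J := K ⊔ Ideal.span {0}) le_sup_left
  obtain ⟨hfK, hrK⟩ := PSLen.upper (k := k) K (0 : PS k d) (Fin.elim0 : Fin 0 → R)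
    (fun x => by simp) t ht
  set P : Ideal R := Ideal.span {algebraMap (PS k d) R g} ⊔ maximalIdeal R ^ M
  have hKP : K.map (algebraMap (PS k d) R) ≤ P := by
    rw [Ideal.map_sup, Ideal.map_span, Set.image_singleton, Ideal.map_pow]
    exact sup_le (le_sup_of_le_right (Ideal.pow_right_mono hz M)) le_sup_left
  let q : (R ⧸ K • (⊤ : Submodule (PS k d) R)) →ₗ[PS k d] R ⧸ P :=
    Submodule.liftQ _ ((Submodule.mkQ P).restrictScalars (PS k d)) (by
      refine Submodule.smul_le.2 fun r hr x _ => ?_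
      rw [LinearMap.mem_ker, LinearMap.restrictScalars_apply, Submodule.mkQ_apply,
        Submodule.Quotient.mk_eq_zero, Algebra.smul_def]
      exact Ideal.mul_mem_right _ _ (hKP (Ideal.mem_map_of_mem _ hr)))
  have hq : Function.Surjective (q.restrictScalars k) := by
    intro z
    obtain ⟨x, rfl⟩ := Submodule.mkQ_surjective P z
    exact ⟨Submodule.Quotient.mk x, rfl⟩
  have : Module.Finite k (R ⧸ P) := Module.Finite.of_surjective _ hq
  have hlen : len R (R ⧸ P) = Module.finrank k (R ⧸ P) := by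
    rw [len, length_eq_residue (k := k) hresR, Module.length_eq_finrank, ENat.toNat_natCast]
  have h1 : len R (R ⧸ P) ≤ s * Module.finrank k (PS k d ⧸ K) := by
    rw [hlen]
    refine (LinearMap.finrank_le_finrank_of_surjective (f := q.restrictScalars k) hq).trans
      (hrK.trans ?_)
    rw [zero_mul, zero_add]
    exact Nat.mul_le_mul_left _ hr0
  refine (Nat.cast_le.2 h1).trans ?_
  push_cast
  refine mul_le_mul_of_nonneg_left ?_ (Nat.cast_nonneg s)
  rw [le_sub_iff_add_le]
  exact_mod_cast hr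

/-- `R/(g)` grows slower than `k ^ d` for `g ≠ 0` in `A = k[[X]]`, and so does `S/(g)` when the
closed fibre is Artinian. -/
theorem growth_fibre {k : Type u} [Field k] {d : ℕ} {R S : Type u} [CommRing R] [CommRing S]
    [IsLocalRing R] [IsLocalRing S] [IsNoetherianRing R] [IsNoetherianRing S] [Algebra R S]
    [IsLocalHom (algebraMap R S)] [Module.Flat R S] [Algebra (PS k d) R]
    [Module.Finite (PS k d) R]
    (hresR : Function.Surjective fun a : k =>
      residue R (algebraMap (PS k d) R (MvPowerSeries.C a)))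
    (hS : ∃ c, maximalIdeal S ^ c ≤ (maximalIdeal R).map (algebraMap R S))
    {g : PS k d} (hg : g ≠ 0) (I : Ideal S) (hI : ∃ c, maximalIdeal S ^ c ≤ I) :
    Tendsto (fun j : ℕ => (len S (S ⧸ (Ideal.span {algebraMap R S (algebraMap (PS k d) R g)} ⊔
      I ^ j)) : ℝ) / (j : ℝ) ^ d) atTop (𝓝 0) := by
  obtain ⟨c, hc⟩ := hS
  obtain ⟨c', hI'⟩ := hI
  obtain ⟨s, hs⟩ := exists_base_growth hresR hg
  set J := (maximalIdeal R).map (algebraMap R S)
  have hJ : J ^ (c' + 1) ≤ I :=
    ((Ideal.pow_right_mono (IsLocalRing.le_maximalIdeal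
      (IsLocalRing.map_maximalIdeal_lt_top (algebraMap R S)).ne) _).trans
        (Ideal.pow_le_pow_right c'.le_succ)).trans hI'
  have hL : Module.length S (S ⧸ J) ≠ ⊤ := length_quotient_ne_top J c hc
  set L := (Module.length S (S ⧸ J)).toNat
  set o := g.order.toNat
  have hmain : ∀ j : ℕ,
      (len S (S ⧸ (Ideal.span {algebraMap R S (algebraMap (PS k d) R g)} ⊔ I ^ j)) : ℝ) ≤
        (L : ℝ) * ((s : ℝ) * (((PSLen.lowSet d ((c' + 1) * j)).card : ℝ) -
          ((PSLen.lowSet d ((c' + 1) * j - o)).card : ℝ))) := by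
    intro j
    set K := Ideal.span {algebraMap (PS k d) R g} ⊔ maximalIdeal R ^ ((c' + 1) * j)
    have hle : K.map (algebraMap R S) ≤
        Ideal.span {algebraMap R S (algebraMap (PS k d) R g)} ⊔ I ^ j := by
      rw [Ideal.map_sup, Ideal.map_span, Set.image_singleton, Ideal.map_pow, pow_mul]
      exact sup_le_sup_left (Ideal.pow_right_mono hJ j) _
    have h1 := (length_quotient_mono hle).trans
      (length_map_le (algebraMap R S) (J := K) (le_sup_right (a := Ideal.span _)))
    have h2 : len S (S ⧸ (Ideal.span {algebraMap R S (algebraMap (PS k d) R g)} ⊔ I ^ j)) ≤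
        len R (R ⧸ K) * L := by
      have h3 := ENat.toNat_le_toNat h1 (WithTop.mul_ne_top (ENat.natCast_ne_top _) hL)
      rwa [ENat.toNat_mul, ENat.toNat_natCast] at h3
    refine (Nat.cast_le.2 h2).trans ?_
    rw [Nat.cast_mul, mul_comm]
    exact mul_le_mul_of_nonneg_left (hs _) (Nat.cast_nonneg _)
  have hg' : Tendsto (fun j : ℕ => (c' + 1) * j) atTop atTop :=
    tendsto_atTop_mono (fun j => Nat.le_mul_of_pos_left j c'.succ_pos) tendsto_id
  have hlim := (((PSLen.diff_limit d o).comp hg').mul_const (((c' + 1 : ℕ) : ℝ) ^ d)).const_mul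
    ((L : ℝ) * s)
  rw [zero_mul, mul_zero] at hlim
  refine squeeze_zero (fun j => by positivity) (fun j => ?_) hlim
  refine (div_le_div_of_nonneg_right (hmain j) (by positivity)).trans (le_of_eq ?_)
  have hc0 : (((c' + 1 : ℕ) : ℝ)) ^ d ≠ 0 := pow_ne_zero _ (by positivity)
  rw [Function.comp_apply, Nat.cast_mul (c' + 1) j, mul_pow,
    mul_comm (((c' + 1 : ℕ) : ℝ) ^ d) ((j : ℝ) ^ d), ← div_div, div_mul_cancel₀ _ hc0]
  ring

/-- The multiplicity upstairs is positive when the one of the base is. -/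
theorem mult_ne_zero_of_fibre {R S : Type u} [CommRing R] [CommRing S]
    [IsLocalRing R] [IsLocalRing S] [IsNoetherianRing R] [IsNoetherianRing S] [Algebra R S]
    [IsLocalHom (algebraMap R S)] [Module.Flat R S]
    (hS : ∃ c, maximalIdeal S ^ c ≤ (maximalIdeal R).map (algebraMap R S)) {d : ℕ} {e e' : ℝ}
    (he : IsMultiplicity R d e) (he' : IsMultiplicity S d e') (h0 : e ≠ 0) : e' ≠ 0 := by
  obtain ⟨c, hc⟩ := hS
  set J := (maximalIdeal R).map (algebraMap R S)
  set L := Module.length S (S ⧸ J)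
  have hLfin : L ≠ ⊤ := length_quotient_ne_top J c hc
  have hLpos : 0 < (L.toNat : ℝ) := by
    have : L.toNat ≠ 0 := by
      rw [Ne, ENat.toNat_eq_zero]
      rintro (h | h)
      · rw [Module.length_eq_zero_iff, Ideal.Quotient.subsingleton_iff] at h
        exact (IsLocalRing.map_maximalIdeal_lt_top (algebraMap R S)).ne h
      · exact hLfin h
    exact_mod_cast Nat.pos_of_ne_zero this
  have hcJ : maximalIdeal S ^ (c + 1) ≤ J := (Ideal.pow_le_pow_right c.le_succ).trans hc
  have hlow : ∀ N : ℕ, (L.toNat : ℝ) * ((Module.length R (R ⧸ maximalIdeal R ^ N)).toNat : ℝ) ≤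
      ((Module.length S (S ⧸ maximalIdeal S ^ ((c + 1) * N))).toNat : ℝ) := by
    intro N
    have h1 : Module.length R (R ⧸ maximalIdeal R ^ N) * L ≤
        Module.length S (S ⧸ maximalIdeal S ^ ((c + 1) * N)) := by
      rw [← length_map N]
      exact length_quotient_mono (by rw [pow_mul]; exact Ideal.pow_right_mono hcJ N)
    have h3 := ENat.toNat_le_toNat h1 (length_quotient_ne_top _ _ le_rfl)
    rw [ENat.toNat_mul, mul_comm] at h3
    exact_mod_cast h3
  have hg' : Tendsto (fun N : ℕ => (c + 1) * N) atTop atTop :=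
    tendsto_atTop_mono (fun N => Nat.le_mul_of_pos_left N c.succ_pos) tendsto_id
  have hpos : 0 < e := lt_of_le_of_ne (ge_of_tendsto' he fun N => by positivity) h0.symm
  intro hz
  have hup := (he'.comp hg').mul_const (((c + 1 : ℕ) : ℝ) ^ d)
  rw [hz, zero_mul] at hup
  refine absurd (le_of_tendsto_of_tendsto' (he.const_mul (L.toNat : ℝ)) hup fun N => ?_)
    (not_le.2 (mul_pos hLpos hpos))
  have hc0 : (((c + 1 : ℕ) : ℝ)) ^ d ≠ 0 := pow_ne_zero _ (by positivity)
  rw [Function.comp_apply, Nat.cast_mul (c + 1) N, mul_pow,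
    mul_comm (((c + 1 : ℕ) : ℝ) ^ d) ((N : ℝ) ^ d), ← div_div, div_mul_cancel₀ _ hc0,
    mul_div_assoc', mul_left_comm]
  gcongr
  exact hlow N

end Vale.Agent.P202.Ext
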