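import Vale.Agent.P202.Ext.Defs
import Vale.Agent.P202.Char.Bicomplex
import Vale.Agent.P202.Char.FrobRank
import Vale.Agent.P202.Lech

/-!
P202, Lech in characteristic `p`, arbitrary residue extensions: the Euler characteristic of
`F ⊗ K(x)` on a module is the alternating sum of the Koszul Euler characteristics of the homology
of `F`; it vanishes on the modules of small growth.
-/

namespace Vale.Agent.P202.Ext

open IsLocalRing Filter Topology Finset Vale.Agent.P202.Char
open scoped Kronecker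

universe u v

/-! ### Null homotopies -/

section Null

variable {R : Type u} [CommRing R] (P : MCx R)

theorem null_zero : P.IsNullHtpic 0 := ⟨0, fun _ _ h => absurd rfl h, by simp⟩

theorem null_add {r r' : R} (h : P.IsNullHtpic r) (h' : P.IsNullHtpic r') :
    P.IsNullHtpic (r + r') := by
  obtain ⟨η, hη, e⟩ := h
  obtain ⟨η', hη', e'⟩ := h'
  refine ⟨η + η', fun a b hab => ?_, ?_⟩
  · by_cases h0 : η a b = 0
    · rw [Matrix.add_apply, h0, zero_add] at hab
      exact hη' a b hab
    · exact hη a b h0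
  · rw [mul_add, add_mul, add_smul, ← e, ← e']
    abel

theorem null_mul (c : R) {r : R} (h : P.IsNullHtpic r) : P.IsNullHtpic (c * r) := by
  obtain ⟨η, hη, e⟩ := h
  refine ⟨c • η, fun a b hab => hη a b fun h0 => hab (by simp [h0]), ?_⟩
  rw [Matrix.mul_smul, Matrix.smul_mul, ← smul_add, e, smul_smul]

theorem smul_H_eq_zero {r : R} (h : P.IsNullHtpic r) (N : Type v) [AddCommGroup N] [Module R N]
    (n : ℤ) (a : (P.gc N).H ⊥ ⊤ n) : r • a = 0 := by
  obtain ⟨η, hη, e⟩ := h
  induction a using Submodule.Quotient.induction_on with | _ z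
  obtain ⟨h1, h2⟩ := (MCx.mem_cyc N).1 z.2
  rw [← Submodule.Quotient.mk_smul, Submodule.Quotient.mk_eq_zero]
  change r • z.1 ∈ (P.gc N).bd ⊥ ⊤ n
  have hr : r • z.1 = mlin N P.D (mlin N η z.1) := by
    calc r • z.1 = mlin N (r • (1 : Matrix P.β P.β R)) z.1 := by rw [mlin_smul, mlin_one]
      _ = _ := by rw [← e, mlin_add, mlin_mul, mlin_mul, h2, map_zero, add_zero]
  rw [hr]
  exact MCx.D_mem_bd N (MCx.mlin_deg N η 1 n (fun a b h => by exact_mod_cast hη a b h) h1)

end Null

/-! ### The tensor product with a Koszul complex as a bicomplex -/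

section Bicomplex

variable {R : Type u} [CommRing R] {d : ℕ}

/-- The Koszul complex of `z` as a complex of matrices. -/
noncomputable def kCx (z : Fin d → R) : MCx R where
  β := Finset (Fin d)
  deg := Finset.card
  D := kMat z
  sq := kMat_sq z
  homog _ _ h := kMat_deg z h

theorem kCx_deg_le (z : Fin d → R) (b : (kCx z).β) : (kCx z).deg b ≤ d :=
  (Finset.card_le_univ b).trans_eq (Fintype.card_fin d)

theorem gc_kCx (z : Fin d → R) (N : Type u) [AddCommGroup N] [Module R N] :
    (kCx z).gc N = koszulGC R z N := by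
  have hD : (kCx z).dlin N = (koszulD z N).restrictScalars R :=
    LinearMap.ext (mlin_kMat z N)
  unfold MCx.gc koszulGC
  congr 1

variable {N : Type v} [AddCommGroup N] [Module R N]

/-- A complex with its degrees lowered by `h`. -/
def shiftGC (C : GC R N) (h : ℕ) : GC R N where
  D := C.D
  deg j := C.deg (j + h)
  sq := C.sq
  map_deg n := (C.map_deg (n + h)).trans_eq (congrArg C.deg (by ring))

/-- Its homology. -/
noncomputable def shiftH (C : GC R N) (h : ℕ) (n : ℤ) :
    (shiftGC C h).H ⊥ ⊤ n ≃ₗ[R] C.H ⊥ ⊤ (n + h) :=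
  Submodule.quotEquivOfEq _ _ (by simp only [GC.bd, shiftGC, add_right_comm n 1 (h : ℤ)]; rfl)

/-- Homology in equal degrees. -/
noncomputable def hCast (C : GC R N) {m n : ℤ} (e : m = n) : C.H ⊥ ⊤ m ≃ₗ[R] C.H ⊥ ⊤ n := by
  subst e
  exact LinearEquiv.refl _ _

/-- The projections onto the degrees. -/
noncomputable def decShift (G : MCx R) (h : ℕ) (hG : ∀ a, G.deg a ≤ h) (M : Type v)
    [AddCommGroup M] [Module R M] : Bic.Dec (shiftGC (G.gc M) h) (-(h : ℤ)) where
  π j := LinearMap.pi fun a => if (G.deg a : ℤ) = j + h then LinearMap.proj a else 0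
  mem j y := (MCx.mem_degSub M).2 fun a ha => by simp [ha]
  same j y hy := funext fun a => by
    by_cases ha : (G.deg a : ℤ) = j + h
    · simp [ha]
    · simpa [ha] using ((MCx.mem_degSub M).1 hy a ha).symm
  other i j hij y hy := funext fun a => by
    by_cases ha : (G.deg a : ℤ) = j + h
    · simpa [ha] using (MCx.mem_degSub M).1 hy a (by omega)
    · simp [ha]
  total y := funext fun a => by
    rw [Finset.sum_apply, Finset.sum_eq_single ((G.deg a : ℤ) - h)]
    · simp
    · intro j _ hj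
      simp [show ¬ (G.deg a : ℤ) = j + h by omega]
    · intro hn
      exact absurd (Finset.mem_Icc.2 ⟨by omega, by have := hG a; omega⟩) hn
  bound j hj := MCx.degSub_eq_bot M G fun a ha => by
    rw [Finset.mem_Icc] at hj
    have := hG a
    omega

variable (G : MCx R) (z : Fin d → R) (M : Type u) [AddCommGroup M] [Module R M]

theorem mlin_koszulTensor (y : G.β × Finset (Fin d) → M) (a : G.β) (s : Finset (Fin d)) :
    mlin M (G.D ⊗ₖ (1 : Matrix (Finset (Fin d)) (Finset (Fin d)) R) + signMat G ⊗ₖ kMat z) y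
        (a, s) = mlin M G.D (fun b => y (b, s)) a +
      ((-1 : R) ^ G.deg a) • ∑ t, kMat z s t • y (a, t) := by
  rw [mlin_apply, mlin_apply]
  simp only [Matrix.add_apply, signMat, add_smul,
    Finset.sum_add_distrib, Finset.smul_sum, smul_smul]
  congr 1
  · rw [Fintype.sum_prod_type]
    refine Finset.sum_congr rfl fun b _ => ?_
    rw [Finset.sum_eq_single s (fun t _ ht => by simp [Ne.symm ht]) (by simp)]
    simp
  · rw [Fintype.sum_prod_type, Finset.sum_eq_single a
      (fun b _ hb => Finset.sum_eq_zero fun t _ => by simp [Matrix.diagonal, Ne.symm hb]) (by simp)]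
    simp

theorem chi_koszulTensor (h : ℕ) (hG : ∀ a, G.deg a ≤ h)
    (hfin : ∀ i : ℕ, i ≤ h → ∀ j, (koszulGC R z ((G.gc M).H ⊥ ⊤ i)).FinH ⊥ ⊤ j) :
    (∀ j, ((koszulTensor G z).gc M).FinH ⊥ ⊤ j) ∧
      ((koszulTensor G z).gc M).chi (Finset.Icc 0 ((h + d : ℕ) : ℤ)) ⊥ ⊤ =
        ∑ i ∈ Finset.range (h + 1), (-1 : ℤ) ^ i * kchi R z ((G.gc M).H ⊥ ⊤ i) := by
  classical
  set C := shiftGC (G.gc M) h
  have hQ : ∀ qq : ℕ, qq ≤ h → ∀ j, Module.length R (((kCx z).gc (C.H ⊥ ⊤ (-(qq : ℤ)))).H ⊥ ⊤ j) =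
      Module.length R ((koszulGC R z ((G.gc M).H ⊥ ⊤ ((h - qq : ℕ) : ℤ))).H ⊥ ⊤ j) := by
    intro qq hqq j
    let e := (shiftH (G.gc M) h (-(qq : ℤ))).trans
      (hCast (G.gc M) (show -(qq : ℤ) + h = ((h - qq : ℕ) : ℤ) by omega))
    rw [gc_kCx]
    exact koszul_length_congr z z (RingHom.id R) Function.surjective_id e.toAddEquiv
      (fun r m => e.map_smul r m) (fun i m => e.map_smul (z i) m) j
  have hpb : Bic.piQ (kCx z) (⊥ : Submodule R (G.β → M)) = ⊥ := by
    ext f
    simp [funext_iff]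
  have hpt : Bic.piQ (kCx z) (⊤ : Submodule R (G.β → M)) = ⊤ := by
    ext f
    simp
  obtain ⟨hf, hchi⟩ := Bic.chi_bic (C := C) (P := decShift G h hG M) (X := ⊥) (Y := ⊤)
    (by simp [GC.IsSub]) le_top bot_le (kCx z)
    (fun j y hy => by rw [(Submodule.mem_bot R).1 hy, map_zero]; exact zero_mem _)
    (fun _ _ _ => Submodule.mem_top) rfl (kCx_deg_le z)
    fun qq hqq j => by rw [GC.FinH, hQ qq hqq j]; exact hfin _ (Nat.sub_le h qq) j
  rw [hpb, hpt] at hchi
  simp only [hpb, hpt] at hf
  -- the comparison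
  let ε : G.β → Finset (Fin d) → R := fun a s => (-1 : R) ^ (G.deg a * s.card)
  have hεε : ∀ a s, ε a s * ε a s = 1 := fun a s => by simp [ε, ← mul_pow]
  let f : (Finset (Fin d) → G.β → M) →ₗ[R] (G.β × Finset (Fin d) → M) :=
    LinearMap.pi fun p => ε p.1 p.2 •
      ((LinearMap.proj p.1 : (G.β → M) →ₗ[R] M) ∘ₗ
        (LinearMap.proj p.2 : (Finset (Fin d) → G.β → M) →ₗ[R] (G.β → M)))
  have hfa : ∀ v a s, f v (a, s) = ε a s • v s a := fun v a s => rfl
  have hcomm : ∀ v : Finset (Fin d) → G.β → M,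
      f ((Bic.bic (kCx z) C).D v) = ((koszulTensor G z).gc M).D (f v) := by
    intro v
    funext ⟨a, s⟩
    have hb : (Bic.bic (kCx z) C).D v s a =
        (∑ t : Finset (Fin d), kMat z s t • v t a) + (-1 : R) ^ s.card • mlin M G.D (v s) a :=
      (congrFun (Bic.bic_apply (kCx z) C v s) a).trans (by
        rw [Pi.add_apply, Finset.sum_apply]
        rfl)
    change ε a s • (Bic.bic (kCx z) C).D v s a =
      mlin M (G.D ⊗ₖ (1 : Matrix (Finset (Fin d)) (Finset (Fin d)) R) + signMat G ⊗ₖ kMat z) (f v)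
        (a, s)
    rw [mlin_koszulTensor, hb, smul_add, add_comm, mlin_apply, mlin_apply, Finset.smul_sum,
      Finset.smul_sum, Finset.smul_sum, Finset.smul_sum]
    congr 1
    · refine Finset.sum_congr rfl fun b _ => ?_
      by_cases hd : G.D a b = 0
      · simp [hd]
      · simp only [hfa, smul_smul, ε, G.homog a b hd, add_one_mul, pow_add]
        congr 1
        ring
    · refine Finset.sum_congr rfl fun t _ => ?_
      by_cases hd : kMat z s t = 0
      · simp [hd]
      · simp only [hfa, smul_smul, ε, kMat_deg z hd, Nat.mul_add, mul_one, pow_add]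
        congr 1
        have h1 : (-1 : R) ^ G.deg a * (-1) ^ G.deg a = 1 := by simp [← mul_pow]
        linear_combination -((-1 : R) ^ (G.deg a * s.card) * kMat z s t) * h1
  have hlen : ∀ k, Module.length R ((Bic.bic (kCx z) C).H ⊥ ⊤ k) =
      Module.length R (((koszulTensor G z).gc M).H ⊥ ⊤ (k + h)) := by
    intro k
    let f' : ((kCx z).β → G.β → M) →ₗ[R] ((koszulTensor G z).β → M) := f
    refine GC.h_congr _ _ f' 1 h (fun j v _ => ?_) ((Submodule.map_bot _).le) le_top bot_le
      ((Submodule.map_bot _).le) le_top bot_le (fun j => ?_) ((Submodule.map_bot _).le) le_top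
      (fun j => ?_) (fun j => ?_)
    · refine (Submodule.mem_bot R).2 ?_
      rw [Units.val_one, one_smul]
      exact sub_eq_zero.2 (hcomm v)
    · rintro _ ⟨v, hv, rfl⟩
      refine (MCx.mem_degSub M).2 fun ⟨a, s⟩ hne => ?_
      change ε a s • v s a = 0
      rw [(MCx.mem_degSub M).1 (hv s trivial) a (fun he => hne ?_), smul_zero]
      simp only [koszulTensor, kCx] at he ⊢
      push_cast
      omega
    · intro y hy
      refine Submodule.mem_sup_left
        ⟨fun (s : Finset (Fin d)) a => ε a s • y (a, s), ⟨trivial, fun s _ => ?_⟩, ?_⟩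
      · refine (MCx.mem_degSub M).2 fun a ha => ?_
        show ε a s • y (a, s) = 0
        rw [(MCx.mem_degSub M).1 hy.2 (a, s) fun he => ha ?_, smul_zero]
        simp only [koszulTensor, kCx] at he ⊢
        push_cast at he
        omega
      · funext ⟨a, s⟩
        change ε a s • ε a s • y (a, s) = y (a, s)
        rw [smul_smul, hεε, one_smul]
    · rintro v ⟨-, hv⟩
      refine (Submodule.mem_bot R).2 (funext fun s => funext fun a => ?_)
      have h0 : ε a s • v s a = 0 := congrFun ((Submodule.mem_bot R).1 hv) (a, s)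
      show v s a = 0
      rw [← one_smul R (v s a), ← hεε a s, mul_smul, h0, smul_zero]
  refine ⟨fun j => ?_, ?_⟩
  · have := hf (j - h)
    rwa [GC.FinH, hlen, sub_add_cancel] at this
  have h2 : ((koszulTensor G z).gc M).chi (Finset.Icc 0 ((h + d : ℕ) : ℤ)) ⊥ ⊤ =
      (-1 : ℤ) ^ h * (Bic.bic (kCx z) C).chi (Finset.Icc (-(h : ℤ)) (d : ℤ)) ⊥ ⊤ := by
    rw [GC.chi, GC.chi, Finset.mul_sum]
    refine Finset.sum_nbij' (fun k => k - (h : ℤ)) (fun k => k + (h : ℤ)) ?_ ?_ (by simp) (by simp) ?_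
    · intro k hk
      simp only [Finset.mem_Icc] at hk ⊢
      omega
    · intro k hk
      simp only [Finset.mem_Icc] at hk ⊢
      omega
    · intro k _
      rw [GC.h, GC.h, len, len, hlen, sub_add_cancel, ← mul_assoc, ← pow_add]
      congr 1
      refine neg_one_pow_congr ?_
      simp [Int.natAbs_even, Nat.even_add, parity_simps]
      tauto
  rw [h2, hchi, Finset.mul_sum]
  conv_rhs => rw [← Finset.sum_range_reflect]
  refine Finset.sum_congr rfl fun qq hqq => ?_
  rw [Finset.mem_range] at hqq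
  have hqq' : qq ≤ h := Nat.lt_succ_iff.1 hqq
  rw [show h + 1 - 1 - qq = h - qq by omega, ← mul_assoc, ← pow_add]
  congr 1
  · refine neg_one_pow_congr ?_
    rw [Nat.even_sub hqq', Nat.even_add]
  · exact Finset.sum_congr rfl fun j _ => by simp only [GC.h, len, hQ qq hqq' j]

end Bicomplex

theorem koszulTensor_map {R : Type u} [CommRing R] {R' : Type u} [CommRing R'] (ψ : R →+* R')
    {d : ℕ} (F : MCx R) (x : Fin d → R) :
    (koszulTensor F x).map ψ = koszulTensor (F.map ψ) (fun i => ψ (x i)) := by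
  have hk : ∀ s t, ψ (kMat x s t) = kMat (fun i => ψ (x i)) s t := fun s t => by
    simp [kMat, map_sum, apply_ite ψ]
  have hD : (F.D ⊗ₖ (1 : Matrix (Finset (Fin d)) (Finset (Fin d)) R) + signMat F ⊗ₖ kMat x).map ψ =
      F.D.map ψ ⊗ₖ (1 : Matrix (Finset (Fin d)) (Finset (Fin d)) R') +
        (Matrix.diagonal fun a => (-1 : R') ^ F.deg a) ⊗ₖ kMat (fun i => ψ (x i)) := by
    refine Matrix.ext ?_
    rintro ⟨a, s⟩ ⟨b, t⟩
    simp only [Matrix.map_apply, Matrix.add_apply, Matrix.kroneckerMap_apply, Matrix.one_apply,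
      signMat, map_add, map_mul, hk]
    by_cases hab : a = b <;> by_cases hst : s = t <;> simp [hab, hst]
  simp only [MCx.map, koszulTensor]
  congr 1

theorem kchi_of_subsingleton {R : Type u} [CommRing R] {d : ℕ} (z : Fin d → R) (N : Type u)
    [AddCommGroup N] [Module R N] [Subsingleton N] : kchi R z N = 0 := by
  unfold kchi GC.chi
  refine Finset.sum_eq_zero fun k _ => ?_
  rw [GC.h, len, Module.length_eq_zero]
  simp

/-! ### Lengths -/

section Length

theorem exists_gens_bound {A : Type u} [CommRing A] (N : Type v) [AddCommGroup N] [Module A N]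
    [Module.Finite A N] : ∃ s : ℕ, ∀ (K : Ideal A) (U : Submodule A N),
      (∀ r ∈ K, ∀ m : N, r • m ∈ U) → Module.length A (N ⧸ U) ≤ s * Module.length A (A ⧸ K) := by
  obtain ⟨s, g, hg⟩ := Module.Finite.exists_fin (R := A) (M := N)
  refine ⟨s, fun K U hK => ?_⟩
  let q : (Fin s → A ⧸ K) →ₗ[A] N ⧸ U :=
    ∑ i, (Submodule.liftQ K (U.mkQ ∘ₗ LinearMap.toSpanSingleton A N (g i)) fun r hr =>
      (Submodule.Quotient.mk_eq_zero U).2 (hK r hr (g i))) ∘ₗ LinearMap.proj i
  have hq : Function.Surjective q := by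
    intro w
    obtain ⟨m, rfl⟩ := Submodule.mkQ_surjective _ w
    obtain ⟨a, rfl⟩ := (Submodule.mem_span_range_iff_exists_fun A).1
      (hg ▸ Submodule.mem_top : m ∈ Submodule.span A (Set.range g))
    refine ⟨fun i => Submodule.Quotient.mk (a i), ?_⟩
    simp only [q, LinearMap.coe_sum, Finset.sum_apply, LinearMap.comp_apply, LinearMap.proj_apply,
      map_sum]
    exact Finset.sum_congr rfl fun i _ => rfl
  refine (Module.length_le_of_surjective q hq).trans ?_
  simp [Module.length_pi_of_fintype]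

theorem sup_pow_le {A : Type u} [CommRing A] (I X : Ideal A) (k : ℕ) :
    (I ⊔ X) ^ k ≤ I ⊔ X ^ k := by
  induction k with
  | zero => simp
  | succ k ih =>
    rw [pow_succ, pow_succ]
    refine (Ideal.mul_mono_left ih).trans ?_
    rw [Ideal.sup_mul]
    refine sup_le (le_sup_of_le_left Ideal.mul_le_left) ?_
    rw [Ideal.mul_sup]
    exact sup_le (le_sup_of_le_left Ideal.mul_le_right) le_sup_right

variable {T : Type u} [CommRing T] [IsLocalRing T] [IsNoetherianRing T] {T' : Type u} [CommRing T']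

theorem length_map_le (ψ : T →+* T') {J : Ideal T} {N : ℕ} (hJ : maximalIdeal T ^ N ≤ J) :
    Module.length T' (T' ⧸ J.map ψ) ≤
      len T (T ⧸ J) * Module.length T' (T' ⧸ (maximalIdeal T).map ψ) := by
  induction hn : len T (T ⧸ J) using Nat.strong_induction_on generalizing J N with
  | _ n ih =>
  subst hn
  rcases eq_or_ne J ⊤ with rfl | hne
  · rw [Ideal.map_top]
    have : Subsingleton (T' ⧸ (⊤ : Ideal T')) := Submodule.Quotient.subsingleton_iff.2 rfl
    simp [Module.length_eq_zero]
  obtain ⟨m, hm, z, hz, hzJ⟩ : ∃ m : ℕ, maximalIdeal T ^ (m + 1) ≤ J ∧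
      ∃ z ∈ maximalIdeal T ^ m, z ∉ J := by
    classical
    have hex : ∃ m, maximalIdeal T ^ m ≤ J := ⟨N, hJ⟩
    obtain ⟨m, hm⟩ : ∃ m, Nat.find hex = m + 1 := by
      refine Nat.exists_eq_succ_of_ne_zero fun h0 => hne ?_
      have := Nat.find_spec hex
      rw [h0, pow_zero, Ideal.one_eq_top] at this
      exact top_le_iff.1 this
    refine ⟨m, hm ▸ Nat.find_spec hex, ?_⟩
    by_contra hc
    simp only [not_exists, not_and, not_not] at hc
    exact Nat.find_min hex (by omega : m < Nat.find hex) hc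
  set J' := J ⊔ Ideal.span {z}
  have hle : J ≤ J' := le_sup_left
  let g : (T ⧸ J) →ₗ[T] (T ⧸ J') := Submodule.factor hle
  have hlt : len T (T ⧸ J') < len T (T ⧸ J) := by
    have hadd := Module.length_eq_add_of_exact (LinearMap.ker g).subtype g
      (Submodule.injective_subtype _) (Submodule.factor_surjective hle)
      (LinearMap.exact_iff.2 (by simp))
    have hfin := length_quotient_ne_top J N hJ
    rw [hadd] at hfin
    obtain ⟨hfin1, hfin2⟩ : Module.length T ↥(LinearMap.ker g) ≠ ⊤ ∧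
        Module.length T (T ⧸ J') ≠ ⊤ := by simpa using hfin
    have hnt : Nontrivial ↥(LinearMap.ker g) := by
      refine ⟨⟨⟨Submodule.Quotient.mk z, ?_⟩, 0, fun h0 => hzJ ?_⟩⟩
      · change (Submodule.Quotient.mk z : T ⧸ J') = 0
        exact (Submodule.Quotient.mk_eq_zero _).2
          (Submodule.mem_sup_right (Ideal.mem_span_singleton_self z))
      · exact (Submodule.Quotient.mk_eq_zero _).1 (congrArg Subtype.val h0)
    have hpos : 0 < Module.length T ↥(LinearMap.ker g) := Module.length_pos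
    simp only [len]
    rw [hadd, ENat.toNat_add hfin1 hfin2]
    have : (Module.length T ↥(LinearMap.ker g)).toNat ≠ 0 := by
      simp [ENat.toNat_eq_zero, hfin1, hpos.ne']
    omega
  have hrec := ih _ hlt (hJ.trans hle) rfl
  let f : (T' ⧸ (maximalIdeal T).map ψ) →ₗ[T'] (T' ⧸ J.map ψ) :=
    Submodule.liftQ _ ((J.map ψ).mkQ ∘ₗ LinearMap.mulRight T' (ψ z)) (by
      refine Ideal.map_le_iff_le_comap.2 fun r hr => ?_
      change (Submodule.Quotient.mk (ψ r * ψ z) : T' ⧸ J.map ψ) = 0
      rw [Submodule.Quotient.mk_eq_zero, ← map_mul]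
      exact Ideal.mem_map_of_mem ψ (hm (by rw [pow_succ']; exact Ideal.mul_mem_mul hr hz)))
  let g' : (T' ⧸ J.map ψ) →ₗ[T'] (T' ⧸ J'.map ψ) := Submodule.factor (Ideal.map_mono hle)
  have hex : LinearMap.ker g' ≤ LinearMap.range f := by
    intro w hw
    obtain ⟨w, rfl⟩ := Submodule.mkQ_surjective _ w
    have hw' : w ∈ J'.map ψ := (Submodule.Quotient.mk_eq_zero _).1 hw
    rw [Ideal.map_sup, Ideal.map_span, Set.image_singleton] at hw'
    obtain ⟨j, hj, c, hc, rfl⟩ := Submodule.mem_sup.1 hw'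
    obtain ⟨c, rfl⟩ := Ideal.mem_span_singleton'.1 hc
    refine ⟨Submodule.Quotient.mk c, ?_⟩
    change (Submodule.Quotient.mk (c * ψ z) : T' ⧸ J.map ψ) = Submodule.Quotient.mk (j + c * ψ z)
    rw [Submodule.Quotient.eq]
    simpa using neg_mem hj
  calc Module.length T' (T' ⧸ J.map ψ)
      = Module.length T' ↥(LinearMap.ker g') + Module.length T' (T' ⧸ J'.map ψ) :=
        Module.length_eq_add_of_exact (LinearMap.ker g').subtype g' (Submodule.injective_subtype _)
          (Submodule.factor_surjective _) (LinearMap.exact_iff.2 (by simp))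
    _ ≤ Module.length T' (T' ⧸ (maximalIdeal T).map ψ) +
          len T (T ⧸ J') * Module.length T' (T' ⧸ (maximalIdeal T).map ψ) :=
        add_le_add ((Module.length_le_of_injective _ (Submodule.inclusion_injective hex)).trans
          (length_range_le f)) hrec
    _ = ((1 + len T (T ⧸ J') : ℕ) : ℕ∞) * Module.length T' (T' ⧸ (maximalIdeal T).map ψ) := by
        push_cast
        ring
    _ ≤ _ := mul_le_mul' (by exact_mod_cast (by omega : 1 + len T (T ⧸ J') ≤ len T (T ⧸ J))) le_rfl

end Length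

/-! ### The pins -/

section E1

variable {T : Type u} [CommRing T] [IsLocalRing T] [IsNoetherianRing T] {d h : ℕ}
  (F : MCx T) (I : Ideal T) (hI : ∀ a ∈ I, F.IsNullHtpic a) (x : Fin d → T)

include hI

omit [IsLocalRing T] [IsNoetherianRing T] in
theorem koszulTensor_null (a : T) (ha : a ∈ I ⊔ Ideal.span (Set.range x)) :
    (koszulTensor F x).IsNullHtpic a := by
  obtain ⟨a, hai, b, hb, rfl⟩ := Submodule.mem_sup.1 ha
  refine null_add _ ?_ ?_
  · obtain ⟨η, hη, e⟩ := hI a hai
    refine ⟨η ⊗ₖ (1 : Matrix (Finset (Fin d)) (Finset (Fin d)) T), ?_, ?_⟩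
    · rintro ⟨b, s⟩ ⟨c, t⟩ hne
      simp only [Matrix.kronecker_apply] at hne
      have hst : s = t := by
        by_contra h0
        simp [h0] at hne
      have := hη b c (left_ne_zero_of_mul hne)
      simp only [koszulTensor, hst]
      omega
    · have hanti : signMat F * η + η * signMat F = 0 := by
        refine Matrix.ext fun b c => ?_
        simp only [signMat, Matrix.add_apply, Matrix.mul_diagonal, Matrix.diagonal_mul,
          Matrix.zero_apply]
        by_cases hd : η b c = 0
        · simp [hd]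
        · rw [hη b c hd, pow_succ]
          ring
      have key : (F.D ⊗ₖ (1 : Matrix (Finset (Fin d)) (Finset (Fin d)) T) + signMat F ⊗ₖ kMat x) *
          (η ⊗ₖ (1 : Matrix (Finset (Fin d)) (Finset (Fin d)) T)) +
          (η ⊗ₖ (1 : Matrix (Finset (Fin d)) (Finset (Fin d)) T)) *
          (F.D ⊗ₖ (1 : Matrix (Finset (Fin d)) (Finset (Fin d)) T) + signMat F ⊗ₖ kMat x) =
            a • (1 : Matrix (F.β × Finset (Fin d)) (F.β × Finset (Fin d)) T) := by
        rw [add_mul, mul_add]
        simp only [← Matrix.mul_kronecker_mul, one_mul, mul_one]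
        rw [add_add_add_comm, ← Matrix.add_kronecker, ← Matrix.add_kronecker, hanti, e,
          Matrix.zero_kronecker, add_zero, Matrix.smul_kronecker, Matrix.one_kronecker_one]
      exact key
  · obtain ⟨c, rfl⟩ := Ideal.mem_span_range_iff_exists_fun.1 hb
    have hkk : kmat x = kMat x := by
      ext s t
      simp only [kmat, kMat, eq_comm]
    refine ⟨signMat F ⊗ₖ emat c, ?_, ?_⟩
    · rintro ⟨b, s⟩ ⟨b', t⟩ hne
      simp only [Matrix.kronecker_apply, signMat] at hne
      have hbb : b = b' := by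
        by_contra h0
        simp [h0] at hne
      have := emat_ne c (right_ne_zero_of_mul hne)
      simp only [koszulTensor, hbb]
      omega
    · have hanti : F.D * signMat F + signMat F * F.D = 0 := by
        refine Matrix.ext fun b b' => ?_
        simp only [signMat, Matrix.add_apply, Matrix.mul_diagonal, Matrix.diagonal_mul,
          Matrix.zero_apply]
        by_cases hd : F.D b b' = 0
        · simp [hd]
        · rw [F.homog b b' hd, pow_succ]
          ring
      have hss : signMat F * signMat F = 1 := by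
        simp [signMat, ← mul_pow]
      have key : (F.D ⊗ₖ (1 : Matrix (Finset (Fin d)) (Finset (Fin d)) T) + signMat F ⊗ₖ kMat x) *
          (signMat F ⊗ₖ emat c) + (signMat F ⊗ₖ emat c) *
          (F.D ⊗ₖ (1 : Matrix (Finset (Fin d)) (Finset (Fin d)) T) + signMat F ⊗ₖ kMat x) =
            (∑ i, c i * x i) • (1 : Matrix (F.β × Finset (Fin d)) (F.β × Finset (Fin d)) T) := by
        rw [add_mul, mul_add]
        simp only [← Matrix.mul_kronecker_mul, one_mul, mul_one, hss]
        rw [add_add_add_comm, ← Matrix.add_kronecker, ← Matrix.kronecker_add, hanti,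
          Matrix.zero_kronecker, zero_add, ← hkk, kmat_homotopy, Matrix.kronecker_smul,
          Matrix.one_kronecker_one]
      exact key

variable (hF : ∀ b, F.deg b ≤ h) (hx : ∃ c, maximalIdeal T ^ c ≤ I ⊔ Ideal.span (Set.range x))
variable {T' : Type u} [CommRing T'] [IsLocalRing T'] [IsNoetherianRing T'] (ψ : T →+* T')
  (hψ : ∃ c, maximalIdeal T' ^ c ≤ (maximalIdeal T).map ψ)

include hx hψ

omit hI [IsNoetherianRing T] in
/-- Finite modules killed by `ψ I` have Koszul homology of finite length. -/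
theorem quot_ne_top (N : Type u) [AddCommGroup N] [Module T' N] [Module.Finite T' N]
    (hN : ∀ a ∈ I, ∀ m : N, ψ a • m = 0) (k : ℕ) :
    Module.length T' (N ⧸ Ideal.span (Set.range fun i => ψ (x i)) ^ k • (⊤ : Submodule T' N)) ≠
      ⊤ := by
  obtain ⟨c, hc⟩ := hx
  obtain ⟨c', hc'⟩ := hψ
  refine length_ne_top_of_killed (N := c' * (c * k)) fun r hr m => ?_
  obtain ⟨m, rfl⟩ := Submodule.mkQ_surjective _ m
  rw [Submodule.mkQ_apply, ← Submodule.Quotient.mk_smul, Submodule.Quotient.mk_eq_zero]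
  have h1 : r ∈ (I ⊔ Ideal.span (Set.range x) ^ k).map ψ := by
    refine Ideal.map_mono ?_ (?_ : r ∈ (maximalIdeal T ^ (c * k)).map ψ)
    · exact (pow_mul (maximalIdeal T) c k).le.trans
        ((Ideal.pow_right_mono hc k).trans (sup_pow_le _ _ _))
    · rw [Ideal.map_pow]
      exact Ideal.pow_right_mono hc' _ (by rwa [← pow_mul])
  rw [Ideal.map_sup, Ideal.map_pow, Ideal.map_span, ← Set.range_comp] at h1
  obtain ⟨r1, hr1, r2, hr2, rfl⟩ := Submodule.mem_sup.1 h1
  have h2 : r1 • m = 0 := by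
    have : I.map ψ ≤ LinearMap.ker (LinearMap.toSpanSingleton T' N m) :=
      Ideal.map_le_iff_le_comap.2 fun a ha => hN a ha m
    exact this hr1
  rw [add_smul, h2, zero_add]
  exact Submodule.smul_mem_smul hr2 trivial

omit [IsNoetherianRing T] in
theorem fin_homology (M : Type u) [AddCommGroup M] [Module T' M] [Module.Finite T' M] (i : ℕ)
    (j : ℤ) : (koszulGC T' (fun l => ψ (x l)) (((F.map ψ).gc M).H ⊥ ⊤ i)).FinH ⊥ ⊤ j :=
  (koszul_tendsto (fun l => ψ (x l)) _
    (quot_ne_top I x hx ψ hψ _ fun a ha m => smul_H_eq_zero _ ((hI a ha).map ψ) M _ m)).1 j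

include hF

omit [IsNoetherianRing T] in
theorem finH_koszulTensor (M : Type u) [AddCommGroup M] [Module T' M] [Module.Finite T' M] (j : ℤ) :
    (((koszulTensor F x).map ψ).gc M).FinH ⊥ ⊤ j := by
  rw [koszulTensor_map]
  exact (chi_koszulTensor (F.map ψ) (fun l => ψ (x l)) M h hF
    fun i _ j => fin_homology F I hI x hx ψ hψ M i j).1 j

/-- Modules of small growth. -/
theorem chi_of_killed (y : T)
    (hgrow : Tendsto (fun k : ℕ =>
      (len T (T ⧸ (I ⊔ Ideal.span {y} ⊔ Ideal.span (Set.range x) ^ k)) : ℝ) / (k : ℝ) ^ d) atTop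
      (𝓝 0))
    (M : Type u) [AddCommGroup M] [Module T' M] [Module.Finite T' M] (hM : ∀ m : M, ψ y • m = 0) :
    (((koszulTensor F x).map ψ).gc M).chi (Finset.Icc 0 ((h + d : ℕ) : ℤ)) ⊥ ⊤ = 0 := by
  rw [koszulTensor_map, (chi_koszulTensor (F.map ψ) (fun l => ψ (x l)) M h hF
    fun i _ j => fin_homology F I hI x hx ψ hψ M i j).2]
  refine Finset.sum_eq_zero fun i _ => mul_eq_zero_of_right _ ?_
  set N := ((F.map ψ).gc M).H ⊥ ⊤ (i : ℤ)
  set X := Ideal.span (Set.range x)
  set z := fun l => ψ (x l)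
  set J : ℕ → Ideal T := fun k => I ⊔ Ideal.span {y} ⊔ X ^ k
  have hNI : ∀ a ∈ I, ∀ m : N, ψ a • m = 0 := fun a ha m =>
    smul_H_eq_zero _ ((hI a ha).map ψ) M _ m
  have hNy : ∀ m : N, ψ y • m = 0 := by
    intro m
    induction m using Submodule.Quotient.induction_on with | _ m
    rw [← Submodule.Quotient.mk_smul, show ψ y • m = 0 from
      Subtype.ext (funext fun b => hM (m.1 b)), Submodule.Quotient.mk_zero]
  have hkill : ∀ k, ∀ r ∈ (J k).map ψ, ∀ m : N,
      r • m ∈ Ideal.span (Set.range z) ^ k • (⊤ : Submodule T' N) := by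
    intro k r hr m
    have hle : (J k).map ψ ≤
        (Ideal.span (Set.range z) ^ k • (⊤ : Submodule T' N)).comap
          (LinearMap.toSpanSingleton T' N m) := by
      rw [Ideal.map_le_iff_le_comap]
      refine sup_le (sup_le (fun a ha => ?_) ?_) fun a ha => ?_
      · change ψ a • m ∈ Ideal.span (Set.range z) ^ k • (⊤ : Submodule T' N)
        rw [hNI a ha m]
        exact zero_mem _
      · rw [Ideal.span_le, Set.singleton_subset_iff]
        change ψ y • m ∈ Ideal.span (Set.range z) ^ k • (⊤ : Submodule T' N)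
        rw [hNy m]
        exact zero_mem _
      · refine Submodule.smul_mem_smul ?_ trivial
        have := Ideal.mem_map_of_mem ψ ha
        rwa [Ideal.map_pow, Ideal.map_span, ← Set.range_comp] at this
    exact hle hr
  obtain ⟨s, hs⟩ := exists_gens_bound (A := T') N
  set L := Module.length T' (T' ⧸ (maximalIdeal T).map ψ)
  obtain ⟨c', hc'⟩ := hψ
  have hL : L ≠ ⊤ := length_quotient_ne_top _ c' hc'
  obtain ⟨c, hc⟩ := hx
  have hJ : ∀ k, maximalIdeal T ^ (c * k) ≤ J k := fun k =>
    ((pow_mul (maximalIdeal T) c k).le.trans ((Ideal.pow_right_mono hc k).trans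
      (sup_pow_le _ _ _))).trans (sup_le_sup le_sup_left le_rfl)
  have hbd : ∀ k, Module.length T' (N ⧸ Ideal.span (Set.range z) ^ k • (⊤ : Submodule T' N)) ≤
      ((s * len T (T ⧸ J k) : ℕ) : ℕ∞) * L := fun k => by
    refine (hs _ _ (hkill k)).trans ?_
    rw [Nat.cast_mul, mul_assoc]
    exact mul_le_mul' le_rfl (length_map_le ψ (hJ k))
  refine koszul_chi_zero z N (quot_ne_top I x ⟨c, hc⟩ ψ ⟨c', hc'⟩ N hNI) ?_
  have h0 := hgrow.const_mul ((s : ℝ) * (L.toNat : ℝ))
  rw [mul_zero] at h0
  refine squeeze_zero (fun k => by positivity) (fun k => ?_) h0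
  have h1 := ENat.toNat_le_toNat (hbd k) (WithTop.mul_ne_top (ENat.natCast_ne_top _) hL)
  rw [ENat.toNat_mul, ENat.toNat_natCast] at h1
  have h2 : (len T' (N ⧸ Ideal.span (Set.range z) ^ k • (⊤ : Submodule T' N)) : ℝ) ≤
      (s : ℝ) * (L.toNat : ℝ) * (len T (T ⧸ J k) : ℝ) := by
    calc (len T' (N ⧸ Ideal.span (Set.range z) ^ k • (⊤ : Submodule T' N)) : ℝ)
        ≤ ((s * len T (T ⧸ J k) * L.toNat : ℕ) : ℝ) := by exact_mod_cast h1
      _ = _ := by push_cast; ring
  refine (div_le_div_of_nonneg_right h2 (by positivity)).trans_eq ?_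
  ring

omit hψ in
/-- A resolution: the Euler characteristic is the Koszul one of the resolved module. -/
theorem chi_of_acyclic (hexact : ∀ i : ℕ, 0 < i → Module.length T ((F.gc T).H ⊥ ⊤ i) = 0) :
    ((koszulTensor F x).gc T).chi (Finset.Icc 0 ((h + d : ℕ) : ℤ)) ⊥ ⊤ =
      kchi T x ((F.gc T).H ⊥ ⊤ 0) := by
  rw [(chi_koszulTensor F x T h hF fun i _ j =>
    fin_homology F I hI x hx (RingHom.id T) ⟨1, by simp⟩ T i j).2, Finset.sum_range_succ',
    Finset.sum_eq_zero fun i _ => ?_]
  · simp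
  · have : Subsingleton ((F.gc T).H ⊥ ⊤ ((i + 1 : ℕ) : ℤ)) :=
      Module.length_eq_zero_iff.1 (hexact (i + 1) (Nat.succ_pos i))
    rw [kchi_of_subsingleton, mul_zero]

end E1

end Vale.Agent.P202.Ext
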