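import Vale.Agent.P202.Char.Stage2Main

/-!
P202: the localisation inequality `e(S_Q) ≤ e(S)` for complete rings with a coefficient field, and the
passage from Artinian closed fibres to all closed fibres.
-/

namespace Vale.Agent.P202.Ext

open IsLocalRing Vale.Agent.P202.Char Vale.Agent.P202.Char.Stage2

universe u

/-- The localisation inequality for a prime with `dim S = dim S_Q + dim S/Q`, given a coefficient
field. -/
theorem localisation_le_of_section (S : Type u) [CommRing S] [IsLocalRing S]
    [IsNoetherianRing S] [IsAdicComplete (maximalIdeal S) S]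
    [Infinite (ResidueField S)] (σ : ResidueField S →+* S) (hσ' : ∀ x, residue S (σ x) = x)
    (Q : Ideal S) [hQp : Q.IsPrime] {r h : ℕ}
    (hQr : ringKrullDim (S ⧸ Q) = r) (hQh : ringKrullDim (Localization.AtPrime Q) = h)
    (hD : ringKrullDim S = (r + h : ℕ)) (e' : ℝ) (he' : IsMultiplicity S (r + h) e') :
    ∃ eQ : ℝ, IsMultiplicity (Localization.AtPrime Q) h eQ ∧ eQ ≤ e' := by
  classical
  have hQn : Q ≤ maximalIdeal S := le_maximalIdeal hQp.ne_top
  obtain ⟨z, hzm, c₀, hc₀⟩ := exists_red_dim hD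
  obtain ⟨h', y, hrh, hspan, c, hc⟩ :=
    exists_params S z ⟨c₀ + 1, hc₀.trans Ideal.mul_le_left⟩ hzm Q hQr
  obtain rfl : h = h' := by omega
  have hym : ∀ i, y i ∈ maximalIdeal S := fun i => by
    have : Ideal.span (Set.range y) ≤ maximalIdeal S :=
      hspan ▸ Ideal.span_le.2 (by rintro _ ⟨j, rfl⟩; exact hzm j)
    exact this (Ideal.subset_span ⟨i, rfl⟩)
  set u : Fin r → S := fun i => y (Fin.castAdd h i) with hu
  have hum : ∀ i, u i ∈ maximalIdeal S := fun i => hym _
  -- the quotient by the prime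
  have : Nontrivial (S ⧸ Q) := Ideal.Quotient.nontrivial_iff.2 hQp.ne_top
  have : IsLocalRing (S ⧸ Q) :=
    IsLocalRing.of_surjective' (Ideal.Quotient.mk Q) Ideal.Quotient.mk_surjective
  have : IsLocalHom (Ideal.Quotient.mk Q) :=
    IsLocalHom.of_surjective _ Ideal.Quotient.mk_surjective
  have hmaxQ : (maximalIdeal S).map (Ideal.Quotient.mk Q) = maximalIdeal (S ⧸ Q) :=
    IsLocalRing.eq_maximalIdeal (Ideal.IsMaximal.map_of_surjective_of_ker_le
      Ideal.Quotient.mk_surjective (Ideal.mk_ker.trans_le hQn))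
  have hmkm : ∀ x ∈ maximalIdeal S, Ideal.Quotient.mk Q x ∈ maximalIdeal (S ⧸ Q) :=
    fun x hx => hmaxQ ▸ Ideal.mem_map_of_mem _ hx
  have hcQ : maximalIdeal (S ⧸ Q) ^ c ≤
      Ideal.span (Set.range fun i => Ideal.Quotient.mk Q (u i)) := by
    rw [← hmaxQ, ← Ideal.map_pow]
    refine (Ideal.map_mono hc).trans (le_of_eq ?_)
    rw [Ideal.map_sup, Ideal.map_quotient_self, bot_sup_eq, Ideal.map_span, ← Set.range_comp]
    rfl
  let π : ResidueField S →+* ResidueField (S ⧸ Q) := ResidueField.map (Ideal.Quotient.mk Q)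
  have hπ : Function.Bijective π := ⟨π.injective, fun x => by
    obtain ⟨q, rfl⟩ := residue_surjective x
    obtain ⟨s, rfl⟩ := Ideal.Quotient.mk_surjective q
    exact ⟨residue S s, rfl⟩⟩
  -- coefficient field and `C = K[[Y]] → S`
  let K := ResidueField S
  let C := MvPowerSeries (Fin (r + h)) K
  have : IsDomain C := NoZeroDivisors.to_isDomain _
  have : IsAdicComplete (maximalIdeal C) C :=
    maximalIdeal_ps (L := K) (r := r + h) ▸ inferInstance
  let χ : C →+* S := EvalPS.eval σ y hym
  have hχ : χ.Finite := by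
    refine finite_of_param (c := c₀ + 1) χ (fun i => by simp [χ, EvalPS.eval_X, hym]) ?_ ?_
    · refine RingHom.Finite.of_surjective _ fun x => ⟨x, ?_⟩
      simp [χ, EvalPS.eval_C, hσ']
    · simp only [χ, EvalPS.eval_X]
      exact (hc₀.trans Ideal.mul_le_left).trans hspan.ge
  let : Algebra C S := χ.toAlgebra
  have : Module.Finite C S := hχ
  obtain ⟨ρ, v, s, hs0, hv, hsv⟩ := exists_free_part_alt C S
  have hlow : (ρ : ℝ) ≤ e' := by
    refine rank_le_multiplicity_alt K (r + h) S (fun x => ?_) ⟨c₀, ?_⟩ ρ v hv e' he'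
    · obtain ⟨a, rfl⟩ := residue_surjective x
      exact ⟨MvPowerSeries.C (residue S a), by
        rw [RingHom.comp_apply, RingHom.algebraMap_toAlgebra, show χ _ = _ from EvalPS.eval_C ..]
        exact hσ' _⟩
    · refine hc₀.trans (le_of_eq ?_)
      rw [← hspan]
      congr 2
      exact congrArg _ (funext fun i => (EvalPS.eval_X σ y hym i).symm)
  -- the prime of `C` below `Q`
  set q := Q.comap (algebraMap C S) with hq
  have : q.IsPrime := hQp.comap _
  let ι : MvPowerSeries (Fin r) K →+* C :=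
    EvalPS.eval (N := maximalIdeal C) MvPowerSeries.C (fun i => MvPowerSeries.X (Fin.castAdd h i))
      fun i => by
        rw [maximalIdeal_ps]
        exact Ideal.subset_span ⟨_, rfl⟩
  let fK : MvPowerSeries (Fin r) K →+* S ⧸ Q := (Ideal.Quotient.mk Q).comp (χ.comp ι)
  have hfKX : ∀ i, fK (MvPowerSeries.X i) = Ideal.Quotient.mk Q (u i) := fun i => by
    show Ideal.Quotient.mk Q (χ (ι (MvPowerSeries.X i))) = _
    rw [show ι (MvPowerSeries.X i) = _ from EvalPS.eval_X ..,
      show χ _ = _ from EvalPS.eval_X ..]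
  have hfKC : ∀ a, fK (MvPowerSeries.C a) = Ideal.Quotient.mk Q (σ a) := fun a => by
    show Ideal.Quotient.mk Q (χ (ι (MvPowerSeries.C a))) = _
    rw [show ι (MvPowerSeries.C a) = _ from EvalPS.eval_C ..,
      show χ _ = _ from EvalPS.eval_C ..]
  have hfK : fK.Finite := by
    refine finite_of_param (c := c) fK (fun i => by rw [hfKX]; exact hmkm _ (hum i)) ?_
      (by simp only [hfKX]; exact hcQ)
    refine RingHom.Finite.of_surjective _ fun x => ?_
    obtain ⟨a, rfl⟩ := hπ.2 x
    refine ⟨a, ?_⟩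
    rw [RingHom.comp_apply, RingHom.comp_apply, hfKC]
    exact congrArg π (hσ' a)
  have hfKinj : Function.Injective fK := injective_of_dim fK hfK hQr
  let ιq : C ⧸ q →+* S ⧸ Q := Ideal.quotientMap Q χ le_rfl
  have hqinj : q.comap ι = ⊥ := by
    rw [eq_bot_iff]
    intro a ha
    refine (Submodule.mem_bot _).2 (hfKinj ?_)
    rw [_root_.map_zero]
    exact Ideal.Quotient.eq_zero_iff_mem.2 ha
  have hqfin : ((Ideal.Quotient.mk q).comp ι).Finite := by
    let : Algebra (MvPowerSeries (Fin r) K) (C ⧸ q) := ((Ideal.Quotient.mk q).comp ι).toAlgebra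
    let : Algebra (MvPowerSeries (Fin r) K) (S ⧸ Q) := fK.toAlgebra
    have : Module.Finite (MvPowerSeries (Fin r) K) (S ⧸ Q) := hfK
    let l : C ⧸ q →ₐ[MvPowerSeries (Fin r) K] S ⧸ Q :=
      { ιq with commutes' := fun _ => rfl }
    exact Module.Finite.of_injective l.toLinearMap (Ideal.quotientMap_injective (f := χ))
  obtain ⟨g, hg⟩ := exists_prime_generators K r h q ι (fun i => EvalPS.eval_X ..)
    (fun a => EvalPS.eval_C ..) hqfin hqinj
  obtain ⟨eQ, -, heQ⟩ := exists_multiplicity_of_dim (Localization.AtPrime Q) hQh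
  have hup : eQ ≤ (ρ : ℝ) :=
    localised_multiplicity_le_rank_alt C S q Q rfl h g hg ρ v s hs0 hsv eQ heQ
  exact ⟨eQ, heQ, hup.trans hlow⟩

/-- The localisation inequality for complete rings of characteristic `p`. -/
theorem localisation_le (p : ℕ) [Fact p.Prime] (S : Type u) [CommRing S] [IsLocalRing S]
    [IsNoetherianRing S] [CharP S p] [IsAdicComplete (maximalIdeal S) S]
    [Infinite (ResidueField S)] (Q : Ideal S) [hQp : Q.IsPrime] {r h : ℕ}
    (hQr : ringKrullDim (S ⧸ Q) = r) (hQh : ringKrullDim (Localization.AtPrime Q) = h)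
    (hD : ringKrullDim S = (r + h : ℕ)) (e' : ℝ) (he' : IsMultiplicity S (r + h) e') :
    ∃ eQ : ℝ, IsMultiplicity (Localization.AtPrime Q) h eQ ∧ eQ ≤ e' := by
  obtain ⟨σ, hσ⟩ := exists_coefficientField (A := S) p
  exact localisation_le_of_section S σ (RingHom.congr_fun hσ) Q hQr hQh hD e' he'

/-- Lech's inequality for all closed fibres from the case of Artinian ones, given coefficient
fields of complete algebras. -/
theorem lech_of_artinian_fibre_of
    (R S : Type u) [CommRing R] [CommRing S] [IsLocalRing R] [IsLocalRing S]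
    [IsNoetherianRing R] [IsNoetherianRing S] [Algebra R S] [IsLocalHom (algebraMap R S)]
    [Module.Flat R S]
    (sect : ∀ (T : Type u) [CommRing T] [IsLocalRing T] [IsNoetherianRing T] [Algebra R T]
      [IsLocalHom (algebraMap R T)] [Module.Flat R T] [IsAdicComplete (maximalIdeal T) T],
      ∃ σ : ResidueField T →+* T, ∀ x, residue T (σ x) = x)
    (d D : ℕ) (hd : ringKrullDim R = d) (hD : ringKrullDim S = D)
    (e e' : ℝ)
    (artin : ∀ (S' : Type u) [CommRing S'] [IsLocalRing S'] [IsNoetherianRing S'] [Algebra R S']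
      [IsLocalHom (algebraMap R S')] [Module.Flat R S'],
      (∃ c, maximalIdeal S' ^ c ≤ (maximalIdeal R).map (algebraMap R S')) →
      ∀ eQ : ℝ, IsMultiplicity S' d eQ → e ≤ eQ)
    (he' : IsMultiplicity S D e') : e ≤ e' := by
  let G := InfRes.GRing S
  have : IsNoetherianRing G :=
    IsLocalization.isNoetherianRing (InfRes.gPrime S).primeCompl _ inferInstance
  have := InfRes.infinite_residue S
  have hmapG := InfRes.map_maximal S
  let T := AdicCompletion (maximalIdeal G) G
  have : IsNoetherianRing T := Compl.isNoetherianRing _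
  have hmapT : (maximalIdeal G).map (algebraMap G T) = maximalIdeal T :=
    AdicCompletion.maximalIdeal_eq_map.symm
  have : IsScalarTower R G T := AdicCompletion.instIsScalarTower (maximalIdeal G) G
  have : IsLocalHom (algebraMap R G) :=
    ⟨fun a ha => (isUnit_map_iff (algebraMap R S) a).1 ((isUnit_map_iff (algebraMap S G) _).1
      (IsScalarTower.algebraMap_apply R S G a ▸ ha))⟩
  have : IsLocalHom (algebraMap R T) :=
    ⟨fun a ha => (isUnit_map_iff (algebraMap R G) a).1 ((isUnit_map_iff (algebraMap G T) _).1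
      (IsScalarTower.algebraMap_apply R G T a ▸ ha))⟩
  have : Module.Flat R G := Module.Flat.trans R S G
  have : Module.Flat R T := Module.Flat.trans R G T
  have : Infinite (ResidueField T) :=
    Infinite.of_injective _ (ResidueField.map (algebraMap G T)).injective
  obtain ⟨σ, hσ⟩ := sect T
  have hdimT : ringKrullDim T = D := by
    rw [dim_eq (R := G) (S := T) (hmapT.symm ▸ Ideal.pow_le_self two_ne_zero),
      dim_eq (R := S) (S := G) (hmapG.symm ▸ Ideal.pow_le_self two_ne_zero), hD]
  have heT : IsMultiplicity T D e' :=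
    (InfRes.isMultiplicity_iff hmapT D e').1 ((InfRes.isMultiplicity_iff hmapG D e').1 he')
  obtain ⟨Q, r, hmin, hQr, hJr⟩ := exists_minimalPrime_dim
    (I := (maximalIdeal R).map (algebraMap R T)) (map_maximalIdeal_lt_top (algebraMap R T)).ne
  have hQp : Q.IsPrime := hmin.1.1
  obtain rfl : D = r + d := (dim_eq_add hd hdimT hJr).trans (add_comm d r)
  obtain ⟨eQ, heQ, hle⟩ := localisation_le_of_section T σ hσ Q hQr (dim_localization hd Q hmin) hdimT e' heT
  refine le_trans ?_ hle
  let TQ := Localization.AtPrime Q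
  have : Module.Flat T TQ := IsLocalization.flat _ Q.primeCompl
  have : Module.Flat R TQ := Module.Flat.trans R T TQ
  have hnil : ∀ a ∈ maximalIdeal R, algebraMap R TQ a ∈ maximalIdeal TQ := fun a ha => by
    rw [IsScalarTower.algebraMap_apply R T TQ, IsLocalization.AtPrime.to_map_mem_maximal_iff _ Q]
    exact hmin.1.2 (Ideal.mem_map_of_mem _ ha)
  have : IsLocalHom (algebraMap R TQ) :=
    ⟨fun a ha => by
      by_contra h
      exact (mem_maximalIdeal _).1 (hnil a ((mem_maximalIdeal a).2 h)) ha⟩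
  refine artin TQ ?_ eQ heQ
  refine Ideal.exists_pow_le_of_le_radical_of_fg ?_ (IsNoetherian.noetherian _)
  rw [Ideal.radical_eq_sInf]
  refine le_sInf ?_
  rintro Q' ⟨hQ', hQp'⟩
  have hle' : Q'.comap (algebraMap T TQ) ≤ Q := fun s hs =>
    (IsLocalization.AtPrime.to_map_mem_maximal_iff TQ Q s).1
      (IsLocalRing.le_maximalIdeal hQp'.ne_top hs)
  have hge := hmin.2 ⟨hQp'.comap _, by
    rw [Ideal.map_le_iff_le_comap, Ideal.comap_comap, ← IsScalarTower.algebraMap_eq,
      ← Ideal.map_le_iff_le_comap]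
    exact hQ'⟩ hle'
  refine Localization.AtPrime.map_eq_maximalIdeal.ge.trans ?_
  exact Ideal.map_le_iff_le_comap.2 hge

/-- Lech's inequality for all closed fibres from the case of Artinian ones. -/
theorem lech_of_artinian_fibre (p : ℕ) [Fact p.Prime]
    (artin : ∀ (R S : Type u) [CommRing R] [CommRing S] [IsLocalRing R] [IsLocalRing S]
      [IsNoetherianRing R] [IsNoetherianRing S] [Algebra R S] [IsLocalHom (algebraMap R S)]
      [Module.Flat R S] [CharP R p],
      (∃ c, maximalIdeal S ^ c ≤ (maximalIdeal R).map (algebraMap R S)) →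
      ∀ (d : ℕ) (e e' : ℝ), IsMultiplicity R d e → IsMultiplicity S d e' → e ≤ e')
    (R S : Type u) [CommRing R] [CommRing S] [IsLocalRing R] [IsLocalRing S]
    [IsNoetherianRing R] [IsNoetherianRing S] [Algebra R S] [IsLocalHom (algebraMap R S)]
    [Module.Flat R S] [CharP R p] (d D : ℕ) (hd : ringKrullDim R = d) (hD : ringKrullDim S = D)
    (e e' : ℝ) (he : IsMultiplicity R d e) (he' : IsMultiplicity S D e') : e ≤ e' := by
  refine lech_of_artinian_fibre_of R S ?_ d D hd hD e e' ?_ he'
  · intro T _ _ _ _ _ _ _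
    have : Module.FaithfullyFlat R T := Module.FaithfullyFlat.of_flat_of_isLocalHom
    have : CharP T p := charP_of_injective_algebraMap (FaithfulSMul.algebraMap_injective R T) p
    obtain ⟨σ, hσ⟩ := exists_coefficientField (A := T) p
    exact ⟨σ, RingHom.congr_fun hσ⟩
  · intro S' _ _ _ _ _ _ hc eQ heQ
    exact artin R S' hc d e eQ he heQ

end Vale.Agent.P202.Ext
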