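import Vale.Agent.P202.Char.Main

/-!
P202, Lech in characteristic `p`, any residue extension: the main argument with the reduction given.
-/

namespace Vale.Agent.P202.Ext

open IsLocalRing Vale.Agent.P202.Char

universe u

set_option linter.unusedVariables false in
theorem main_of_base (p : ℕ) [Fact p.Prime] {T : Type u} [CommRing T] [IsLocalRing T]
    [IsNoetherianRing T] [CharP T p] [Infinite (ResidueField T)] {n : ℕ} {e e' : ℝ}
    (he : IsMultiplicity T (n + 1) e) (h0 : e ≠ 0) (Z : RedData T n)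
    (hbase : ∃ (Q : MCx T) (A : ℤ) (f M₀ : ℕ), 0 < f ∧ f ≤ Q.rank 0 ∧ (A : ℝ) = (f : ℝ) * e' ∧
      (∀ b, Q.deg b ≤ n + 1) ∧ Q.EntriesIn (maximalIdeal T) ∧
      (∑ b, (-1 : ℤ) ^ Q.deg b = 0) ∧ (∀ l, Q.IsNullHtpic (Z.z l ^ M₀)) ∧
      ∀ k : ℕ,
        (∀ j, ((Q.map (iterateFrobenius T p k)).gc T).FinH ⊥ ⊤ j) ∧
        ((Q.map (iterateFrobenius T p k)).gc T).chi (Finset.Icc 0 ((n + 1 : ℕ) : ℤ)) ⊥ ⊤ =
          ((p : ℤ) ^ k) ^ (n + 1) * A ∧
        ∀ (M : Type u) [AddCommGroup M] [Module T M] [Module.Finite T M] (L : ℕ),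
          (∀ m : M, Z.z 0 ^ L • m = 0) →
          (∀ j, ((Q.map (iterateFrobenius T p k)).gc M).FinH ⊥ ⊤ j) ∧
          ((Q.map (iterateFrobenius T p k)).gc M).chi (Finset.Icc 0 ((n + 1 : ℕ) : ℤ)) ⊥ ⊤ = 0) :
    e ≤ e' := by
  obtain ⟨Q, A, f, M₀, hf, hfr, hA, hd, hQ, halt, hnull, hk⟩ := hbase
  exact lech_of_base p he Z Q A f M₀ hf hfr hA hd hQ halt hnull hk

end Vale.Agent.P202.Ext
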