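import Vale.Agent.P202.Zero.PSLength
import Vale.Agent.P202.Char.EvalPS
import Vale.Agent.P202.Char.FlatCrit
import Vale.Agent.P202.Char.CoeffField

/-!
P202, Lech in characteristic `p`, arbitrary residue extensions: maps between power series rings
over fields sending the variables to powers of variables are flat; the base map; lifting of
coefficient fields.
-/

namespace Vale.Agent.P202.Ext

open IsLocalRing Vale.Agent.P202.Char Vale.Agent.P202.Zero
open scoped TensorProduct

universe u

namespace Setting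

variable {K : Type u} [Field K]

theorem maximalIdeal_eq (D : ℕ) : maximalIdeal (PS K D) = zI K D := by
  ext f
  rw [IsLocalRing.mem_maximalIdeal, mem_nonunits_iff, MvPowerSeries.isUnit_iff_constantCoeff,
    isUnit_iff_ne_zero, not_not, ← pow_one (zI K D), PSLen.mem_zI_pow_iff, Nat.cast_one,
    MvPowerSeries.one_le_order_iff_constCoeff_eq_zero]

/-- Syzygies of powers of distinct variables. -/
theorem syzygy {d D : ℕ} (e : Fin d → Fin D) (he : Function.Injective e) (q : ℕ)
    (b : Fin d → PS K D) (h : ∑ i, MvPowerSeries.X (e i) ^ q * b i = 0) :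
    ∃ L : Fin d → Fin d → PS K D, ∀ i, b i =
      ∑ j, MvPowerSeries.X (e j) ^ q * L i j - ∑ j, MvPowerSeries.X (e j) ^ q * L j i := by
  classical
  let s : Fin d → (Fin D →₀ ℕ) := fun i => Finsupp.single (e i) q
  let L : Fin d → Fin d → PS K D := fun i j β =>
    if j < i ∧ ∀ l < j, (β + s i + s j : Fin D →₀ ℕ) (e l) < q then
      MvPowerSeries.coeff (β + s j) (b i) else 0
  have hL : ∀ i j β, MvPowerSeries.coeff β (L i j) =
      if j < i ∧ ∀ l < j, (β + s i + s j : Fin D →₀ ℕ) (e l) < q then
        MvPowerSeries.coeff (β + s j) (b i) else 0 := fun i j β => rfl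
  refine ⟨L, fun i => MvPowerSeries.ext fun γ => ?_⟩
  have hmul : ∀ (j : Fin d) (f : PS K D) (α : Fin D →₀ ℕ),
      MvPowerSeries.coeff α (MvPowerSeries.X (e j) ^ q * f) =
        if q ≤ α (e j) then MvPowerSeries.coeff (α - s j) f else 0 := by
    intro j f α
    rw [MvPowerSeries.X_pow_eq, MvPowerSeries.coeff_monomial_mul]
    simp only [Finsupp.single_le_iff, one_mul, s]
  set α := γ + s i with hα
  set S := Finset.univ.filter fun j => q ≤ α (e j) with hS
  have hiS : i ∈ S := by simp [hS, hα, s]
  have hne : S.Nonempty := ⟨i, hiS⟩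
  set i₀ := S.min' hne
  have hi₀ : q ≤ α (e i₀) := (Finset.mem_filter.1 (S.min'_mem hne)).2
  have hmin : ∀ l < i₀, α (e l) < q := fun l hl => by
    by_contra hc
    exact absurd hl (not_lt.2 (S.min'_le l (by simp [hS, not_lt.1 hc])))
  have hγ : ∀ j, j ≠ i → γ (e j) = α (e j) := fun j hj => by
    simp [hα, s, he.ne (Ne.symm hj)]
  have hsum : ∑ j ∈ S, MvPowerSeries.coeff (α - s j) (b j) = 0 := by
    have h1 := congrArg (MvPowerSeries.coeff α) h
    simp only [map_sum, hmul, map_zero] at h1
    rwa [hS, Finset.sum_filter]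
  rw [map_sub, map_sum, map_sum]
  simp only [hmul]
  by_cases hii : i = i₀
  · have h1 : ∀ j, (if q ≤ γ (e j) then MvPowerSeries.coeff (γ - s j) (L i j) else 0) = 0 :=
      fun j => by
      split_ifs with hq
      · rw [hL, if_neg]
        rintro ⟨hji, -⟩
        have := hmin j (hii ▸ hji)
        rw [← hγ j hji.ne] at this
        omega
      · rfl
    have h2 : ∀ j, (if q ≤ γ (e j) then MvPowerSeries.coeff (γ - s j) (L j i) else 0) =
        if j ∈ S.erase i then MvPowerSeries.coeff (α - s j) (b j) else 0 := fun j => by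
      by_cases hji : j = i
      · subst hji
        rw [if_neg (Finset.notMem_erase _ _)]
        split_ifs with hq
        · rw [hL, if_neg]
          exact fun h => lt_irrefl _ h.1
        · rfl
      · simp only [Finset.mem_erase, ne_eq, hji, not_false_eq_true, true_and]
        rw [hγ j hji]
        by_cases hq : q ≤ α (e j)
        · have hjS : j ∈ S := by simp [hS, hq]
          rw [if_pos hq, if_pos hjS, hL]
          have hle : s j ≤ γ := Finsupp.single_le_iff.2 (by rw [hγ j hji]; exact hq)
          have hcond : ∀ l < i, (γ - s j + s j + s i) (e l) < q := fun l hl => by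
            rw [tsub_add_cancel_of_le hle]
            exact hmin l (hii ▸ hl)
          rw [if_pos ⟨lt_of_le_of_ne (hii ▸ S.min'_le j hjS) (Ne.symm hji), hcond⟩, hα,
            tsub_add_eq_add_tsub hle]
        · rw [if_neg hq, if_neg (by simp [hS, hq])]
    rw [Finset.sum_eq_zero fun j _ => h1 j, Finset.sum_congr rfl fun j _ => h2 j,
      Finset.sum_ite_mem, Finset.univ_inter, zero_sub]
    rw [← Finset.add_sum_erase _ _ hiS] at hsum
    rw [← eq_neg_of_add_eq_zero_left hsum]
    congr 1
    simp [hα]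
  · have h1 : ∀ j, (if q ≤ γ (e j) then MvPowerSeries.coeff (γ - s j) (L i j) else 0) =
        if j = i₀ then MvPowerSeries.coeff γ (b i) else 0 := fun j => by
      by_cases hj : j = i₀
      · subst hj
        rw [if_pos rfl, hγ _ (Ne.symm hii), if_pos hi₀, hL]
        have hle : s i₀ ≤ γ := Finsupp.single_le_iff.2 (by rw [hγ _ (Ne.symm hii)]; exact hi₀)
        have hcond : ∀ l < i₀, (γ - s i₀ + s i + s i₀) (e l) < q := fun l hl => by
          rw [show γ - s i₀ + s i + s i₀ = γ - s i₀ + s i₀ + s i from add_right_comm _ _ _,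
            tsub_add_cancel_of_le hle]
          exact hmin l hl
        rw [if_pos ⟨lt_of_le_of_ne (S.min'_le i hiS) (Ne.symm hii), hcond⟩,
          tsub_add_cancel_of_le hle]
      · rw [if_neg hj]
        split_ifs with hq
        · rw [hL, if_neg]
          rintro ⟨hji, hl⟩
          have hjS : j ∈ S := by simp [hS, ← hγ j hji.ne, hq]
          have hlt : i₀ < j := lt_of_le_of_ne (S.min'_le j hjS) (Ne.symm hj)
          have hle : s j ≤ γ := Finsupp.single_le_iff.2 hq
          have h3 := hl i₀ hlt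
          rw [show γ - s j + s i + s j = γ - s j + s j + s i from add_right_comm _ _ _,
            tsub_add_cancel_of_le hle] at h3
          exact absurd hi₀ (not_le.2 h3)
        · rfl
    have h2 : ∀ j, (if q ≤ γ (e j) then MvPowerSeries.coeff (γ - s j) (L j i) else 0) = 0 :=
      fun j => by
      split_ifs with hq
      · rw [hL, if_neg]
        rintro ⟨hij, hl⟩
        have hlt : i₀ < i := lt_of_le_of_ne (S.min'_le i hiS) (Ne.symm hii)
        have hle : s j ≤ γ := Finsupp.single_le_iff.2 hq
        have h3 := hl i₀ hlt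
        rw [tsub_add_cancel_of_le hle] at h3
        exact absurd hi₀ (not_le.2 h3)
      · rfl
    rw [Finset.sum_congr rfl fun j _ => h1 j, Finset.sum_eq_zero fun j _ => h2 j,
      Finset.sum_ite_eq', if_pos (Finset.mem_univ _), sub_zero]

/-- Maps of power series rings sending the variables to powers of variables are flat. -/
theorem flat_of_monomial {k : Type u} [Field k] {d D : ℕ} (φ : PS k d →+* PS K D)
    (e : Fin d → Fin D) (he : Function.Injective e) (q : ℕ) (hq : 0 < q)
    (hX : ∀ i, φ (MvPowerSeries.X i) = MvPowerSeries.X (e i) ^ q) : φ.Flat := by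
  classical
  let : Algebra (PS k d) (PS K D) := φ.toAlgebra
  have hloc : IsLocalHom (algebraMap (PS k d) (PS K D)) := by
    refine ⟨fun f hf => by_contra fun hn => ?_⟩
    have h1 : f ∈ zI k d := maximalIdeal_eq (K := k) d ▸ hn
    have h2 : φ f ∈ maximalIdeal (PS K D) := by
      have h3 : (zI k d).map φ ≤ maximalIdeal (PS K D) := by
        rw [zI, Ideal.map_span, Ideal.span_le]
        rintro _ ⟨_, ⟨i, rfl⟩, rfl⟩
        rw [SetLike.mem_coe, hX, maximalIdeal_eq]
        exact Ideal.pow_mem_of_mem (zI K D) (Ideal.subset_span (Set.mem_range_self (e i))) q hq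
      exact h3 (Ideal.mem_map_of_mem φ h1)
    exact h2 hf
  change Module.Flat (PS k d) (PS K D)
  refine flat_of_act_injective ?_
  rw [← LinearMap.ker_eq_bot, Submodule.eq_bot_iff]
  intro t ht
  let xm : Fin d → maximalIdeal (PS k d) := fun i =>
    ⟨MvPowerSeries.X i, by rw [maximalIdeal_eq]; exact Ideal.subset_span ⟨i, rfl⟩⟩
  obtain ⟨b, rfl⟩ : ∃ b : Fin d → PS K D, t = ∑ i, xm i ⊗ₜ[PS k d] b i := by
    clear ht
    induction t using TensorProduct.induction_on with
    | zero => exact ⟨0, by simp⟩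
    | add u v hu hv =>
      obtain ⟨b, rfl⟩ := hu
      obtain ⟨c, rfl⟩ := hv
      exact ⟨b + c, by simp [TensorProduct.tmul_add, Finset.sum_add_distrib]⟩
    | tmul a y =>
      obtain ⟨c, hc⟩ := (Submodule.mem_span_range_iff_exists_fun (PS k d)).1
        (show (a : PS k d) ∈ zI k d from maximalIdeal_eq (K := k) d ▸ a.2)
      have ha : a = ∑ i, c i • xm i := Subtype.ext (by simp [xm, ← hc])
      exact ⟨fun i => c i • y, by rw [ha, TensorProduct.sum_tmul]; simp [TensorProduct.smul_tmul]⟩
  rw [LinearMap.mem_ker, map_sum] at ht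
  simp only [FlatCrit.act_tmul, Algebra.smul_def, RingHom.algebraMap_toAlgebra, xm, hX] at ht
  obtain ⟨L, hL⟩ := syzygy e he q b ht
  have hkey : ∀ (i j : Fin d) (c : PS K D), xm i ⊗ₜ[PS k d] (MvPowerSeries.X (e j) ^ q * c) =
      ((MvPowerSeries.X j : PS k d) • xm i) ⊗ₜ[PS k d] c := fun i j c => by
    rw [TensorProduct.smul_tmul, Algebra.smul_def, RingHom.algebraMap_toAlgebra, hX]
  have hsym : ∀ i j, (MvPowerSeries.X j : PS k d) • xm i = (MvPowerSeries.X i : PS k d) • xm j :=
    fun i j => Subtype.ext (mul_comm _ _)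
  simp only [hL, TensorProduct.tmul_sub, TensorProduct.tmul_sum, hkey]
  refine (Finset.sum_sub_distrib _ _).trans (sub_eq_zero.2 ?_)
  rw [Finset.sum_comm]
  exact Finset.sum_congr rfl fun j _ => Finset.sum_congr rfl fun i _ => by rw [hsym]

/-- Series vanishing where the variables in the range of `e` are absent lie in their ideal. -/
theorem mem_span_of_coeff {d D : ℕ} (e : Fin d → Fin D) {f : PS K D}
    (hf : ∀ α : Fin D →₀ ℕ, (∀ i, α (e i) = 0) → MvPowerSeries.coeff α f = 0) :
    f ∈ Ideal.span (Set.range fun i => (MvPowerSeries.X (e i) : PS K D)) := by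
  classical
  let s : Fin d → (Fin D →₀ ℕ) := fun i => Finsupp.single (e i) 1
  let g : Fin d → PS K D := fun i β =>
    if ∀ l < i, (β + s i : Fin D →₀ ℕ) (e l) < 1 then MvPowerSeries.coeff (β + s i) f else 0
  have hg : ∀ i β, MvPowerSeries.coeff β (g i) =
      if ∀ l < i, (β + s i : Fin D →₀ ℕ) (e l) < 1 then MvPowerSeries.coeff (β + s i) f else 0 :=
    fun i β => rfl
  suffices h : f = ∑ i, MvPowerSeries.X (e i) * g i by
    rw [h]
    exact Ideal.sum_mem _ fun i _ => Ideal.mul_mem_right _ _ (Ideal.subset_span ⟨i, rfl⟩)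
  refine MvPowerSeries.ext fun α => ?_
  have hterm : ∀ i, MvPowerSeries.coeff α (MvPowerSeries.X (e i) * g i) =
      if 1 ≤ α (e i) ∧ ∀ l < i, α (e l) < 1 then MvPowerSeries.coeff α f else 0 := by
    intro i
    rw [MvPowerSeries.X, MvPowerSeries.coeff_monomial_mul]
    by_cases h : 1 ≤ α (e i)
    · have hle : Finsupp.single (e i) 1 ≤ α := Finsupp.single_le_iff.2 h
      rw [if_pos hle, hg, tsub_add_cancel_of_le hle, one_mul]
      simp only [h, true_and]
    · rw [if_neg fun hle => h (Finsupp.single_le_iff.1 hle), if_neg fun h' => h h'.1]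
  rw [map_sum, Finset.sum_congr rfl fun i _ => hterm i]
  by_cases hex : ∃ i, 1 ≤ α (e i)
  · set S := Finset.univ.filter fun i => 1 ≤ α (e i) with hS
    have hne : S.Nonempty := by
      obtain ⟨i, hi⟩ := hex
      exact ⟨i, by simp [hS, hi]⟩
    have hmem : 1 ≤ α (e (S.min' hne)) := (Finset.mem_filter.1 (S.min'_mem hne)).2
    have hlt : ∀ l < S.min' hne, α (e l) < 1 := fun l hl => by
      by_contra hc
      exact absurd hl (not_lt.2 (S.min'_le l (by simp [hS, not_lt.1 hc])))
    rw [Finset.sum_eq_single (S.min' hne), if_pos ⟨hmem, hlt⟩]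
    · intro i _ hi
      refine if_neg ?_
      rintro ⟨h1, h2⟩
      rcases lt_or_gt_of_ne hi with h3 | h3
      · exact absurd (hlt i h3) (not_lt.2 h1)
      · exact absurd (h2 _ h3) (not_lt.2 hmem)
    · simp
  · simp only [not_exists, not_le, Nat.lt_one_iff] at hex
    rw [hf α hex]
    exact (Finset.sum_eq_zero fun i _ => by rw [ite_self]).symm

end Setting

open Setting

theorem frobenius_flat (p : ℕ) [Fact p.Prime] (K : Type u) [Field K] [CharP K p] (D k : ℕ)
    [CharP (PS K D) p] :
    (iterateFrobenius (PS K D) p k).Flat ∧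
      Module.length (PS K D) (PS K D ⧸ (maximalIdeal (PS K D)).map (iterateFrobenius (PS K D) p k)) =
        (((p ^ k) ^ D : ℕ) : ℕ∞) := by
  have hp : 0 < p ^ k := pow_pos (Fact.out : p.Prime).pos k
  refine ⟨flat_of_monomial _ id Function.injective_id (p ^ k) hp fun i => by
    simp [iterateFrobenius_def], ?_⟩
  have hmap : (maximalIdeal (PS K D)).map (iterateFrobenius (PS K D) p k) = zPow K D (p ^ k) := by
    rw [maximalIdeal_eq, zI, Ideal.map_span, zPow, ← Set.range_comp]
    simp [Function.comp_def, iterateFrobenius_def]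
  rw [hmap]
  obtain ⟨hfin, hrank⟩ := PSLen.quot_zPow (k := K) (d := D) (p ^ k)
  rw [length_eq_residue (k := K) ?_ (PS K D ⧸ zPow K D (p ^ k)), Module.length_eq_finrank, hrank]
  intro z
  obtain ⟨f, rfl⟩ := residue_surjective z
  refine ⟨MvPowerSeries.constantCoeff f, ?_⟩
  change residue _ (algebraMap K (PS K D) (MvPowerSeries.constantCoeff f)) = residue _ f
  rw [← sub_eq_zero, ← map_sub, residue_eq_zero_iff, mem_maximalIdeal, mem_nonunits_iff,
    MvPowerSeries.isUnit_iff_constantCoeff]
  simp [MvPowerSeries.algebraMap_apply]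

theorem exists_base_map {k K : Type u} [Field k] [Field K] {d h : ℕ} (φ : k →+* PS K h) :
    ∃ (ι : PS k d →+* PS K (d + h)) (π : PS K (d + h) →+* PS K h), ι.Flat ∧
      (∀ i, ι (MvPowerSeries.X i) = MvPowerSeries.X (Fin.castAdd h i)) ∧
      Function.Surjective π ∧
      RingHom.ker π = Ideal.span (Set.range fun i : Fin d => MvPowerSeries.X (Fin.castAdd h i)) ∧
      (∀ a, π (ι (MvPowerSeries.C a)) = φ a) ∧ (∀ b, π (MvPowerSeries.C b) = MvPowerSeries.C b) ∧
      ∀ j, π (MvPowerSeries.X (Fin.natAdd d j)) = MvPowerSeries.X j := by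
  classical
  let e : Fin h ↪ Fin (d + h) := ⟨Fin.natAdd d, Fin.natAdd_injective _ _⟩
  let N : Ideal (PS K (d + h)) := Ideal.span (Set.range MvPowerSeries.X)
  have hy : ∀ i : Fin d, (MvPowerSeries.X (Fin.castAdd h i) : PS K (d + h)) ∈ N :=
    fun i => Ideal.subset_span ⟨_, rfl⟩
  let ι : PS k d →+* PS K (d + h) :=
    EvalPS.eval (N := N) ((MvPowerSeries.rename e).toRingHom.comp φ) _ hy
  let π : PS K (d + h) →+* PS K h := (MvPowerSeries.killCompl e).toRingHom
  have hX : ∀ i, ι (MvPowerSeries.X i) = MvPowerSeries.X (Fin.castAdd h i) := fun i =>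
    EvalPS.eval_X _ _ hy i
  have hne : ∀ i : Fin d, Fin.castAdd h i ∉ Set.range e := by
    rintro i ⟨j, hj⟩
    have := congrArg Fin.val hj
    simp [e] at this
    omega
  refine ⟨ι, π, flat_of_monomial ι (Fin.castAdd h) (Fin.castAdd_injective _ _) 1 one_pos
    (fun i => by rw [hX, pow_one]), hX, fun f => ⟨MvPowerSeries.rename e f,
      MvPowerSeries.killCompl_rename_app f⟩, ?_, fun a => ?_,
    fun b => MvPowerSeries.killCompl_C b, fun j => MvPowerSeries.killCompl_X (e := e) j⟩
  · refine le_antisymm (fun f hf => mem_span_of_coeff _ fun α hα => ?_) ?_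
    · obtain ⟨β, rfl⟩ : α ∈ Set.range (Finsupp.embDomain e) := by
        rw [Finsupp.mem_range_embDomain_iff]
        intro x hx
        induction x using Fin.addCases with
        | left i => exact absurd (hα i) (Finsupp.mem_support_iff.1 hx)
        | right j => exact ⟨j, rfl⟩
      rw [← MvPowerSeries.coeff_killCompl, show MvPowerSeries.killCompl e f = 0 from hf, map_zero]
    · rw [Ideal.span_le]
      rintro _ ⟨i, rfl⟩
      exact MvPowerSeries.killCompl_X_eq_zero (hne i)
  · simp only [ι, π, EvalPS.eval_C]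
    exact MvPowerSeries.killCompl_rename_app (φ a)

theorem exists_coefficient_lift (p : ℕ) [Fact p.Prime] {k K : Type u} [Field k] [CharP k p]
    [Field K] {h : ℕ} {S : Type u} [CommRing S] [IsLocalRing S] [IsNoetherianRing S]
    (ψ : PS K h →+* S) (hψ : Function.Surjective ψ) (g : k →+* S) :
    ∃ φ : k →+* PS K h, ψ.comp φ = g := by
  set J := RingHom.ker ψ
  have hJ : J ≤ maximalIdeal (PS K h) := le_maximalIdeal (RingHom.ker_ne_top ψ)
  have hS : ((p : ℕ) : S) = 0 := by rw [← map_natCast g, CharP.cast_eq_zero, map_zero]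
  have hK : (p : K) = 0 := by
    have h1 : ((p : ℕ) : PS K h) ∈ maximalIdeal (PS K h) :=
      hJ (RingHom.mem_ker.2 (by rw [map_natCast, hS]))
    rw [maximalIdeal_eq, ← pow_one (zI K h), PSLen.mem_zI_pow_iff, Nat.cast_one,
      MvPowerSeries.one_le_order_iff_constCoeff_eq_zero, map_natCast] at h1
    exact h1
  have : CharP (PS K h) p := (CharP.charP_iff_prime_eq_zero (Fact.out : p.Prime)).2 (by
    rw [← map_natCast (MvPowerSeries.C (σ := Fin h) (R := K)), hK, map_zero])
  let : Algebra (ZMod p) (PS K h) := ZMod.algebra _ p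
  let : Algebra (ZMod p) k := ZMod.algebra _ p
  have := formallySmooth_of_perfect (ZMod p) k
  let e := RingHom.quotientKerEquivOfSurjective hψ
  let f : k →ₐ[ZMod p] PS K h ⧸ J :=
    { toRingHom := (e.symm : S →+* PS K h ⧸ J).comp g
      commutes' := fun r => RingHom.congr_fun (Subsingleton.elim
        (((e.symm : S →+* PS K h ⧸ J).comp g).comp (algebraMap (ZMod p) k))
        (algebraMap (ZMod p) (PS K h ⧸ J))) r }
  obtain ⟨G, hG⟩ := Algebra.FormallySmooth.exists_adicCompletionEvalOneₐ_comp_eq f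
  have : IsAdicComplete (maximalIdeal (PS K h)) (PS K h) := by
    rw [maximalIdeal_eq]
    exact inferInstanceAs (IsAdicComplete (Ideal.span (Set.range MvPowerSeries.X)) (PS K h))
  let φ : k →+* PS K h :=
    ((AdicCompletion.ofAlgEquiv (maximalIdeal (PS K h))).symm.toRingEquiv.toRingHom.comp
      (Compl.compMap (RingHom.id (PS K h)) (J := maximalIdeal (PS K h)) (I := J)
        (by rw [Ideal.map_id]; exact hJ))).comp G.toRingHom
  refine ⟨φ, RingHom.ext fun a => ?_⟩
  have hloc : IsLocalHom ψ := .of_surjective ψ hψ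
  refine sub_eq_zero.1 (IsHausdorff.haus' (I := maximalIdeal S) _ fun n => ?_)
  rw [SModEq.zero, smul_eq_mul, Ideal.mul_top]
  refine Ideal.pow_le_pow_right (Nat.le_succ n) ?_
  -- a representative of the class of `G a` at level `n + 1`
  obtain ⟨y, hy⟩ := Ideal.Quotient.mk_surjective (AdicCompletion.evalₐ J (n + 1) (G a))
  set z := Compl.compMap (RingHom.id (PS K h)) (J := maximalIdeal (PS K h)) (I := J)
    (by rw [Ideal.map_id]; exact hJ) (G a)
  have h1 : Ideal.Quotient.mk (maximalIdeal (PS K h) ^ (n + 1)) (φ a) =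
      Ideal.Quotient.mk (maximalIdeal (PS K h) ^ (n + 1)) y := by
    have h2 : Ideal.Quotient.mk (maximalIdeal (PS K h) ^ (n + 1))
        ((AdicCompletion.ofAlgEquiv (maximalIdeal (PS K h))).symm z) =
        AdicCompletion.evalₐ (maximalIdeal (PS K h)) (n + 1) z := by
      conv_rhs => rw [← (AdicCompletion.ofAlgEquiv (maximalIdeal (PS K h))).apply_symm_apply z]
      simp
    refine h2.trans ?_
    rw [Compl.evalₐ_compMap, ← hy, Ideal.quotientMap_mk, RingHom.id_apply]
  have h3 : ψ y = g a := by
    have h4 : Ideal.Quotient.factor (Ideal.pow_le_pow_right (Nat.le_add_left 1 n))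
        (AdicCompletion.evalₐ J (n + 1) (G a)) = AdicCompletion.evalₐ J 1 (G a) :=
      Compl.factor_evalₐ (Nat.le_add_left 1 n) _
    have h5 : AdicCompletion.evalOneₐ J (G a) = e.symm (g a) := AlgHom.congr_fun hG a
    have h6 : Ideal.Quotient.mk J y = e.symm (g a) := by
      rw [← h5, AdicCompletion.evalOneₐ]
      simp only [AlgHom.comp_apply]
      rw [← h4, ← hy, Ideal.Quotient.factor_mk]
      rfl
    rw [← e.apply_symm_apply (g a), ← h6]
    rfl
  rw [RingHom.comp_apply, ← h3, ← map_sub]
  exact Compl.pow_le_comap (J := maximalIdeal S) (h := ψ)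
    (((IsLocalRing.local_hom_TFAE ψ).out 0 2).1 hloc) (n + 1) (Ideal.Quotient.eq.1 h1)

end Vale.Agent.P202.Ext
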