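import Vale.Agent.P202.Zero.Model
import Vale.Agent.P202.Ext.Setting

/-!
P202, Lech in characteristic `p` for arbitrary residue extensions: the multiplicity of the flat
extension `K[[X, Z]] ⊗[k[[X]]] R` is at least that of `R`.
-/

namespace Vale.Agent.P202.Ext

open IsLocalRing Filter Topology Vale.Agent.P202.Char Vale.Agent.P202.Zero
open scoped TensorProduct

universe u

theorem exists_mult {k K : Type u} [Field k] [Field K] {d h : ℕ} {R : Type u} [CommRing R]
    [IsLocalRing R] [IsNoetherianRing R] [Algebra (PS k d) R] [Module.Finite (PS k d) R]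
    (hresR : Function.Surjective fun a : k =>
      residue R (algebraMap (PS k d) R (MvPowerSeries.C a)))
    (hred : ∃ c, maximalIdeal R ^ (c + 1) ≤
      (zI k d).map (algebraMap (PS k d) R) * maximalIdeal R ^ c)
    [Algebra (PS k d) (PS K (d + h))] [Module.Flat (PS k d) (PS K (d + h))]
    (hX : ∀ i, algebraMap (PS k d) (PS K (d + h)) (MvPowerSeries.X i) =
      MvPowerSeries.X (Fin.castAdd h i))
    [IsLocalRing (PS K (d + h) ⊗[PS k d] R)] [IsNoetherianRing (PS K (d + h) ⊗[PS k d] R)]
    (hresT : Function.Surjective fun a : K => residue (PS K (d + h) ⊗[PS k d] R)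
      (algebraMap (PS K (d + h)) _ (MvPowerSeries.C a)))
    (hredT : ∃ c, maximalIdeal (PS K (d + h) ⊗[PS k d] R) ^ (c + 1) ≤
      (zI K (d + h)).map (algebraMap (PS K (d + h)) (PS K (d + h) ⊗[PS k d] R)) *
        maximalIdeal (PS K (d + h) ⊗[PS k d] R) ^ c)
    {e : ℝ} (he : IsMultiplicity R d e) (he0 : e ≠ 0) :
    ∃ eT : ℝ, IsMultiplicity (PS K (d + h) ⊗[PS k d] R) (d + h) eT ∧ e ≤ eT := by
  classical
  let T := PS K (d + h) ⊗[PS k d] R
  have var_mem : ∀ {L : Type u} [Field L] {D : ℕ} {A : Type u} [CommRing A] [IsLocalRing A]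
      [Algebra (PS L D) A] [Module.Finite (PS L D) A] (i : Fin D),
      algebraMap (PS L D) A (MvPowerSeries.X i) ∈ maximalIdeal A := by
    intro L _ D A _ _ _ _ i
    have : Algebra.IsIntegral (PS L D) A := inferInstance
    have h1 : Ideal.comap (algebraMap (PS L D) A) (maximalIdeal A) = maximalIdeal (PS L D) :=
      IsLocalRing.eq_maximalIdeal
        (Ideal.isMaximal_comap_of_isIntegral_of_isMaximal (maximalIdeal A))
    rw [← Ideal.mem_comap, h1, Setting.maximalIdeal_eq]
    exact Ideal.subset_span ⟨i, rfl⟩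
  let ιR : k →+* R := (algebraMap (PS k d) R).comp MvPowerSeries.C
  let _ : Algebra k R := ιR.toAlgebra
  have : IsScalarTower k (PS k d) R := IsScalarTower.of_algebraMap_eq fun _ => rfl
  have hkT : Function.Surjective fun a : K => residue T (algebraMap K T a) := fun z => by
    obtain ⟨a, ha⟩ := hresT z
    refine ⟨a, ?_⟩
    rw [← ha]
    simp only [IsScalarTower.algebraMap_apply K (PS K (d + h)) T]
    rfl
  obtain ⟨r, w, π, h₀, hh₀, hw, her, -⟩ :=
    isMultiplicity_eq_rank hresR (fun i => var_mem i) hred he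
  obtain ⟨eT, heT⟩ : ∃ eT : ℝ, IsMultiplicity T (d + h) eT := by
    refine exists_isMultiplicity_of_reduction
      (fun i => algebraMap (PS K (d + h)) T (MvPowerSeries.X i)) (fun i => var_mem i) ?_
    obtain ⟨c, hc⟩ := hredT
    refine ⟨c, hc.trans (le_of_eq ?_)⟩
    rw [zI, Ideal.map_span, ← Set.range_comp]
    rfl
  refine ⟨eT, heT, ?_⟩
  let π' : T →ₗ[PS K (d + h)] (Fin r → PS K (d + h)) :=
    LinearMap.liftBaseChange (PS K (d + h))
      (((Algebra.linearMap (PS k d) (PS K (d + h))).compLeft (Fin r)).comp π)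
  have hπ' : ∀ j, π' ((1 : PS K (d + h)) ⊗ₜ[PS k d] w j) =
      Pi.single j (algebraMap (PS k d) (PS K (d + h)) h₀) := fun j => by
    refine (LinearMap.liftBaseChange_tmul _ _ (1 : PS K (d + h)) (w j)).trans ?_
    rw [one_smul, LinearMap.comp_apply, hw]
    funext i
    rw [LinearMap.compLeft_apply, Function.comp_apply, Algebra.linearMap_apply,
      Pi.single_apply, Pi.single_apply, apply_ite (algebraMap (PS k d) (PS K (d + h))), map_zero]
  have hne : algebraMap (PS k d) (PS K (d + h)) h₀ ≠ 0 := by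
    intro h0
    have hreg : IsSMulRegular (PS K (d + h)) h₀ :=
      Module.Flat.isSMulRegular_of_isRegular (IsRegular.of_ne_zero hh₀)
    refine one_ne_zero (α := PS K (d + h)) (hreg ?_)
    simp only [Algebra.smul_def, h0, zero_mul]
  rw [her]
  exact rank_le_isMultiplicity hkT (fun i => var_mem i) hredT
    (fun j => (1 : PS K (d + h)) ⊗ₜ[PS k d] w j) π' hne hπ' heT

end Vale.Agent.P202.Ext
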