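import Vale.Agent.P202.Char.Main
import Vale.Agent.P202.Char.Stage2Smooth

/-!
P202, Lech in characteristic `p`, arbitrary residue extensions: reduction of Artinian closed
fibres to complete rings with infinite residue fields, positive dimension and nonzero
multiplicity.
-/

namespace Vale.Agent.P202.Ext

open IsLocalRing AdicCompletion Filter Topology Vale.Agent.P202.Char

universe u

/-- Dimension zero. -/
theorem lech_dim_zero_flat (R S : Type u) [CommRing R] [CommRing S] [IsLocalRing R] [IsLocalRing S]
    [IsNoetherianRing R] [IsNoetherianRing S] [Algebra R S] [IsLocalHom (algebraMap R S)]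
    [Module.Flat R S] (hS : ∃ c, maximalIdeal S ^ c ≤ (maximalIdeal R).map (algebraMap R S))
    {e e' : ℝ} (he : IsMultiplicity R 0 e) (he' : IsMultiplicity S 0 e') : e ≤ e' := by
  obtain ⟨c, hc⟩ := hS
  have hc' : maximalIdeal S ^ (c + 1) ≤ (maximalIdeal R).map (algebraMap R S) :=
    (Ideal.pow_le_pow_right (Nat.le_add_right c 1)).trans hc
  have hsub : Tendsto (fun N : ℕ => (c + 1) * N) atTop atTop :=
    tendsto_atTop_mono (fun N => Nat.le_mul_of_pos_left N (Nat.succ_pos c)) tendsto_id
  refine le_of_tendsto_of_tendsto' he (he'.comp hsub) fun N => ?_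
  simp only [Function.comp_apply, Nat.factorial_zero, Nat.cast_one, one_mul, pow_zero, div_one,
    Nat.cast_le]
  refine ENat.toNat_le_toNat ?_ (length_quotient_ne_top _ _ le_rfl)
  have h2 : maximalIdeal S ^ ((c + 1) * N) ≤
      ((maximalIdeal R).map (algebraMap R S)) ^ N := by
    rw [pow_mul]
    exact Ideal.pow_right_mono hc' N
  refine le_trans ?_ (length_quotient_mono h2)
  rw [length_map]
  have hpos : 0 < Module.length S (S ⧸ (maximalIdeal R).map (algebraMap R S)) :=
    Module.length_pos_iff.2 (Ideal.Quotient.nontrivial_iff.2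
      (map_maximalIdeal_lt_top (algebraMap R S)).ne)
  calc Module.length R (R ⧸ maximalIdeal R ^ N)
      = Module.length R (R ⧸ maximalIdeal R ^ N) * 1 := (mul_one _).symm
    _ ≤ _ := by
        gcongr
        exact Order.one_le_iff_pos.2 hpos

/-- Completing both rings. -/
theorem of_completion (p : ℕ) (R S : Type u) [CommRing R] [CommRing S] [IsLocalRing R]
    [IsLocalRing S] [IsNoetherianRing R] [IsNoetherianRing S] [Algebra R S]
    [IsLocalHom (algebraMap R S)] [Module.Flat R S] [CharP R p]
    (hS : ∃ c, maximalIdeal S ^ c ≤ (maximalIdeal R).map (algebraMap R S))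
    [Infinite (ResidueField S)] {d : ℕ} {e e' : ℝ}
    (main : ∀ (R' S' : Type u) [CommRing R'] [CommRing S'] [IsLocalRing R'] [IsLocalRing S']
      [IsNoetherianRing R'] [IsNoetherianRing S'] [Algebra R' S'] [IsLocalHom (algebraMap R' S')]
      [Module.Flat R' S'] [CharP R' p] [IsAdicComplete (maximalIdeal R') R']
      [IsAdicComplete (maximalIdeal S') S'] [Infinite (ResidueField S')],
      (∃ c, maximalIdeal S' ^ c ≤ (maximalIdeal R').map (algebraMap R' S')) →
      (Infinite (ResidueField R) → Infinite (ResidueField R')) →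
      IsMultiplicity R' d e → IsMultiplicity S' d e' → e ≤ e')
    (he : IsMultiplicity R d e) (he' : IsMultiplicity S d e') : e ≤ e' := by
  set m := maximalIdeal R
  set n := maximalIdeal S
  let R' := AdicCompletion m R
  let S' := AdicCompletion n S
  have : IsNoetherianRing R' := Compl.isNoetherianRing m
  have : IsNoetherianRing S' := Compl.isNoetherianRing n
  have : IsAdicComplete (maximalIdeal R') R' :=
    maximalIdeal_eq_map (R := R) ▸ isAdicComplete_self m m.fg_of_isNoetherianRing
  have : IsAdicComplete (maximalIdeal S') S' :=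
    maximalIdeal_eq_map (R := S) ▸ isAdicComplete_self n n.fg_of_isNoetherianRing
  have hle : m.map (algebraMap R S) ≤ n :=
    le_maximalIdeal (map_maximalIdeal_lt_top (algebraMap R S)).ne
  have : CharP R' p := charP_of_injective_algebraMap (of_injective m R) p
  let φ := Compl.compMap (algebraMap R S) (I := m) (J := n) hle
  let _ : Algebra R' S' := φ.toAlgebra
  have hφ : (algebraMap R' S').comp (algebraMap R R') =
      (algebraMap S S').comp (algebraMap R S) :=
    Compl.compMap_comp_algebraMap _ _
  have : IsScalarTower R R' S' := IsScalarTower.of_algebraMap_eq fun r => by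
    rw [IsScalarTower.algebraMap_apply R S S']
    exact (RingHom.congr_fun hφ r).symm
  have hmap : (maximalIdeal R').map (algebraMap R' S') =
      (m.map (algebraMap R S)).map (algebraMap S S') := by
    rw [maximalIdeal_eq_map, Ideal.map_map, hφ, ← Ideal.map_map]
  have : IsLocalHom (algebraMap R' S') := by
    refine ((local_hom_TFAE _).out 0 2).mpr ?_
    rw [hmap, maximalIdeal_eq_map]
    exact Ideal.map_mono hle
  have : Module.Flat R S' := Module.Flat.trans R S S'
  have : Module.Flat R' S' := flat_tower (R := R) maximalIdeal_eq_map.symm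
  have : Infinite (ResidueField S') :=
    Infinite.of_injective _ (algebraMap (ResidueField S) (ResidueField S')).injective
  refine main R' S' ?_
    (fun _ => Infinite.of_injective _ (algebraMap (ResidueField R) (ResidueField R')).injective)
    ((InfRes.isMultiplicity_iff (R := R) (S := R') maximalIdeal_eq_map.symm d e).1 he)
    ((InfRes.isMultiplicity_iff (R := S) (S := S') maximalIdeal_eq_map.symm d e').1 he')
  obtain ⟨c, hc⟩ := hS
  refine ⟨c, ?_⟩
  rw [hmap, maximalIdeal_eq_map, ← Ideal.map_pow]
  exact Ideal.map_mono hc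

/-- Artinian closed fibres, from the case of complete rings with infinite residue fields. -/
theorem reduce_ext (p : ℕ) [Fact p.Prime]
    (core : ∀ (R S : Type u) [CommRing R] [CommRing S] [IsLocalRing R] [IsLocalRing S]
      [IsNoetherianRing R] [IsNoetherianRing S] [Algebra R S] [IsLocalHom (algebraMap R S)]
      [Module.Flat R S] [CharP R p] [IsAdicComplete (maximalIdeal R) R]
      [IsAdicComplete (maximalIdeal S) S] [Infinite (ResidueField R)] [Infinite (ResidueField S)],
      (∃ c, maximalIdeal S ^ c ≤ (maximalIdeal R).map (algebraMap R S)) →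
      ∀ (d : ℕ) (e e' : ℝ), e ≠ 0 → 0 < d → IsMultiplicity R d e → IsMultiplicity S d e' →
        e ≤ e')
    (R S : Type u) [CommRing R] [CommRing S] [IsLocalRing R] [IsLocalRing S] [IsNoetherianRing R]
    [IsNoetherianRing S] [Algebra R S] [IsLocalHom (algebraMap R S)] [Module.Flat R S] [CharP R p]
    (hS : ∃ c, maximalIdeal S ^ c ≤ (maximalIdeal R).map (algebraMap R S))
    (d : ℕ) (e e' : ℝ) (he : IsMultiplicity R d e) (he' : IsMultiplicity S d e') : e ≤ e' := by
  rcases eq_or_ne e 0 with rfl | h0
  · exact mult_nonneg he'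
  rcases Nat.eq_zero_or_pos d with rfl | hd
  · exact lech_dim_zero_flat R S hS he he'
  rcases finite_or_infinite (ResidueField S) with hK | hK
  · have : Finite (S ⧸ maximalIdeal S) := hK
    have : Module.Finite R (S ⧸ maximalIdeal S) := Module.Finite.of_finite
    obtain ⟨c, hc⟩ := hS
    exact completion_of_pow_le p (fun R S _ _ _ _ _ _ _ _ _ _ _ d e e' he he' =>
      lech_free p R S d e e' he he') R S hc d e e' he he'
  rcases finite_or_infinite (ResidueField R) with hk | hk
  · refine of_completion p R S hS ?_ he he'
    intro R' S' _ _ _ _ _ _ _ _ _ _ _ _ _ hS' _ he he'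
    rcases finite_or_infinite (ResidueField R') with hk' | hk'
    · obtain ⟨R₁, _, _, _, _, _, _, _, _, _, _, hmax, hres⟩ :=
        exists_gonflement_of_perfect p R' S'
      have : Module.Flat R₁ S' := flat_tower (R := R') hmax
      have hinf : Infinite (ResidueField R₁) :=
        Infinite.of_surjective (algebraMap (ResidueField R₁) (ResidueField S')) fun y => by
          obtain ⟨x, hx⟩ := hres y
          exact ⟨residue R₁ x, (IsLocalRing.ResidueField.algebraMap_residue x).trans hx⟩
      refine of_completion p R₁ S' ?_ ?_ ((InfRes.isMultiplicity_iff hmax d e).1 he) he'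
      · obtain ⟨c, hc⟩ := hS'
        refine ⟨c, hc.trans ?_⟩
        rw [IsScalarTower.algebraMap_eq R' R₁ S', ← Ideal.map_map, hmax]
      · intro R'' S'' _ _ _ _ _ _ _ _ _ _ _ _ _ hS'' hi he he'
        have := hi hinf
        exact core R'' S'' hS'' d e e' h0 hd he he'
    · exact core R' S' hS' d e e' h0 hd he he'
  · refine of_completion p R S hS ?_ he he'
    intro R' S' _ _ _ _ _ _ _ _ _ _ _ _ _ hS' hi he he'
    have := hi hk
    exact core R' S' hS' d e e' h0 hd he he'

end Vale.Agent.P202.Ext
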