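import Vale.Agent.P202.Ext.Syzygy
import Vale.Agent.P202.Ext.Defs

/-!
P202, Lech in characteristic `p`, arbitrary residue extensions: finite free resolutions of modules
with free syzygies, and null homotopies of the annihilators.
-/

namespace Vale.Agent.P202.Ext

open IsLocalRing Vale.Agent.P202.Char Vale.Agent.P202.Zero

universe u

namespace Resolution

variable {T : Type u} [CommRing T]

/-- `x` is supported in degree `n`. -/
def Sup (P : MCx T) (n : ℕ) (x : P.β → T) : Prop := ∀ b, P.deg b ≠ n → x b = 0

/-- `ε` augments `P` to an exact complex over `M`. -/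
structure IsRes (P : MCx T) {M : Type u} [AddCommGroup M] [Module T M]
    (ε : (P.β → T) →ₗ[T] M) : Prop where
  supp : ∀ b, P.deg b ≠ 0 → ε (Pi.single b 1) = 0
  aug : ∀ x, ε (mlin T P.D x) = 0
  surj : ∀ m, ∃ x, Sup P 0 x ∧ ε x = m
  exact_zero : ∀ x, Sup P 0 x → ε x = 0 → ∃ y, Sup P 1 y ∧ mlin T P.D y = x
  exact_pos : ∀ (i : ℕ) x, Sup P (i + 1) x → mlin T P.D x = 0 →
    ∃ y, Sup P (i + 1 + 1) y ∧ mlin T P.D y = x

theorem sup_mem {P : MCx T} {n : ℕ} {x : P.β → T} : x ∈ P.degSub T (n : ℤ) ↔ Sup P n x := by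
  simp [MCx.mem_degSub, Sup]

theorem D_sup_zero {P : MCx T} {x : P.β → T} (hx : Sup P 0 x) : mlin T P.D x = 0 := by
  funext a
  rw [mlin_apply, Pi.zero_apply]
  refine Finset.sum_eq_zero fun b _ => ?_
  by_cases h : P.D a b = 0
  · rw [h, zero_smul]
  · rw [hx b (by rw [P.homog a b h]; omega), smul_zero]

theorem exists_res [IsNoetherianRing T] : ∀ (j : ℕ) (M : Type u) [AddCommGroup M] [Module T M]
    [Module.Finite T M], SyzFree T j M →
      ∃ (P : MCx T) (ε : (P.β → T) →ₗ[T] M), (∀ b, P.deg b ≤ j) ∧ IsRes P ε := by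
  intro j
  induction j with
  | zero =>
    intro M _ _ _ hfree
    rcases subsingleton_or_nontrivial T with hT | hT
    · have := Module.subsingleton T M
      exact ⟨⟨PEmpty, fun b => b.elim, 0, Subsingleton.elim _ _, fun a => a.elim⟩, 0,
        fun b => b.elim, ⟨fun b => b.elim, fun _ => rfl,
          fun m => ⟨0, fun b => b.elim, Subsingleton.elim _ _⟩,
          fun x _ _ => ⟨0, fun b => b.elim, funext fun b => b.elim⟩,
          fun _ x _ _ => ⟨0, fun b => b.elim, funext fun b => b.elim⟩⟩⟩
    · have : Module.Free T M := hfree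
      let e := (Module.finBasis T M).equivFun.symm
      let P : MCx T :=
        { β := Fin (Module.finrank T M)
          deg := fun _ => 0
          D := 0
          sq := Matrix.mul_zero _
          homog := fun a b h => absurd rfl h }
      refine ⟨P, e.toLinearMap, fun b => le_rfl, ⟨fun b hb => absurd rfl hb, fun x => ?_,
        fun m => ⟨e.symm m, fun b hb => absurd rfl hb, e.apply_symm_apply m⟩,
        fun x _ hx => ⟨0, fun _ _ => rfl, ?_⟩, fun i x hx _ => ⟨0, fun _ _ => rfl, ?_⟩⟩⟩
      · change e (mlin T (0 : Matrix P.β P.β T) x) = 0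
        rw [show mlin T (0 : Matrix P.β P.β T) x = 0 from funext fun a => by simp [mlin_apply],
          map_zero]
      · rw [map_zero]
        exact (e.map_eq_zero_iff.1 hx).symm
      · rw [map_zero]
        exact funext fun b => (hx b (show 0 ≠ i + 1 by omega)).symm
  | succ j ih =>
    intro M _ _ _ hfree
    obtain ⟨r, f, hf⟩ := Module.Finite.exists_fin' T M
    obtain ⟨Q, ε, hdeg, hQ⟩ := ih (LinearMap.ker f) (hfree r f hf)
    let A : Matrix (Fin r) Q.β T := fun i b => (ε (Pi.single b 1)).1 i
    have hA : ∀ y, mlin T A y = (ε y).1 := fun y => funext fun i => by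
      conv_rhs => rw [pi_eq_sum_univ' y, map_sum]
      rw [mlin_apply]
      simp [A, mul_comm]
    have hAD : A * Q.D = 0 := by
      refine Matrix.ext fun i c => ?_
      have h1 := congrFun (hA (mlin T Q.D (Pi.single c 1))) i
      rw [hQ.aug, ← mlin_mul] at h1
      simpa [mlin_apply, Pi.single_apply] using h1
    let P : MCx T :=
      { β := Fin r ⊕ Q.β
        deg := Sum.elim (fun _ => 0) fun b => Q.deg b + 1
        D := Matrix.fromBlocks 0 A 0 Q.D
        sq := by simp [Matrix.fromBlocks_multiply, hAD, Q.sq]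
        homog := by
          rintro (i | a) (l | b) h
          · exact absurd rfl h
          · by_contra hne
            refine h ?_
            change (ε (Pi.single b 1)).1 i = 0
            rw [hQ.supp b fun h0 => hne (by simp [h0])]
            rfl
          · exact absurd rfl h
          · exact congrArg (· + 1) (Q.homog a b h) }
    have hDl : ∀ (x : P.β → T) i, mlin T P.D x (.inl i) = (ε (x ∘ Sum.inr)).1 i := fun x i => by
      rw [← hA, mlin_apply, mlin_apply]
      simp [P, Fintype.sum_sum_type]
    have hDr : ∀ (x : P.β → T) a,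
        mlin T P.D x (.inr a) = mlin T Q.D (x ∘ Sum.inr) a := fun x a => by
      rw [mlin_apply, mlin_apply]
      simp [P, Fintype.sum_sum_type]
    have hup : ∀ {n y}, Sup Q n y → Sup P (n + 1) (Sum.elim 0 y) := fun {n y} hy b hb => by
      rcases b with i | b
      · rfl
      · exact hy b fun h => hb (by simp [P, h])
    refine ⟨P, f ∘ₗ LinearMap.funLeft T T Sum.inl, ?_, ⟨?_, ?_, ?_, ?_, ?_⟩⟩
    · rintro (i | b)
      · exact Nat.zero_le _
      · exact Nat.succ_le_succ (hdeg b)
    · rintro (i | b) hb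
      · exact absurd rfl hb
      · rw [LinearMap.comp_apply, show LinearMap.funLeft T T Sum.inl
          (Pi.single (Sum.inr b : P.β) (1 : T)) = 0 from funext fun i => by
            change Pi.single (M := fun _ : P.β => T) (Sum.inr b : P.β) 1 (Sum.inl i) = 0
            exact Pi.single_eq_of_ne (fun h => Sum.inl_ne_inr h) _, map_zero]
    · intro x
      rw [LinearMap.comp_apply, show LinearMap.funLeft T T Sum.inl (mlin T P.D x) =
        (ε (x ∘ Sum.inr)).1 from funext (hDl x)]
      exact (ε (x ∘ Sum.inr)).2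
    · intro m
      obtain ⟨v, rfl⟩ := hf m
      refine ⟨Sum.elim v 0, ?_, rfl⟩
      rintro (i | b) hb
      · exact absurd rfl hb
      · rfl
    · intro x hx h0
      obtain ⟨y, hy, hy'⟩ := hQ.surj ⟨x ∘ Sum.inl, h0⟩
      refine ⟨Sum.elim 0 y, hup hy, funext ?_⟩
      rintro (i | a)
      · rw [hDl, Sum.elim_comp_inr, hy']
        rfl
      · rw [hDr, Sum.elim_comp_inr, D_sup_zero hy, hx (.inr a) (Nat.succ_ne_zero _)]
        rfl
    · intro i x hx h0
      have hl : ∀ l, x (.inl l) = 0 := fun l => hx _ (Nat.succ_ne_zero i).symm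
      have hxr : Sup Q i (x ∘ Sum.inr) := fun b hb => hx _ fun h => hb (Nat.succ_injective h)
      obtain ⟨y, hy, hy'⟩ : ∃ y, Sup Q (i + 1) y ∧ mlin T Q.D y = x ∘ Sum.inr := by
        rcases i with _ | i
        · exact hQ.exact_zero _ hxr (Subtype.ext (funext fun l =>
            (hDl x l).symm.trans (congrFun h0 _)))
        · exact hQ.exact_pos i _ hxr (funext fun a => (hDr x a).symm.trans (congrFun h0 _))
      refine ⟨Sum.elim 0 y, hup hy, funext ?_⟩
      rintro (l | a)
      · rw [hDl, Sum.elim_comp_inr, hl]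
        have h1 : ε y = 0 := by
          rw [pi_eq_sum_univ' y, map_sum]
          refine Finset.sum_eq_zero fun b _ => ?_
          by_cases hb : Q.deg b = i + 1
          · rw [map_smul, hQ.supp b (by omega), smul_zero]
          · rw [hy b hb, zero_smul, map_zero]
        rw [h1]
        rfl
      · rw [hDr, Sum.elim_comp_inr, hy']
        rfl

variable {P : MCx T} {M : Type u} [AddCommGroup M] [Module T M] {ε : (P.β → T) →ₗ[T] M}

theorem IsRes.null (hP : IsRes P ε) {a : T} (ha : ∀ m : M, a • m = 0) : P.IsNullHtpic a := by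
  classical
  set e : P.β → (P.β → T) := fun b => Pi.single b 1
  have step : ∀ n, ∃ v : P.β → (P.β → T), ∀ b, P.deg b < n →
      Sup P (P.deg b + 1) (v b) ∧ mlin T P.D (v b) + ∑ c, P.D c b • v c = a • e b := by
    intro n
    induction n with
    | zero => exact ⟨0, fun b hb => absurd hb (Nat.not_lt_zero _)⟩
    | succ n ih =>
      obtain ⟨v, hv⟩ := ih
      have hex : ∀ b, ∃ y, P.deg b = n →
          Sup P (n + 1) y ∧ mlin T P.D y = a • e b - ∑ c, P.D c b • v c := by
        intro b
        by_cases hb : P.deg b = n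
        swap
        · exact ⟨0, fun h => absurd h hb⟩
        set z := a • e b - ∑ c, P.D c b • v c with hz
        have hlt : ∀ c, P.D c b ≠ 0 → P.deg c + 1 = n := fun c hc => by
          rw [← P.homog c b hc, hb]
        have hzs : Sup P n z := fun x hx => by
          simp only [z, Pi.sub_apply, Pi.smul_apply, Finset.sum_apply, smul_eq_mul]
          rw [show e b x = 0 from Pi.single_eq_of_ne (by rintro rfl; exact hx hb) _, mul_zero,
            zero_sub, neg_eq_zero]
          refine Finset.sum_eq_zero fun c _ => ?_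
          by_cases hc : P.D c b = 0
          · rw [hc, zero_mul]
          · have := hlt c hc
            rw [(hv c (by omega)).1 x (by omega), mul_zero]
        obtain ⟨y, hy, hy'⟩ : ∃ y, Sup P (n + 1) y ∧ mlin T P.D y = z := by
          rcases n with _ | i
          · refine hP.exact_zero z hzs ?_
            rw [hz, Finset.sum_eq_zero fun c _ => ?_, sub_zero, map_smul, ha]
            by_cases hc : P.D c b = 0
            · rw [hc, zero_smul]
            · exact absurd (hlt c hc) (Nat.succ_ne_zero _)
          · refine hP.exact_pos i z hzs ?_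
            have h2 : ∀ c, P.D c b • mlin T P.D (v c) =
                P.D c b • (a • e c - ∑ d, P.D d c • v d) := fun c => by
              by_cases hc : P.D c b = 0
              · rw [hc, zero_smul, zero_smul]
              · rw [← (hv c (by have := hlt c hc; omega)).2, add_sub_cancel_right]
            rw [hz, map_sub, map_smul, map_sum]
            simp only [map_smul, h2, smul_sub, Finset.sum_sub_distrib, Finset.smul_sum, smul_smul]
            rw [Finset.sum_comm (f := fun c d => (P.D c b * P.D d c) • v d)]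
            simp only [← Finset.sum_smul]
            have h3 : ∀ d, ∑ c, P.D c b * P.D d c = 0 := fun d => by
              have := congrFun (congrFun P.sq d) b
              simpa [Matrix.mul_apply, mul_comm] using this
            simp only [h3, zero_smul, Finset.sum_const_zero, sub_zero]
            funext x
            simp [e, mlin_apply, Pi.single_apply, mul_comm]
        exact ⟨y, fun _ => ⟨hy, hy'⟩⟩
      choose y hy using hex
      refine ⟨fun b => if P.deg b = n then y b else v b, fun b hb => ?_⟩
      have hsum : ∑ c, P.D c b • (if P.deg c = n then y c else v c) = ∑ c, P.D c b • v c := by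
        refine Finset.sum_congr rfl fun c _ => ?_
        by_cases hc : P.D c b = 0
        · rw [hc, zero_smul, zero_smul]
        · have := P.homog c b hc
          rw [if_neg (by omega)]
      rw [hsum]
      dsimp only
      by_cases hbn : P.deg b = n
      · rw [if_pos hbn, (hy b hbn).2, sub_add_cancel, hbn]
        exact ⟨(hy b hbn).1, rfl⟩
      · rw [if_neg hbn]
        exact hv b (by omega)
  obtain ⟨v, hv⟩ := step (Finset.univ.sup P.deg + 1)
  have hv' : ∀ b, Sup P (P.deg b + 1) (v b) ∧
      mlin T P.D (v b) + ∑ c, P.D c b • v c = a • e b :=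
    fun b => hv b (Nat.lt_succ_of_le (Finset.le_sup (Finset.mem_univ b)))
  refine ⟨Matrix.of fun x b => v b x, fun x b h => by_contra fun hd => h ((hv' b).1 x hd),
    Matrix.ext fun x b => ?_⟩
  have h := congrFun (hv' b).2 x
  simp only [Pi.add_apply, Finset.sum_apply, Pi.smul_apply, smul_eq_mul, mlin_apply] at h
  simp only [Matrix.add_apply, Matrix.mul_apply, Matrix.smul_apply, smul_eq_mul]
  rw [Matrix.one_apply, ← Pi.single_apply b (1 : T) x, ← h]
  simp [mul_comm]

theorem IsRes.length_zero (hP : IsRes P ε) (i : ℕ) (hi : 0 < i) :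
    Module.length T ((P.gc T).H ⊥ ⊤ i) = 0 := by
  obtain ⟨i, rfl⟩ := Nat.exists_eq_succ_of_ne_zero hi.ne'
  have : Subsingleton ((P.gc T).H ⊥ ⊤ ((i + 1 : ℕ) : ℤ)) := by
    refine Submodule.Quotient.subsingleton_iff.2 (eq_top_iff.2 fun x _ => ?_)
    obtain ⟨h1, h2⟩ := (MCx.mem_cyc T).1 x.2
    obtain ⟨y, hy, hy'⟩ := hP.exact_pos i x.1 (sup_mem.1 h1) h2
    rw [Submodule.mem_comap]
    change x.1 ∈ _
    rw [← hy']
    exact MCx.D_mem_bd T (by simpa using sup_mem.2 hy)
  exact Module.length_eq_zero

theorem IsRes.homology_zero (hP : IsRes P ε) : Nonempty ((P.gc T).H ⊥ ⊤ 0 ≃ₗ[T] M) := by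
  let g : (P.gc T).cyc ⊥ ⊤ 0 →ₗ[T] M := ε ∘ₗ ((P.gc T).cyc ⊥ ⊤ 0).subtype
  have hg : Function.Surjective g := fun m => by
    obtain ⟨x, hx, rfl⟩ := hP.surj m
    exact ⟨⟨x, (MCx.mem_cyc T).2 ⟨by simpa using sup_mem.2 hx, D_sup_zero hx⟩⟩, rfl⟩
  have hker : ((P.gc T).bd ⊥ ⊤ 0).comap ((P.gc T).cyc ⊥ ⊤ 0).subtype = LinearMap.ker g := by
    ext x
    refine ⟨fun hx => ?_, fun hx => ?_⟩
    · obtain ⟨_, ⟨y, -, rfl⟩, w, hw, hs⟩ := Submodule.mem_sup.1 (Submodule.mem_comap.1 hx)
      rw [(Submodule.mem_bot T).1 hw.1, add_zero] at hs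
      exact (congrArg ε hs.symm).trans (hP.aug y)
    · obtain ⟨y, hy, hy'⟩ := hP.exact_zero x.1
        (sup_mem.1 (by simpa using ((MCx.mem_cyc T).1 x.2).1)) hx
      rw [Submodule.mem_comap]
      change x.1 ∈ _
      rw [← hy']
      exact MCx.D_mem_bd T (by simpa using sup_mem.2 hy)
  exact ⟨(Submodule.quotEquivOfEq _ _ hker).trans (g.quotKerEquivOfSurjective hg)⟩

end Resolution

/-- A resolution of length `h` over a flat thickening of power series in `h` variables. -/
theorem exists_resolution {R T : Type u} [CommRing R] [IsLocalRing R] [IsNoetherianRing R]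
    [CommRing T] [IsLocalRing T] [IsNoetherianRing T] [Algebra R T] [Module.Flat R T]
    [IsLocalHom (algebraMap R T)] {K : Type u} [Field K] {h : ℕ} (π : T →+* PS K h)
    (hπ : Function.Surjective π)
    (hker : RingHom.ker π = (maximalIdeal R).map (algebraMap R T))
    (M : Type u) [AddCommGroup M] [Module T M] [Module.Finite T M] [Module R M]
    [IsScalarTower R T M] [Module.Flat R M] :
    ∃ F : MCx T, (∀ b, F.deg b ≤ h) ∧
      (∀ i : ℕ, 0 < i → Module.length T ((F.gc T).H ⊥ ⊤ i) = 0) ∧
      Nonempty ((F.gc T).H ⊥ ⊤ 0 ≃ₗ[T] M) ∧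
      ∀ a : T, (∀ m : M, a • m = 0) → F.IsNullHtpic a := by
  obtain ⟨P, ε, hdeg, hP⟩ :=
    Resolution.exists_res h M (Syz.syzFree_flat (R := R) π hπ hker M)
  exact ⟨P, hdeg, hP.length_zero, hP.homology_zero, fun a ha => hP.null ha⟩

end Vale.Agent.P202.Ext
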