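import Vale.Agent.P202.Ext.Setting
import Vale.Agent.P202.Zero.CoeffMap
import Vale.Agent.P202.Zero.Model

/-!
P202, Lech in characteristic `p` for arbitrary residue extensions: the setting. A complete local
map `R → S` factors through the flat extension `T = K[[X, Z]] ⊗[k[[X]]] R` of `R`, which maps onto
`S` and has closed fibre `K[[Z]]`.
-/

namespace Vale.Agent.P202.Ext

open IsLocalRing Filter Topology Vale.Agent.P202.Char Vale.Agent.P202.Zero
open scoped TensorProduct

universe u

namespace Setup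

/-- Ring maps out of power series into a separated ring are determined by constants and
variables. -/
theorem hom_ext {L : Type u} [Field L] {n : ℕ} {C : Type u} [CommRing C] (N : Ideal C)
    [IsHausdorff N C] (f g : PS L n →+* C)
    (hC : ∀ a, f (MvPowerSeries.C a) = g (MvPowerSeries.C a))
    (hX : ∀ i, f (MvPowerSeries.X i) = g (MvPowerSeries.X i))
    (hN : ∀ i, f (MvPowerSeries.X i) ∈ N) : f = g := by
  refine RingHom.ext fun a => sub_eq_zero.1 (IsHausdorff.haus' (I := N) _ fun m => ?_)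
  rw [SModEq.zero, smul_eq_mul, Ideal.mul_top]
  induction m generalizing a with
  | zero => simp
  | succ m ih =>
    obtain ⟨q, hq, -⟩ := PSLen.exists_decomp 1 (a - MvPowerSeries.C (MvPowerSeries.constantCoeff a))
      fun α hα => by
        have h0 : α = 0 := Finsupp.ext fun i => by simpa using hα i
        simp [h0]
    rw [← add_sub_cancel (MvPowerSeries.C (MvPowerSeries.constantCoeff a)) a, hq, map_add,
      map_add, hC, add_sub_add_left_eq_sub, map_sum, map_sum, ← Finset.sum_sub_distrib]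
    refine Ideal.sum_mem _ fun i _ => ?_
    rw [pow_one, map_mul, map_mul, ← hX i, ← mul_sub, pow_succ']
    exact Ideal.mul_mem_mul (hN i) (ih _)

theorem sup_pow_le {A : Type u} [CommRing A] (Z J : Ideal A) (n : ℕ) :
    (Z ⊔ J) ^ (n + 1) ≤ Z * (Z ⊔ J) ^ n ⊔ J ^ (n + 1) := by
  induction n with
  | zero => simp
  | succ n ih =>
    calc (Z ⊔ J) ^ (n + 1 + 1) = (Z ⊔ J) * (Z ⊔ J) ^ (n + 1) := pow_succ' _ _
      _ = Z * (Z ⊔ J) ^ (n + 1) ⊔ J * (Z ⊔ J) ^ (n + 1) := Ideal.sup_mul _ _ _
      _ ≤ Z * (Z ⊔ J) ^ (n + 1) ⊔ J * (Z * (Z ⊔ J) ^ n ⊔ J ^ (n + 1)) :=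
          sup_le_sup_left (mul_le_mul_right ih _) _
      _ ≤ Z * (Z ⊔ J) ^ (n + 1) ⊔ J ^ (n + 1 + 1) := by
          refine sup_le le_sup_left ?_
          rw [Ideal.mul_sup, mul_left_comm, ← pow_succ']
          refine sup_le (le_trans ?_ le_sup_left) le_sup_right
          rw [pow_succ']
          exact mul_le_mul_right (mul_le_mul_left le_sup_right _) _

/-- Ring maps out of a tensor product. -/
theorem exists_lift {A B R C : Type u} [CommRing A] [CommRing B] [CommRing R] [CommRing C]
    [Algebra A B] [Algebra A R] (f : B →+* C) (g : R →+* C)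
    (h : ∀ a, f (algebraMap A B a) = g (algebraMap A R a)) :
    ∃ ψ : B ⊗[A] R →+* C, ∀ b r, ψ (b ⊗ₜ r) = f b * g r := by
  let _ : Algebra A C := (f.comp (algebraMap A B)).toAlgebra
  let fA : B →ₐ[A] C := { f with commutes' := fun _ => rfl }
  let gA : R →ₐ[A] C := { g with commutes' := fun a => (h a).symm }
  exact ⟨(Algebra.TensorProduct.lift fA gA fun _ _ => Commute.all _ _).toRingHom,
    fun b r => Algebra.TensorProduct.lift_tmul _ _ _ _ _⟩

end Setup

open Setup in
theorem exists_setup (p : ℕ) [Fact p.Prime] (R S : Type u) [CommRing R] [CommRing S]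
    [IsLocalRing R] [IsLocalRing S] [IsNoetherianRing R] [IsNoetherianRing S] [Algebra R S]
    [IsLocalHom (algebraMap R S)] [CharP R p] [IsAdicComplete (maximalIdeal R) R]
    [IsAdicComplete (maximalIdeal S) S] {d : ℕ} (x : Fin d → R) (hxm : ∀ i, x i ∈ maximalIdeal R)
    (hred : ∃ c, maximalIdeal R ^ (c + 1) ≤ Ideal.span (Set.range x) * maximalIdeal R ^ c) :
    ∃ (k K : Type u) (_ : Field k) (_ : Field K) (_ : CharP k p) (_ : CharP K p) (h : ℕ)
      (_ : Algebra (PS k d) R) (_ : Module.Finite (PS k d) R)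
      (_ : Algebra (PS k d) (PS K (d + h))) (_ : Module.Flat (PS k d) (PS K (d + h)))
      (_ : IsLocalRing (PS K (d + h) ⊗[PS k d] R))
      (_ : IsNoetherianRing (PS K (d + h) ⊗[PS k d] R))
      (_ : CharP (PS K (d + h) ⊗[PS k d] R) p)
      (π : PS K (d + h) ⊗[PS k d] R →+* PS K h) (ψ : PS K (d + h) ⊗[PS k d] R →+* S),
      (∀ i, algebraMap (PS k d) R (MvPowerSeries.X i) = x i) ∧
      (∀ i, algebraMap (PS k d) (PS K (d + h)) (MvPowerSeries.X i) =
        MvPowerSeries.X (Fin.castAdd h i)) ∧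
      Function.Surjective (fun a : k =>
        residue R (algebraMap (PS k d) R (MvPowerSeries.C a))) ∧
      Function.Surjective (fun a : K => residue (PS K (d + h) ⊗[PS k d] R)
        (algebraMap (PS K (d + h)) _ (MvPowerSeries.C a))) ∧
      (∃ c, maximalIdeal (PS K (d + h) ⊗[PS k d] R) ^ (c + 1) ≤
        (zI K (d + h)).map (algebraMap (PS K (d + h)) (PS K (d + h) ⊗[PS k d] R)) *
          maximalIdeal (PS K (d + h) ⊗[PS k d] R) ^ c) ∧
      Function.Surjective π ∧
      RingHom.ker π = (maximalIdeal R).map (Algebra.TensorProduct.includeRight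
        (R := PS k d) (A := PS K (d + h)) (B := R)).toRingHom ∧
      Function.Surjective ψ ∧ (∀ r : R, ψ ((1 : PS K (d + h)) ⊗ₜ r) = algebraMap R S r) ∧
      (Infinite (ResidueField S) → Infinite (ResidueField (PS K (d + h) ⊗[PS k d] R))) := by
  classical
  have hp : p.Prime := Fact.out
  have hpR : (p : R) = 0 := CharP.cast_eq_zero R p
  have hpS : (p : S) = 0 := by rw [← map_natCast (algebraMap R S), hpR, map_zero]
  let k := ResidueField R
  let K := ResidueField S
  have : CharP k p := (CharP.charP_iff_prime_eq_zero hp).2 (by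
    rw [← map_natCast (residue R), hpR, map_zero])
  have : CharP S p := (CharP.charP_iff_prime_eq_zero hp).2 hpS
  have : CharP K p := (CharP.charP_iff_prime_eq_zero hp).2 (by
    rw [← map_natCast (residue S), hpS, map_zero])
  obtain ⟨σR, hσR⟩ := exists_coefficientField (A := R) p
  obtain ⟨σS, hσS⟩ := exists_coefficientField (A := S) p
  have hσR' : ∀ a, residue R (σR a) = a := RingHom.congr_fun hσR
  have hσS' : ∀ a, residue S (σS a) = a := RingHom.congr_fun hσS
  obtain ⟨c, hc⟩ := hred
  obtain ⟨φA, hφfin, hφC, hφX⟩ := exists_psMap (k := k) σR (fun a => ⟨a, hσR' a⟩) x hxm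
    ⟨c + 1, hc.trans Ideal.mul_le_left⟩
  let _ : Algebra (PS k d) R := φA.toAlgebra
  have hfinR : Module.Finite (PS k d) R := hφfin
  obtain ⟨h, z, hz⟩ := Submodule.fg_iff_exists_fin_generating_family.1
    (maximalIdeal S).fg_of_isNoetherianRing
  have hzm : ∀ j, z j ∈ maximalIdeal S := fun j => hz ▸ Submodule.subset_span ⟨j, rfl⟩
  have hzspan : Ideal.span (Set.range z) = maximalIdeal S := hz
  obtain ⟨ψ₀, hψfin, hψC, hψX⟩ := exists_psMap (k := K) σS (fun a => ⟨a, hσS' a⟩) z hzm
    ⟨1, by rw [pow_one, hzspan]⟩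
  have hψ₀ : Function.Surjective ψ₀ := by
    let _ : Algebra (PS K h) S := ψ₀.toAlgebra
    have : Module.Finite (PS K h) S := hψfin
    let W : Submodule (PS K h) S := LinearMap.range (Algebra.linearMap (PS K h) S)
    have hle : (⊤ : Submodule (PS K h) S) ≤ W ⊔ maximalIdeal (PS K h) • ⊤ := by
      intro s _
      have hs : s - σS (residue S s) ∈ maximalIdeal S :=
        (residue_eq_zero_iff _).1 (by rw [map_sub, hσS', sub_self])
      rw [← add_sub_cancel (σS (residue S s)) s]
      refine Submodule.add_mem_sup ⟨MvPowerSeries.C (residue S s), hψC _⟩ ?_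
      rw [← hzspan] at hs
      obtain ⟨a, ha⟩ := Ideal.mem_span_range_iff_exists_fun.1 hs
      rw [← ha]
      refine Submodule.sum_mem _ fun j _ => ?_
      rw [mul_comm, ← hψX j]
      exact Submodule.smul_mem_smul (r := (MvPowerSeries.X j : PS K h))
        (by rw [Setting.maximalIdeal_eq]; exact Ideal.subset_span ⟨j, rfl⟩) trivial
    have hW := Submodule.le_of_le_smul_of_le_jacobson_bot Module.Finite.fg_top
      (IsLocalRing.maximalIdeal_le_jacobson _) hle
    exact fun s => hW (trivial : s ∈ (⊤ : Submodule (PS K h) S))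
  obtain ⟨φ, hφ⟩ := exists_coefficient_lift p ψ₀ hψ₀ ((algebraMap R S).comp σR)
  -- the base map
  let em : Fin h ↪ Fin (d + h) := ⟨Fin.natAdd d, Fin.natAdd_injective _ _⟩
  let N : Ideal (PS K (d + h)) := Ideal.span (Set.range MvPowerSeries.X)
  have hyN : ∀ i : Fin d, (MvPowerSeries.X (Fin.castAdd h i) : PS K (d + h)) ∈ N :=
    fun i => Ideal.subset_span ⟨_, rfl⟩
  let ι : PS k d →+* PS K (d + h) :=
    EvalPS.eval (N := N) ((MvPowerSeries.rename em).toRingHom.comp φ) _ hyN
  let π₀ : PS K (d + h) →+* PS K h := (MvPowerSeries.killCompl em).toRingHom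
  have hιX : ∀ i, ι (MvPowerSeries.X i) = MvPowerSeries.X (Fin.castAdd h i) := fun i =>
    EvalPS.eval_X _ _ hyN i
  have hιC : ∀ a, ι (MvPowerSeries.C a) = MvPowerSeries.rename em (φ a) := fun a =>
    EvalPS.eval_C _ _ hyN a
  let _ : Algebra (PS k d) (PS K (d + h)) := ι.toAlgebra
  have hflat : Module.Flat (PS k d) (PS K (d + h)) :=
    Setting.flat_of_monomial ι (Fin.castAdd h) (Fin.castAdd_injective _ _) 1 one_pos
      (fun i => by rw [hιX, pow_one])
  have hπX : ∀ i : Fin d, π₀ (MvPowerSeries.X (Fin.castAdd h i)) = 0 := fun i => by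
    refine MvPowerSeries.killCompl_X_eq_zero ?_
    rintro ⟨j, hj⟩
    have := congrArg Fin.val hj
    simp [em] at this
    omega
  have hπker : ∀ f, π₀ f = 0 → f ∈ Ideal.span
      (Set.range fun i : Fin d => (MvPowerSeries.X (Fin.castAdd h i) : PS K (d + h))) := by
    intro f hf
    refine Setting.mem_span_of_coeff _ fun α hα => ?_
    obtain ⟨β, rfl⟩ : α ∈ Set.range (Finsupp.embDomain em) := by
      rw [Finsupp.mem_range_embDomain_iff]
      intro y hy
      induction y using Fin.addCases with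
      | left i => exact absurd (hα i) (Finsupp.mem_support_iff.1 hy)
      | right j => exact ⟨j, rfl⟩
    rw [← MvPowerSeries.coeff_killCompl, show MvPowerSeries.killCompl em f = 0 from hf, map_zero]
  let ia : R →+* PS K (d + h) ⊗[PS k d] R :=
    (Algebra.TensorProduct.includeRight (R := PS k d) (A := PS K (d + h)) (B := R)).toRingHom
  let ib : PS K (d + h) →+* PS K (d + h) ⊗[PS k d] R :=
    algebraMap (PS K (d + h)) (PS K (d + h) ⊗[PS k d] R)
  have hcomm : ∀ a, ia (φA a) = ib (ι a) := fun a => by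
    change (1 : PS K (d + h)) ⊗ₜ[PS k d] algebraMap (PS k d) R a =
      algebraMap (PS k d) (PS K (d + h)) a ⊗ₜ[PS k d] (1 : R)
    rw [Algebra.TensorProduct.tmul_one_eq_one_tmul]
  -- `π`
  let _ : Algebra (PS k d) (PS K h) := (π₀.comp ι).toAlgebra
  have : IsHausdorff (zI K h) (PS K h) := by
    have h0 : IsAdicComplete (Ideal.span (Set.range MvPowerSeries.X) : Ideal (PS K h)) (PS K h) :=
      inferInstance
    exact h0.toIsHausdorff
  have hπR : ((φ.comp (residue R)).comp φA) = π₀.comp ι := by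
    refine hom_ext (zI K h) _ _ (fun a => ?_) (fun i => ?_) (fun i => ?_)
    · simp only [RingHom.comp_apply, hφC, hσR', hιC]
      exact (MvPowerSeries.killCompl_rename_app (φ a)).symm
    · simp only [RingHom.comp_apply, hφX, hιX, hπX, (residue_eq_zero_iff _).2 (hxm i), map_zero]
    · simp only [RingHom.comp_apply, hφX, (residue_eq_zero_iff _).2 (hxm i), map_zero]
      exact zero_mem _
  let πA : PS K (d + h) →ₐ[PS k d] PS K h := { π₀ with commutes' := fun _ => rfl }
  let πR : R →ₐ[PS k d] PS K h :=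
    { φ.comp (residue R) with commutes' := fun a => RingHom.congr_fun hπR a }
  let π : PS K (d + h) ⊗[PS k d] R →+* PS K h :=
    (Algebra.TensorProduct.lift πA πR fun _ _ => Commute.all _ _).toRingHom
  have hπt : ∀ b r, π (b ⊗ₜ r) = π₀ b * φ (residue R r) := fun b r =>
    Algebra.TensorProduct.lift_tmul _ _ _ _ _
  have hπsurj : Function.Surjective π := fun f => ⟨MvPowerSeries.rename em f ⊗ₜ 1, by
    rw [hπt, map_one, map_one, mul_one]
    exact MvPowerSeries.killCompl_rename_app f⟩
  have : Nontrivial (PS K (d + h) ⊗[PS k d] R) := π.domain_nontrivial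
  -- decomposition modulo `m_R`
  set J := (maximalIdeal R).map ia with hJ
  set Z := (zI K (d + h)).map ib with hZ
  have hdec : ∀ t, ∃ b, t - ib b ∈ J := by
    intro t
    induction t with
    | zero => exact ⟨0, by simp⟩
    | add t t' ht ht' =>
      obtain ⟨b, hb⟩ := ht
      obtain ⟨b', hb'⟩ := ht'
      exact ⟨b + b', by rw [map_add, add_sub_add_comm]; exact add_mem hb hb'⟩
    | tmul b r =>
      refine ⟨b * ι (MvPowerSeries.C (residue R r)), ?_⟩
      have hr : r - φA (MvPowerSeries.C (residue R r)) ∈ maximalIdeal R :=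
        (residue_eq_zero_iff _).1 (by rw [map_sub, hφC, hσR', sub_self])
      have h1 := J.mul_mem_left (ib b) (Ideal.mem_map_of_mem ia hr)
      rw [map_sub, hcomm, mul_sub, ← map_mul] at h1
      convert h1 using 2
      change b ⊗ₜ[PS k d] r = (b ⊗ₜ[PS k d] (1 : R)) * ((1 : PS K (d + h)) ⊗ₜ[PS k d] r)
      rw [Algebra.TensorProduct.tmul_mul_tmul, mul_one, one_mul]
  have hxJ : ∀ i, ib (MvPowerSeries.X (Fin.castAdd h i)) ∈ J := fun i => by
    rw [← hιX, ← hcomm, hφX]
    exact Ideal.mem_map_of_mem ia (hxm i)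
  have hker : RingHom.ker π = J := by
    refine le_antisymm (fun t ht => ?_) (Ideal.map_le_iff_le_comap.2 fun r hr => ?_)
    · obtain ⟨b, hb⟩ := hdec t
      have hJ0 : J ≤ RingHom.ker π := Ideal.map_le_iff_le_comap.2 fun r hr => by
        rw [Ideal.mem_comap, RingHom.mem_ker]
        change π ((1 : PS K (d + h)) ⊗ₜ[PS k d] r) = 0
        rw [hπt, (residue_eq_zero_iff _).2 hr, map_zero, mul_zero]
      have h2 : π₀ b = 0 := by
        have h3 : π (ib b) = 0 := by
          have := hJ0 hb
          rw [RingHom.mem_ker, map_sub, RingHom.mem_ker.1 ht, zero_sub, neg_eq_zero] at this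
          exact this
        change π (b ⊗ₜ[PS k d] (1 : R)) = 0 at h3
        rwa [hπt, map_one, map_one, mul_one] at h3
      have h4 : ib b ∈ J := by
        have h5 := Ideal.mem_map_of_mem ib (hπker b h2)
        rw [Ideal.map_span, ← Set.range_comp] at h5
        exact (Ideal.span_le.2 (by rintro _ ⟨i, rfl⟩; exact hxJ i)) h5
      have := add_mem hb h4
      rwa [sub_add_cancel] at this
    · rw [Ideal.mem_comap, RingHom.mem_ker]
      change π ((1 : PS K (d + h)) ⊗ₜ[PS k d] r) = 0
      rw [hπt, (residue_eq_zero_iff _).2 hr, map_zero, mul_zero]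
  -- `T` is local
  have hxZ : (Ideal.span (Set.range x)).map ia ≤ Z := by
    rw [Ideal.map_le_iff_le_comap, Ideal.span_le]
    rintro _ ⟨i, rfl⟩
    rw [SetLike.mem_coe, Ideal.mem_comap, ← hφX, hcomm, hιX]
    exact Ideal.mem_map_of_mem ib (Ideal.subset_span ⟨_, rfl⟩)
  have hmax : ∀ P : Ideal (PS K (d + h) ⊗[PS k d] R), P.IsMaximal → Z ⊔ J ≤ P := by
    intro P hP
    have : Algebra.IsIntegral (PS K (d + h)) (PS K (d + h) ⊗[PS k d] R) := inferInstance
    have h1 := Ideal.isMaximal_comap_of_isIntegral_of_isMaximal (R := PS K (d + h)) P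
    have hZP : Z ≤ P := Ideal.map_le_iff_le_comap.2 (by
      rw [IsLocalRing.eq_maximalIdeal h1, Setting.maximalIdeal_eq])
    refine sup_le hZP (hP.isPrime.le_of_pow_le (n := c + 1) ?_)
    rw [hJ, ← Ideal.map_pow]
    exact ((Ideal.map_mono (hc.trans Ideal.mul_le_left)).trans hxZ).trans hZP
  have hres : ∀ t, ∃ a : K, t - (ib.comp MvPowerSeries.C) a ∈ Z ⊔ J := by
    intro t
    obtain ⟨b, hb⟩ := hdec t
    refine ⟨MvPowerSeries.constantCoeff b, ?_⟩
    have h1 : ib (b - MvPowerSeries.C (MvPowerSeries.constantCoeff b)) ∈ Z := by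
      refine Ideal.mem_map_of_mem ib ?_
      rw [← pow_one (zI K (d + h)), PSLen.mem_zI_pow_iff]
      exact_mod_cast MvPowerSeries.one_le_order_iff_constCoeff_eq_zero.2 (by simp)
    have h2 := add_mem (Ideal.mem_sup_left h1 : _ ∈ Z ⊔ J) (Ideal.mem_sup_right hb)
    rwa [map_sub, sub_add_sub_cancel'] at h2
  obtain ⟨hloc, hm⟩ := ModelAux.local_of_residues (ib.comp MvPowerSeries.C) (Z ⊔ J) hmax hres
  have : IsNoetherianRing (PS K (d + h) ⊗[PS k d] R) :=
    IsNoetherianRing.of_finite (PS K (d + h)) _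
  have : CharP (PS K (d + h) ⊗[PS k d] R) p := (CharP.charP_iff_prime_eq_zero hp).2 (by
    rw [← map_natCast ia, hpR, map_zero])
  have hresT : Function.Surjective fun a : K => residue (PS K (d + h) ⊗[PS k d] R)
      (algebraMap (PS K (d + h)) _ (MvPowerSeries.C a)) := fun t => by
    obtain ⟨t, rfl⟩ := residue_surjective t
    obtain ⟨a, ha⟩ := hres t
    exact ⟨a, ((Ideal.Quotient.eq).2 (hm ▸ ha)).symm⟩
  -- `ψ`
  let w : Fin (d + h) → S := Fin.append (fun i => algebraMap R S (x i)) z
  have hw : ∀ i, w i ∈ maximalIdeal S := fun i => by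
    induction i using Fin.addCases with
    | left i =>
      simp only [w, Fin.append_left]
      exact map_maximalIdeal_le (algebraMap R S) (Ideal.mem_map_of_mem _ (hxm i))
    | right j => simpa [w] using hzm j
  let ψB : PS K (d + h) →+* S := EvalPS.eval (N := maximalIdeal S) σS w hw
  have hψB : ψB.comp (MvPowerSeries.rename em).toRingHom = ψ₀ := by
    refine hom_ext (maximalIdeal S) _ _ (fun a => ?_) (fun j => ?_) (fun j => ?_)
    · rw [hψC]
      change ψB (MvPowerSeries.rename em (MvPowerSeries.C a)) = _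
      rw [MvPowerSeries.rename_C]
      exact EvalPS.eval_C _ _ hw a
    all_goals
      have h6 : ψB (MvPowerSeries.rename em (MvPowerSeries.X j)) = z j := by
        rw [MvPowerSeries.rename_X]
        refine (EvalPS.eval_X _ _ hw _).trans ?_
        simp [w, em]
    · rw [hψX]
      exact h6
    · exact (show ψB (MvPowerSeries.rename em (MvPowerSeries.X j)) ∈ maximalIdeal S from
        h6 ▸ hzm j)
  have hψR : (algebraMap R S).comp φA = ψB.comp ι := by
    refine hom_ext (maximalIdeal S) _ _ (fun a => ?_) (fun i => ?_) (fun i => ?_)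
    · rw [RingHom.comp_apply, RingHom.comp_apply, hφC, hιC]
      exact ((RingHom.congr_fun hψB (φ a)).trans (RingHom.congr_fun hφ a)).symm
    · rw [RingHom.comp_apply, RingHom.comp_apply, hφX, hιX]
      refine ((EvalPS.eval_X _ _ hw _).trans ?_).symm
      simp [w]
    · rw [RingHom.comp_apply, hφX]
      exact map_maximalIdeal_le (algebraMap R S) (Ideal.mem_map_of_mem _ (hxm i))
  obtain ⟨ψ, hψt⟩ : ∃ ψ : PS K (d + h) ⊗[PS k d] R →+* S,
      ∀ b r, ψ (b ⊗ₜ r) = ψB b * algebraMap R S r := by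
    exact exists_lift ψB (algebraMap R S) fun a => (RingHom.congr_fun hψR a).symm
  refine ⟨k, K, inferInstance, inferInstance, inferInstance, inferInstance, h, inferInstance,
    hfinR, inferInstance, hflat, hloc, inferInstance, inferInstance, π, ψ, hφX, hιX,
    fun a => ⟨a, ?_⟩, hresT, ⟨c, ?_⟩, hπsurj, hker, fun s => ?_, fun r => ?_, fun hinf => ?_⟩
  · change residue R (φA (MvPowerSeries.C a)) = a
    rw [hφC, hσR']
  · rw [hm]
    refine (sup_pow_le Z J c).trans (sup_le le_rfl ?_)
    rw [hJ, ← Ideal.map_pow]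
    refine (Ideal.map_mono hc).trans ?_
    rw [Ideal.map_mul, Ideal.map_pow, ← hJ]
    exact Ideal.mul_mono hxZ (Ideal.pow_right_mono le_sup_right c)
  · obtain ⟨f, rfl⟩ := hψ₀ s
    refine ⟨MvPowerSeries.rename em f ⊗ₜ 1, ?_⟩
    rw [hψt, map_one, mul_one]
    exact RingHom.congr_fun hψB f
  · rw [hψt, map_one, one_mul]
  · have : Infinite K := hinf
    exact Infinite.of_injective _ (((residue (PS K (d + h) ⊗[PS k d] R)).comp
      ((algebraMap (PS K (d + h)) (PS K (d + h) ⊗[PS k d] R)).comp MvPowerSeries.C))).injective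

end Vale.Agent.P202.Ext
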