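import Vale.Agent.P202.Ext.Base
import Vale.Agent.P202.Ext.Growth
import Vale.Agent.P202.Ext.MainBase
import Vale.Agent.P202.Ext.Mult
import Vale.Agent.P202.Ext.Setup
import Vale.Agent.P202.Ext.Resolution
import Vale.Agent.P202.Ext.Reduce
import Vale.Agent.P202.Ext.Localise

/-!
P202: Lech's inequality in characteristic `p` for complete local rings with Artinian closed fibre,
without any hypothesis on the residue field extension, and the general case from it.
-/

namespace Vale.Agent.P202.Ext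

open IsLocalRing Filter Topology Vale.Agent.P202.Char Vale.Agent.P202.Zero
open scoped TensorProduct

universe u

/-- The core: complete rings, infinite residue fields, positive dimension and multiplicity. -/
theorem lech_core (p : ℕ) [Fact p.Prime] (R S : Type u) [CommRing R] [CommRing S]
    [IsLocalRing R] [IsLocalRing S] [IsNoetherianRing R] [IsNoetherianRing S] [Algebra R S]
    [IsLocalHom (algebraMap R S)] [Module.Flat R S] [CharP R p]
    [IsAdicComplete (maximalIdeal R) R] [IsAdicComplete (maximalIdeal S) S]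
    [Infinite (ResidueField R)] [Infinite (ResidueField S)]
    (hS : ∃ c, maximalIdeal S ^ c ≤ (maximalIdeal R).map (algebraMap R S))
    (d : ℕ) (e e' : ℝ) (h0 : e ≠ 0) (hd : 0 < d) (he : IsMultiplicity R d e)
    (he' : IsMultiplicity S d e') : e ≤ e' := by
  classical
  obtain ⟨m, rfl⟩ : ∃ m, d = m + 1 := ⟨d - 1, by omega⟩
  have h0' : e' ≠ 0 := mult_ne_zero_of_fibre hS he he' h0
  obtain ⟨Z₀⟩ := exists_redData he h0
  obtain ⟨c₀, hc₀⟩ : ∃ c, maximalIdeal R ^ (c + 1) ≤
      Ideal.span (Set.range Z₀.z) * maximalIdeal R ^ c := by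
    refine ⟨Finset.univ.sup Z₀.δ, ?_⟩
    rw [Z₀.pow_eq]
    refine iSup_le fun i => ?_
    have hi : Z₀.δ i ≤ Finset.univ.sup Z₀.δ := Finset.le_sup (Finset.mem_univ i)
    obtain ⟨j, hj⟩ := Nat.exists_eq_add_of_le hi
    rw [hj, show Z₀.δ i + j + 1 - Z₀.δ i = j + 1 by omega, pow_succ', mul_assoc,
      show Z₀.δ i + j = j + Z₀.δ i by omega, pow_add]
    refine Ideal.mul_mono le_rfl (Ideal.mul_mono ?_ ((Ideal.span_singleton_le_iff_mem _).2
      (Z₀.gen_mem i)))
    exact Ideal.pow_right_mono (Ideal.span_le.2 (by rintro _ ⟨l, rfl⟩; exact Z₀.z_mem l)) _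
  obtain ⟨k, K, hk, hK, hkp, hKp, h, hAR, hfin, hAB, hflatB, hTloc, hTnoeth, hTp, π, ψ, hXR, hXB,
    hresR, hresT, hredT, hπ, hker, hψ, hψR, hinf⟩ :=
    exists_setup p R S Z₀.z Z₀.z_mem ⟨c₀, hc₀⟩
  have : IsNoetherianRing (PS k (m + 1)) := inferInstance
  have : CharP (PS k (m + 1)) p :=
    charP_of_injective_ringHom (MvPowerSeries.C_injective (σ := Fin (m + 1)) (R := k)) p
  have : CharP (PS K (m + 1 + h)) p :=
    charP_of_injective_ringHom (MvPowerSeries.C_injective (σ := Fin (m + 1 + h)) (R := K)) p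
  let T := PS K (m + 1 + h) ⊗[PS k (m + 1)] R
  let ia : R →+* T :=
    (Algebra.TensorProduct.includeRight (R := PS k (m + 1)) (A := PS K (m + 1 + h))
      (B := R)).toRingHom
  let ib : PS K (m + 1 + h) →+* T := algebraMap (PS K (m + 1 + h)) T
  have hAT : ∀ g, algebraMap (PS k (m + 1)) T g = ia (algebraMap (PS k (m + 1)) R g) := fun g =>
    Algebra.TensorProduct.tmul_one_eq_one_tmul g
  have hzR : (zI k (m + 1)).map (algebraMap (PS k (m + 1)) R) = Ideal.span (Set.range Z₀.z) := by
    rw [zI, Ideal.map_span, ← Set.range_comp]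
    exact congrArg Ideal.span (congrArg Set.range (funext hXR))
  obtain ⟨eT, heT, hle⟩ :=
    exists_mult hresR ⟨c₀, hzR.symm ▸ hc₀⟩ hXB hresT hredT he h0
  -- `T` over `R`, and `S` over `T`
  let _ : Algebra R T := ia.toAlgebra
  let _ : Algebra T S := ψ.toAlgebra
  have : IsScalarTower R T S := IsScalarTower.of_algebraMap_eq fun r => (hψR r).symm
  have : IsLocalHom (algebraMap R T) := ⟨fun a ha =>
    (isUnit_map_iff (algebraMap R S) a).1 (IsScalarTower.algebraMap_apply R T S a ▸ ha.map _)⟩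
  have : Module.Flat R T := by
    let e₀ := Algebra.TensorProduct.comm (PS k (m + 1)) R (PS K (m + 1 + h))
    let eR : R ⊗[PS k (m + 1)] PS K (m + 1 + h) ≃ₗ[R] T :=
      { e₀.toLinearEquiv with
        map_smul' := fun r x => by
          change e₀ (r • x) = ia r * e₀ x
          induction x with
          | zero => simp
          | add a b ha hb => rw [smul_add, map_add, map_add, ha, hb, mul_add]
          | tmul a b =>
            simp [e₀, ia, TensorProduct.smul_tmul']
            exact ((Algebra.TensorProduct.tmul_mul_tmul 1 b r a).trans (by rw [one_mul])).symm }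
    exact Module.Flat.of_linearEquiv eR.symm
  have : Module.Finite T S := Module.Finite.of_surjective (Algebra.linearMap T S) hψ
  obtain ⟨F, hFd, hFex, hF0, hFnull⟩ := exists_resolution (R := R) π hπ hker S
  have hgrow : ∀ g : PS k (m + 1), g ≠ 0 → ∀ I : Ideal S, (∃ c, maximalIdeal S ^ c ≤ I) →
      Tendsto (fun j : ℕ => (len S (S ⧸ (Ideal.span {algebraMap T S
        (algebraMap (PS k (m + 1)) T g)} ⊔ I ^ j)) : ℝ) / (j : ℝ) ^ (m + 1)) atTop (𝓝 0) :=
    fun g hg I hI => (growth_fibre hresR hS hg I hI).congr fun j => by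
      rw [hAT, show algebraMap T S (ia (algebraMap _ R g)) = algebraMap R S (algebraMap _ R g) from
        hψR _]
  -- the first variable
  let g₀ : PS k (m + 1) := MvPowerSeries.X 0
  have hg₀ : g₀ ≠ 0 := fun hX => by
    simpa [g₀] using congrArg (MvPowerSeries.coeff (Finsupp.single (0 : Fin (m + 1)) 1)) hX
  have hg₀n : ¬ IsNilpotent (algebraMap (PS k (m + 1)) T g₀) := by
    rintro ⟨N, hN⟩
    refine h0' (tendsto_nhds_unique he' ?_)
    have h1 := ((hgrow (g₀ ^ N) (pow_ne_zero _ hg₀) (maximalIdeal S)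
      ⟨1, (pow_one _).le⟩).const_mul ((m + 1).factorial : ℝ))
    rw [mul_zero] at h1
    refine h1.congr fun j => ?_
    have hz : Ideal.span {algebraMap T S (algebraMap (PS k (m + 1)) T (g₀ ^ N))} ⊔
        maximalIdeal S ^ j = maximalIdeal S ^ j := by
      rw [map_pow _ g₀, hN, map_zero, Ideal.span_singleton_eq_bot.2 rfl, bot_sup_eq]
    rw [hz, len, mul_div_assoc]
  -- the reduction upstairs
  have hidx : m + h + 1 = m + 1 + h := by omega
  let z : Fin (m + h + 1) → T := fun i => ib (MvPowerSeries.X (Fin.cast hidx i))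
  have hzm : ∀ i, z i ∈ maximalIdeal T := fun i => by
    have : Algebra.IsIntegral (PS K (m + 1 + h)) T := inferInstance
    have h1 : Ideal.comap ib (maximalIdeal T) = maximalIdeal (PS K (m + 1 + h)) :=
      IsLocalRing.eq_maximalIdeal (Ideal.isMaximal_comap_of_isIntegral_of_isMaximal (maximalIdeal T))
    rw [← Ideal.mem_comap, h1, Setting.maximalIdeal_eq]
    exact Ideal.subset_span ⟨_, rfl⟩
  have hzred : Red.IsRed z := by
    refine ⟨hzm, ?_⟩
    obtain ⟨c, hc⟩ := hredT
    refine ⟨c, hc.trans (le_of_eq ?_)⟩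
    congr 1
    rw [zI, Ideal.map_span, ← Set.range_comp]
    refine congrArg Ideal.span ?_
    ext t
    exact ⟨fun ⟨i, hi⟩ => ⟨Fin.cast hidx.symm i, (congrArg (fun i => ib (MvPowerSeries.X i))
        (Fin.ext rfl : Fin.cast hidx (Fin.cast hidx.symm i) = i)).trans hi⟩,
      fun ⟨i, hi⟩ => ⟨Fin.cast hidx i, hi⟩⟩
  obtain ⟨Z, hZ⟩ := Red.exists_data hzred
  have hZ0 : Z.z 0 = algebraMap (PS k (m + 1)) T g₀ := by
    rw [hZ, IsScalarTower.algebraMap_apply (PS k (m + 1)) (PS K (m + 1 + h)) T, hXB]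
    exact congrArg (fun i => ib (MvPowerSeries.X i)) (Fin.ext (by simp))
  have : Infinite (ResidueField T) := hinf inferInstance
  have heT' : IsMultiplicity T (m + h + 1) eT := hidx.symm ▸ heT
  have hepos : 0 < e := lt_of_le_of_ne (mult_nonneg he) h0.symm
  refine hle.trans (main_of_base p heT' (hepos.trans_le hle).ne' Z ?_)
  have hres : Function.Surjective ((residue T).comp (algebraMap (PS K (m + 1 + h)) T)) := fun y => by
    obtain ⟨a, ha⟩ := hresT y
    exact ⟨_, ha⟩
  obtain ⟨Q, A', f, M₀, hf, hfr, hA, hQd, hQm, halt, hnull, hk'⟩ :=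
    exists_base_ext p (A := PS k (m + 1)) (B := PS K (m + 1 + h)) (R := R) hres (D := m + h + 1)
      (fun j => (frobenius_flat p k (m + 1) j).1) (fun j => (frobenius_flat p K (m + 1 + h) j).1)
      (fun j => by rw [hidx]; exact (frobenius_flat p K (m + 1 + h) j).2)
      hψ (h := h) (m := m) (by omega) F hFd hFex hF0
      (fun a ha => hFnull a fun s => by rw [Algebra.smul_def, ha, zero_mul])
      hgrow he' h0' Z.z Z.z_mem g₀ hg₀ (hZ0 ▸ Z.z_mem 0) hg₀n
  refine ⟨Q, A', f, M₀, hf, hfr, hA, hQd, hQm, halt, hnull, fun j => ?_⟩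
  obtain ⟨h1, h2, h3⟩ := hk' j
  exact ⟨h1, h2, fun M _ _ _ L hM => h3 M L (hZ0 ▸ hM)⟩

/-- Artinian closed fibres, any residue extension. -/
theorem lech_artinian_fibre (p : ℕ) [Fact p.Prime] (R S : Type u) [CommRing R] [CommRing S]
    [IsLocalRing R] [IsLocalRing S] [IsNoetherianRing R] [IsNoetherianRing S] [Algebra R S]
    [IsLocalHom (algebraMap R S)] [Module.Flat R S] [CharP R p]
    (hS : ∃ c, maximalIdeal S ^ c ≤ (maximalIdeal R).map (algebraMap R S))
    (d : ℕ) (e e' : ℝ) (he : IsMultiplicity R d e) (he' : IsMultiplicity S d e') : e ≤ e' :=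
  reduce_ext p (fun R S _ _ _ _ _ _ _ _ _ _ _ _ _ _ hS d e e' h0 hd he he' =>
    lech_core p R S hS d e e' h0 hd he he') R S hS d e e' he he'

/-- Lech's inequality in characteristic `p`: every flat local homomorphism. -/
theorem lech_char_p_all (p : ℕ) [Fact p.Prime] (R S : Type u) [CommRing R] [CommRing S]
    [IsLocalRing R] [IsLocalRing S] [IsNoetherianRing R] [IsNoetherianRing S] [Algebra R S]
    [IsLocalHom (algebraMap R S)] [Module.Flat R S] [CharP R p] :
    ∃ (d D : ℕ) (e e' : ℝ), ringKrullDim R = d ∧ ringKrullDim S = D ∧ 0 < e ∧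
      IsMultiplicity R d e ∧ IsMultiplicity S D e' ∧ e ≤ e' := by
  obtain ⟨d, e, hd, hpos, he⟩ := exists_multiplicity R
  obtain ⟨D, e', hD, -, he'⟩ := exists_multiplicity S
  exact ⟨d, D, e, e', hd, hD, hpos, he, he', lech_of_artinian_fibre p
    (fun R S _ _ _ _ _ _ _ _ _ _ hS d e e' he he' => lech_artinian_fibre p R S hS d e e' he he')
    R S d D hd hD e e' he he'⟩

end Vale.Agent.P202.Ext
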