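import Vale.Agent.P202.Ext.Setting

/-!
P202, Lech in characteristic `p`, arbitrary residue extensions: Hilbert's syzygy theorem for power
series over a field and for their flat thickenings.
-/

namespace Vale.Agent.P202.Ext

open IsLocalRing Vale.Agent.P202.Zero
open scoped Pointwise

universe u

/-- The `j`-th syzygies of `N` are free. -/
def SyzFree (T : Type u) [CommRing T] :
    ℕ → ∀ (N : Type u) [AddCommGroup N] [Module T N], Prop
  | 0, N, _, _ => Module.Free T N
  | j + 1, N, _, _ => ∀ (r : ℕ) (f : (Fin r → T) →ₗ[T] N), Function.Surjective f →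
      SyzFree T j (LinearMap.ker f)

namespace Syz

variable {T : Type u} [CommRing T]

/-- Lifting freeness along a reduction. -/
theorem free_of_red [IsNoetherianRing T] (P : Type u) [CommRing P] [Nontrivial P] [Algebra T P]
    (hT : Function.Surjective (algebraMap T P))
    (hjac : RingHom.ker (algebraMap T P) ≤ Ideal.jacobson ⊥)
    (N : Type u) [AddCommGroup N] [Module T N] [Module.Finite T N]
    (hpure : ∀ (r : ℕ) (f : (Fin r → T) →ₗ[T] N), Function.Surjective f →
      LinearMap.ker f ⊓ RingHom.ker (algebraMap T P) • (⊤ : Submodule T (Fin r → T)) ≤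
        RingHom.ker (algebraMap T P) • LinearMap.ker f)
    (N' : Type u) [AddCommGroup N'] [Module P N'] [Module T N'] [IsScalarTower T P N']
    [Module.Free P N'] (q : N →ₗ[T] N') (hq : Function.Surjective q)
    (hker : LinearMap.ker q = RingHom.ker (algebraMap T P) • (⊤ : Submodule T N)) :
    Module.Free T N := by
  classical
  set I := RingHom.ker (algebraMap T P)
  have : Module.Finite T N' := Module.Finite.of_surjective q hq
  have : Module.Finite P N' := Module.Finite.of_restrictScalars_finite T P N'
  set r := Module.finrank P N'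
  let b : Module.Basis (Fin r) P N' := Module.finBasis P N'
  choose v hv using fun i => hq (b i)
  let f : (Fin r → T) →ₗ[T] N := Fintype.linearCombination T v
  have hqf : ∀ x, q (f x) = ∑ i, algebraMap T P (x i) • b i := fun x => by
    simp [f, Fintype.linearCombination_apply, hv, algebraMap_smul]
  have hf : Function.Surjective f := by
    rw [← LinearMap.range_eq_top, eq_top_iff]
    refine Submodule.le_of_le_smul_of_le_jacobson_bot Module.Finite.fg_top hjac fun x _ => ?_
    choose a ha using fun i => hT (b.repr (q x) i)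
    refine Submodule.mem_sup.2 ⟨f a, ⟨a, rfl⟩, x - f a, ?_, add_sub_cancel _ _⟩
    rw [← hker, LinearMap.mem_ker, map_sub, hqf, sub_eq_zero]
    simp only [ha, b.sum_repr]
  have hK : LinearMap.ker f ≤ ⊥ := by
    refine Submodule.le_of_le_smul_of_le_jacobson_bot (IsNoetherian.noetherian _) hjac ?_
    rw [bot_sup_eq]
    intro x hx
    refine hpure r f hf ⟨hx, ?_⟩
    have h0 : ∀ i, x i ∈ I := fun i => by
      have h1 := hqf x
      rw [LinearMap.mem_ker.1 hx, map_zero] at h1
      exact Fintype.linearIndependent_iff.1 b.linearIndependent _ h1.symm i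
    rw [pi_eq_sum_univ x]
    exact sum_mem fun i _ => Submodule.smul_mem_smul (h0 i) trivial
  exact Module.Free.of_equiv
    (LinearEquiv.ofBijective f ⟨LinearMap.ker_eq_bot.1 (le_bot_iff.1 hK), hf⟩)

/-- Descent along a quotient of the ring for a class of pure modules closed under syzygies. -/
theorem descend [IsNoetherianRing T] (P : Type u) [CommRing P] [Nontrivial P] [Algebra T P]
    (hT : Function.Surjective (algebraMap T P))
    (hjac : RingHom.ker (algebraMap T P) ≤ Ideal.jacobson ⊥)
    (C : ∀ (N : Type u) [AddCommGroup N] [Module T N], Prop)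
    (hC : ∀ (N : Type u) [AddCommGroup N] [Module T N], C N →
      ∀ (r : ℕ) (f : (Fin r → T) →ₗ[T] N), Function.Surjective f →
        LinearMap.ker f ⊓ RingHom.ker (algebraMap T P) • (⊤ : Submodule T (Fin r → T)) ≤
            RingHom.ker (algebraMap T P) • LinearMap.ker f ∧
          C (LinearMap.ker f)) :
    ∀ (j : ℕ) (N : Type u) [AddCommGroup N] [Module T N] [Module.Finite T N], C N →
      ∀ (N' : Type u) [AddCommGroup N'] [Module P N'] [Module T N'] [IsScalarTower T P N']
        (q : N →ₗ[T] N'), Function.Surjective q →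
        LinearMap.ker q = RingHom.ker (algebraMap T P) • (⊤ : Submodule T N) →
        SyzFree P j N' → SyzFree T j N := by
  classical
  set I := RingHom.ker (algebraMap T P) with hI
  intro j
  induction j with
  | zero =>
    intro N _ _ _ hN N' _ _ _ _ q hq hker hfree
    have : Module.Free P N' := hfree
    exact free_of_red P hT hjac N (fun r f hf => (hC N hN r f hf).1) N' q hq hker
  | succ j ih =>
    intro N _ _ _ hN N' _ _ _ _ q hq hker hfree r f hf
    obtain ⟨hpure, hCK⟩ := hC N hN r f hf
    let f' : (Fin r → P) →ₗ[P] N' :=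
      Fintype.linearCombination P fun i => q (f (Pi.single i 1))
    let ρ : (Fin r → T) →ₗ[T] (Fin r → P) := (Algebra.linearMap T P).compLeft (Fin r)
    have hcomm : ∀ x, f' (ρ x) = q (f x) := fun x => by
      conv_rhs => rw [pi_eq_sum_univ' x, map_sum, map_sum]
      simp [f', ρ, Fintype.linearCombination_apply, algebraMap_smul]
    have hρ : Function.Surjective ρ := fun y => by
      choose x hx using fun i => hT (y i)
      exact ⟨x, funext hx⟩
    have hρker : LinearMap.ker ρ ≤ I • (⊤ : Submodule T (Fin r → T)) := fun x hx => by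
      rw [pi_eq_sum_univ x]
      exact sum_mem fun i _ => Submodule.smul_mem_smul (congrFun hx i : algebraMap T P (x i) = 0)
        trivial
    have hρI : I • (⊤ : Submodule T (Fin r → T)) ≤ LinearMap.ker ρ :=
      Submodule.smul_le.2 fun a ha x _ => funext fun i => by
        simp [ρ, smul_eq_mul, RingHom.mem_ker.1 ha]
    have hf' : Function.Surjective f' := fun y => by
      obtain ⟨z, rfl⟩ := hq y
      obtain ⟨x, rfl⟩ := hf z
      exact ⟨ρ x, hcomm x⟩
    let qK : LinearMap.ker f →ₗ[T] (LinearMap.ker f').restrictScalars T :=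
      (ρ ∘ₗ (LinearMap.ker f).subtype).codRestrict _ fun x => by
        change f' (ρ (x : Fin r → T)) = 0
        rw [hcomm, LinearMap.mem_ker.1 x.2, map_zero]
    have : IsScalarTower T P (Fin r → P) := inferInstance
    have : IsScalarTower T P (LinearMap.ker f') := Submodule.isScalarTower _
    refine @ih (LinearMap.ker f) _ _ _ hCK (LinearMap.ker f') _ _ _
      ⟨fun a b c => Subtype.ext (smul_assoc a b c.1)⟩
      (qK : LinearMap.ker f →ₗ[T] LinearMap.ker f') ?_ ?_ (hfree r f' hf')
    · rintro ⟨y, hy⟩
      obtain ⟨x, rfl⟩ := hρ y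
      have h1 : f x ∈ (I • (⊤ : Submodule T (Fin r → T))).map f := by
        rw [Submodule.map_smul'', Submodule.map_top, LinearMap.range_eq_top.2 hf, ← hker,
          LinearMap.mem_ker, ← hcomm]
        exact LinearMap.mem_ker.1 hy
      obtain ⟨i, hi, hix⟩ := h1
      refine ⟨⟨x - i, by rw [LinearMap.mem_ker, map_sub, hix, sub_self]⟩, Subtype.ext ?_⟩
      change ρ (x - i) = ρ x
      rw [map_sub, LinearMap.mem_ker.1 (hρI hi), sub_zero]
    · refine le_antisymm (fun x hx => ?_) ?_
      · have h1 : (x : Fin r → T) ∈ I • LinearMap.ker f :=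
          hpure ⟨x.2, hρker (congrArg Subtype.val (LinearMap.mem_ker.1 hx))⟩
        rw [show I • LinearMap.ker f =
          (I • (⊤ : Submodule T (LinearMap.ker f))).map (LinearMap.ker f).subtype by
            rw [Submodule.map_smul'', Submodule.map_top, Submodule.range_subtype]] at h1
        obtain ⟨z, hz, hzx⟩ := h1
        exact (Subtype.ext hzx : z = x) ▸ hz
      · refine Submodule.smul_le.2 fun a ha x _ => LinearMap.mem_ker.2 (Subtype.ext ?_)
        change ρ (a • (x : Fin r → T)) = 0
        exact LinearMap.mem_ker.1 (hρI (Submodule.smul_mem_smul ha trivial))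

/-- A surjection of rings equips quotients with a reduction. -/
theorem descend_all [IsNoetherianRing T] (P : Type u) [CommRing P] [Nontrivial P] [Algebra T P]
    (hT : Function.Surjective (algebraMap T P))
    (hjac : RingHom.ker (algebraMap T P) ≤ Ideal.jacobson ⊥)
    (C : ∀ (N : Type u) [AddCommGroup N] [Module T N], Prop)
    (hC : ∀ (N : Type u) [AddCommGroup N] [Module T N], C N →
      ∀ (r : ℕ) (f : (Fin r → T) →ₗ[T] N), Function.Surjective f →
        LinearMap.ker f ⊓ RingHom.ker (algebraMap T P) • (⊤ : Submodule T (Fin r → T)) ≤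
            RingHom.ker (algebraMap T P) • LinearMap.ker f ∧
          C (LinearMap.ker f))
    {j : ℕ} (hP : ∀ (N' : Type u) [AddCommGroup N'] [Module P N'] [Module.Finite P N'],
      SyzFree P j N')
    (N : Type u) [AddCommGroup N] [Module T N] [Module.Finite T N] (hN : C N) : SyzFree T j N := by
  set I := RingHom.ker (algebraMap T P)
  let N' := N ⧸ I • (⊤ : Submodule T N)
  let _ : SMul P N' := ⟨fun p y => Function.surjInv hT p • y⟩
  have hsmul : ∀ (c : T) (y : N'), algebraMap T P c • y = c • y := fun c y => by
    change Function.surjInv hT (algebraMap T P c) • y = c • y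
    have h0 : Function.surjInv hT (algebraMap T P c) - c ∈ I := by
      rw [RingHom.mem_ker, map_sub, Function.surjInv_eq hT, sub_self]
    obtain ⟨x, rfl⟩ := Submodule.mkQ_surjective _ y
    rw [← map_smul, ← map_smul, Submodule.mkQ_apply, Submodule.mkQ_apply, Submodule.Quotient.eq,
      ← sub_smul]
    exact Submodule.smul_mem_smul h0 trivial
  let _ : Module P N' := Function.Surjective.moduleLeft (algebraMap T P) hT hsmul
  have : IsScalarTower T P N' := IsScalarTower.of_algebraMap_smul hsmul
  have : Module.Finite P N' := Module.Finite.of_restrictScalars_finite T P N'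
  exact descend P hT hjac C hC j N hN N' (Submodule.mkQ _) (Submodule.mkQ_surjective _)
    (Submodule.ker_mkQ _) (hP N')

/-- Regular elements are pure. -/
theorem pure_regular (x : T) {N : Type u} [AddCommGroup N] [Module T N]
    (hx : IsSMulRegular N x) {r : ℕ} (f : (Fin r → T) →ₗ[T] N) :
    LinearMap.ker f ⊓ Ideal.span {x} • (⊤ : Submodule T (Fin r → T)) ≤
      Ideal.span {x} • LinearMap.ker f := by
  rintro v ⟨hv, hvx⟩
  obtain ⟨w, -, rfl⟩ := Submodule.mem_smul_pointwise_iff_exists _ _ _ |>.1
    (show v ∈ x • (⊤ : Submodule T (Fin r → T)) by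
      rwa [← Submodule.ideal_span_singleton_smul])
  refine Submodule.smul_mem_smul (Ideal.mem_span_singleton_self x) ?_
  rw [SetLike.mem_coe, LinearMap.mem_ker, map_smul] at hv
  exact LinearMap.mem_ker.2 (hx (hv.trans (smul_zero x).symm))

/-- Flat modules are pure. -/
theorem pure_flat {R : Type u} [CommRing R] [Algebra R T] (I : Ideal R) {N : Type u}
    [AddCommGroup N] [Module T N] [Module R N] [IsScalarTower R T N] [Module.Flat R N] {r : ℕ}
    (f : (Fin r → T) →ₗ[T] N) (hf : Function.Surjective f) :
    LinearMap.ker f ⊓ I.map (algebraMap R T) • (⊤ : Submodule T (Fin r → T)) ≤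
      I.map (algebraMap R T) • LinearMap.ker f := by
  classical
  rintro v ⟨hv, hvI⟩
  have h1 : v ∈ I • (⊤ : Submodule R (Fin r → T)) := by
    have h2 : (I.map (algebraMap R T) • (⊤ : Submodule T (Fin r → T))).restrictScalars R =
        I • (⊤ : Submodule R (Fin r → T)) := by
      rw [← Submodule.restrictScalars_top R T (Fin r → T), Ideal.smul_restrictScalars]
    rw [← h2]
    exact hvI
  rw [show (⊤ : Submodule R (Fin r → T)) = Submodule.span R (Set.range id) by simp,
    Submodule.mem_ideal_smul_span_iff_exists_sum] at h1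
  obtain ⟨a, ha, hsum⟩ := h1
  have h0 : ∑ z : a.support, a z • f (z : Fin r → T) = 0 := by
    rw [Finset.sum_coe_sort a.support (fun z => a z • f z)]
    simp_rw [← LinearMap.map_smul_of_tower f]
    rw [← map_sum, ← LinearMap.mem_ker.1 hv, ← hsum]
    rfl
  obtain ⟨l, α, y, hy, hα⟩ := Module.Flat.isTrivialRelation_of_sum_smul_eq_zero h0
  choose u hu using fun i => hf (y i)
  have hv' : v = ∑ z : a.support, a z • ((z : Fin r → T) - ∑ i, α z i • u i) := by
    simp only [smul_sub, Finset.smul_sum, smul_smul, Finset.sum_sub_distrib]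
    rw [Finset.sum_comm (f := fun (z : a.support) i => (a z * α z i) • u i)]
    simp only [← Finset.sum_smul, hα, zero_smul, Finset.sum_const_zero, sub_zero]
    rw [Finset.sum_coe_sort a.support (fun z => a z • z), ← hsum]
    rfl
  rw [hv']
  refine sum_mem fun z _ => ?_
  rw [← algebraMap_smul T (a z)]
  refine Submodule.smul_mem_smul (Ideal.mem_map_of_mem _ (ha z)) ?_
  rw [LinearMap.mem_ker, map_sub, map_sum, show f z = _ from hy z, sub_eq_zero]
  simp [LinearMap.map_smul_of_tower, hu]

/-- Kernels between flat modules are flat. -/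
theorem flat_ker {R : Type u} [CommRing R] [Algebra R T] [Module.Flat R T] {N : Type u}
    [AddCommGroup N] [Module T N] [Module R N] [IsScalarTower R T N] [Module.Flat R N] {r : ℕ}
    (f : (Fin r → T) →ₗ[T] N) (hf : Function.Surjective f) :
    Module.Flat R (LinearMap.ker f) := by
  have : Module.Flat R (Fin r → T) := Module.Flat.trans R T (Fin r → T)
  let g : LinearMap.ker f →ₗ[R] (Fin r → T) := (LinearMap.ker f).subtype.restrictScalars R
  have hex : Function.Exact g (f.restrictScalars R) := fun x =>
    ⟨fun h => ⟨⟨x, h⟩, rfl⟩, by rintro ⟨y, rfl⟩; exact y.2⟩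
  rw [Module.Flat.iff_rTensor_injective']
  intro J
  have h1 := LinearMap.lTensor_injective_of_exact_of_flat (f.restrictScalars R) hf g
    Subtype.val_injective hex J
  have h2 := Module.Flat.rTensor_preserves_injective_linearMap (M := Fin r → T) J.subtype
    J.injective_subtype
  have h3 : (g.lTensor R) ∘ₗ (J.subtype.rTensor (LinearMap.ker f)) =
      (J.subtype.rTensor (Fin r → T)) ∘ₗ (g.lTensor J) := by
    rw [LinearMap.lTensor_comp_rTensor, LinearMap.rTensor_comp_lTensor]
  intro a b hab
  apply h1
  apply h2
  have := congrArg (g.lTensor R) hab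
  rw [← LinearMap.comp_apply, ← LinearMap.comp_apply (g.lTensor R), h3] at this
  exact this

/-- Hilbert's syzygy theorem for power series over a field. -/
theorem syzFree_ps (K : Type u) [Field K] (h : ℕ) :
    ∀ (N : Type u) [AddCommGroup N] [Module (PS K h) N] [Module.Finite (PS K h) N],
      SyzFree (PS K h) h N := by
  induction h with
  | zero =>
    intro N _ _ _
    have hfield : IsField (PS K 0) := by
      rw [IsLocalRing.isField_iff_maximalIdeal_eq, Setting.maximalIdeal_eq, zI]
      simp
    let _ : Field (PS K 0) := hfield.toField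
    exact Module.Free.of_divisionRing (PS K 0) N
  | succ h ih =>
    have key : ∀ (N : Type u) [AddCommGroup N] [Module (PS K (1 + h)) N]
        [Module.Finite (PS K (1 + h)) N], SyzFree (PS K (1 + h)) (h + 1) N := by
      intro N _ _ _ r f hf
      obtain ⟨-, π, -, -, hπ, hker, -, -, -⟩ :=
        exists_base_map (d := 1) (h := h) (MvPowerSeries.C : K →+* PS K h)
      set x : PS K (1 + h) := MvPowerSeries.X (Fin.castAdd h 0) with hxdef
      have hx0 : x ≠ 0 := fun h0 => by
        have := congrArg (MvPowerSeries.coeff (Finsupp.single (Fin.castAdd h (0 : Fin 1)) 1)) h0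
        rw [hxdef, MvPowerSeries.coeff_X, if_pos rfl, map_zero] at this
        exact one_ne_zero this
      let _ : Algebra (PS K (1 + h)) (PS K h) := π.toAlgebra
      have hI : RingHom.ker (algebraMap (PS K (1 + h)) (PS K h)) = Ideal.span {x} := by
        rw [RingHom.algebraMap_toAlgebra, hker]
        congr 1
        ext y
        simp [Fin.exists_fin_one, hxdef, eq_comm]
      refine descend_all (T := PS K (1 + h)) (PS K h) hπ ?_
        (fun N _ _ => IsSMulRegular N x) (fun N _ _ hN r f hf => ⟨?_, ?_⟩) ih
        (LinearMap.ker f) ?_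
      · rw [IsLocalRing.jacobson_eq_maximalIdeal _ bot_ne_top]
        exact le_maximalIdeal (RingHom.ker_ne_top _)
      · rw [hI]
        exact pure_regular x hN f
      · exact fun a b hab => Subtype.ext (funext fun i =>
          mul_left_cancel₀ hx0 (congrFun (congrArg Subtype.val hab) i))
      · exact fun a b hab => Subtype.ext (funext fun i =>
          mul_left_cancel₀ hx0 (congrFun (congrArg Subtype.val hab) i))
    have main : ∀ j, j = 1 + h → ∀ (N : Type u) [AddCommGroup N] [Module (PS K j) N]
        [Module.Finite (PS K j) N], SyzFree (PS K j) (h + 1) N := by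
      rintro j rfl
      exact key
    exact main _ (Nat.add_comm h 1)

/-- Syzygies over a flat thickening of power series. -/
theorem syzFree_flat {R : Type u} [CommRing R] [IsLocalRing R] [IsLocalRing T]
    [IsNoetherianRing T] [Algebra R T] [Module.Flat R T] {K : Type u} [Field K] {h : ℕ}
    (π : T →+* PS K h) (hπ : Function.Surjective π)
    (hker : RingHom.ker π = (maximalIdeal R).map (algebraMap R T))
    (M : Type u) [AddCommGroup M] [Module T M] [Module.Finite T M] [Module R M]
    [IsScalarTower R T M] [Module.Flat R M] : SyzFree T h M := by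
  let _ : Algebra T (PS K h) := π.toAlgebra
  have hI : RingHom.ker (algebraMap T (PS K h)) = (maximalIdeal R).map (algebraMap R T) := hker
  refine descend_all (T := T) (PS K h) hπ ?_
    (fun N _ _ => ∃ _ : Module R N, ∃ _ : IsScalarTower R T N, Module.Flat R N)
    (fun N _ _ hN r f hf => ?_) (syzFree_ps K h) M ⟨‹_›, ‹_›, ‹_›⟩
  · rw [IsLocalRing.jacobson_eq_maximalIdeal _ bot_ne_top]
    exact le_maximalIdeal (RingHom.ker_ne_top _)
  · obtain ⟨_, _, _⟩ := hN
    exact ⟨hI ▸ pure_flat (maximalIdeal R) f hf, inferInstance, inferInstance, flat_ker f hf⟩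

end Syz

end Vale.Agent.P202.Ext
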